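import Vale.Agent.P006.H206.Full

/-!
P006, block NC: divisor sums, sums of negative powers of the norm, the gcd weight.
-/

namespace Vale.Agent.P006.NC

open Finset

theorem card_DB_le (a : ℕ) : ((DB a).card : ℝ) ≤ 64 * 2 ^ a := by
  have h1 : ((DB a).card : ℝ) ≤ (PB (2 * 2 ^ a)).card := by
    exact_mod_cast Finset.card_le_card (DB_subset a)
  have h2 := card_PB_le (X := 2 * 2 ^ a) (by positivity)
  linarith

theorem sum_rpow_le {s : ℝ} (hs : 1 < s) (X : ℝ) :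
    ∑ k ∈ PB X, (N k : ℝ) ^ (-s) ≤ 64 / (1 - 2 ^ (1 - s)) := by
  have hq : (2 : ℝ) ^ (1 - s) < 1 := Real.rpow_lt_one_of_one_lt_of_neg (by norm_num) (by linarith)
  have hq0 : 0 < (2 : ℝ) ^ (1 - s) := by positivity
  refine (sum_PB_le_dyadic (fun k => by positivity) X).trans ?_
  have h1 : ∀ a ∈ range (Dn X), ∑ k ∈ DB a, (N k : ℝ) ^ (-s) ≤ 64 * ((2 : ℝ) ^ (1 - s)) ^ a := by
    intro a _
    have h2 : ∀ k ∈ DB a, (N k : ℝ) ^ (-s) ≤ ((2 : ℝ) ^ a) ^ (-s) := by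
      intro k hk
      rw [mem_DB] at hk
      exact Real.rpow_le_rpow_of_nonpos (by positivity) hk.2 (by linarith)
    calc ∑ k ∈ DB a, (N k : ℝ) ^ (-s) ≤ ∑ k ∈ DB a, ((2 : ℝ) ^ a) ^ (-s) := Finset.sum_le_sum h2
      _ = (DB a).card * ((2 : ℝ) ^ a) ^ (-s) := by rw [Finset.sum_const, nsmul_eq_mul]
      _ ≤ (64 * 2 ^ a) * ((2 : ℝ) ^ a) ^ (-s) := by
          have := card_DB_le a
          gcongr
      _ = 64 * ((2 : ℝ) ^ (1 - s)) ^ a := by
          have e1 : ((2 : ℝ) ^ a) ^ (-s) = ((2 : ℝ) ^ (-s)) ^ a := by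
            rw [← Real.rpow_natCast, ← Real.rpow_natCast, ← Real.rpow_mul (by norm_num),
              ← Real.rpow_mul (by norm_num), mul_comm]
          have e2 : (2 : ℝ) ^ (1 - s) = 2 * 2 ^ (-s) := by
            rw [sub_eq_add_neg, Real.rpow_add (by norm_num), Real.rpow_one]
          rw [e1, e2, mul_pow]; ring
  calc ∑ a ∈ range (Dn X), ∑ k ∈ DB a, (N k : ℝ) ^ (-s)
      ≤ ∑ a ∈ range (Dn X), 64 * ((2 : ℝ) ^ (1 - s)) ^ a := Finset.sum_le_sum h1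
    _ = 64 * ∑ a ∈ range (Dn X), ((2 : ℝ) ^ (1 - s)) ^ a := by rw [Finset.mul_sum]
    _ ≤ 64 * (1 - 2 ^ (1 - s))⁻¹ := by
        have h3 : ∑ a ∈ range (Dn X), ((2 : ℝ) ^ (1 - s)) ^ a ≤ (1 - 2 ^ (1 - s))⁻¹ :=
          (summable_geometric_of_lt_one hq0.le hq).sum_le_tsum _ (fun _ _ => by positivity) |>.trans
            (tsum_geometric_of_lt_one hq0.le hq).le
        gcongr
    _ = _ := by rw [div_eq_mul_inv]

theorem sum_inv_le {X : ℝ} (hX : 1 ≤ X) :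
    ∑ k ∈ PB X, 1 / (N k : ℝ) ≤ 128 * (1 + Real.log X) := by
  refine (sum_PB_le_dyadic (fun k => by positivity) X).trans ?_
  have h1 : ∀ a ∈ range (Dn X), ∑ k ∈ DB a, 1 / (N k : ℝ) ≤ 64 := by
    intro a _
    have h2 : ∀ k ∈ DB a, 1 / (N k : ℝ) ≤ 1 / 2 ^ a := by
      intro k hk
      rw [mem_DB] at hk
      exact one_div_le_one_div_of_le (by positivity) hk.2
    calc ∑ k ∈ DB a, 1 / (N k : ℝ) ≤ ∑ k ∈ DB a, 1 / (2 : ℝ) ^ a := Finset.sum_le_sum h2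
      _ = (DB a).card * (1 / (2 : ℝ) ^ a) := by rw [Finset.sum_const, nsmul_eq_mul]
      _ ≤ (64 * 2 ^ a) * (1 / (2 : ℝ) ^ a) := by
          have := card_DB_le a
          gcongr
      _ = 64 := by field_simp
  calc ∑ a ∈ range (Dn X), ∑ k ∈ DB a, 1 / (N k : ℝ) ≤ ∑ a ∈ range (Dn X), (64 : ℝ) :=
        Finset.sum_le_sum h1
    _ = Dn X * 64 := by rw [Finset.sum_const, nsmul_eq_mul, Finset.card_range]
    _ ≤ (2 * (1 + Real.log X)) * 64 := by
        have := Dn_le hX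
        gcongr
    _ = _ := by ring

/-! ### Multiples -/

theorem sum_PB_dvd_le {g : O} (hg : Primary g) (A : ℝ) {F : O → ℝ} (hF : ∀ j, 0 ≤ F j) :
    (∑ j ∈ PB A with g ∣ j, F j) ≤ ∑ j ∈ PB (A / N g), F (g * j) := by
  classical
  have hg0 := hg.ne_zero
  have hN : 0 < (N g : ℝ) := by exact_mod_cast N_pos hg0
  have hinj : Function.Injective (fun j : O => g * j) := mul_right_injective₀ hg0
  rw [← Finset.sum_image (s := PB (A / N g)) (f := F) (g := fun j => g * j) (hinj.injOn)]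
  refine Finset.sum_le_sum_of_subset_of_nonneg ?_ fun j _ _ => hF j
  intro j hj
  rw [Finset.mem_filter, mem_PB] at hj
  obtain ⟨⟨hN1, hs⟩, ⟨m, rfl⟩⟩ := hj
  rw [Finset.mem_image]
  refine ⟨m, ?_, rfl⟩
  rw [mem_PB]
  refine ⟨?_, hs.of_mul_left hg⟩
  rw [le_div_iff₀ hN, mul_comm]
  rw [N_mul] at hN1
  exact_mod_cast hN1

theorem sum_NZ_dvd_le {g : O} (hg0 : g ≠ 0) (H : ℝ) {F : O → ℝ} (hF : ∀ j, 0 ≤ F j) :
    (∑ κ ∈ NZ H with g ∣ κ, F κ) ≤ ∑ κ ∈ NZ (H / N g), F (g * κ) := by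
  classical
  have hN : 0 < (N g : ℝ) := by exact_mod_cast N_pos hg0
  have hinj : Function.Injective (fun j : O => g * j) := mul_right_injective₀ hg0
  rw [← Finset.sum_image (s := NZ (H / N g)) (f := F) (g := fun j => g * j) (hinj.injOn)]
  refine Finset.sum_le_sum_of_subset_of_nonneg ?_ fun j _ _ => hF j
  intro j hj
  rw [Finset.mem_filter, mem_NZ] at hj
  obtain ⟨⟨hN1, hs⟩, ⟨m, rfl⟩⟩ := hj
  rw [Finset.mem_image]
  refine ⟨m, ?_, rfl⟩
  rw [mem_NZ]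
  refine ⟨?_, right_ne_zero_of_mul hs⟩
  rw [le_div_iff₀ hN, mul_comm]
  rw [N_mul] at hN1
  exact_mod_cast hN1

/-! ### The gcd weight -/

/-- the norm of the gcd -/
noncomputable def gw (j κ : O) : ℝ := (N (EuclideanDomain.gcd j κ) : ℝ)

theorem gw_nonneg (j κ : O) : 0 ≤ gw j κ := by unfold gw; positivity

theorem N_le_of_dvd {a b : O} (hb : b ≠ 0) (h : a ∣ b) : (N a : ℝ) ≤ N b := by
  have := Nat.le_of_dvd (N_pos hb) (N_dvd_N h)
  exact_mod_cast this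

theorem gw_le {j : O} (hj : j ≠ 0) (κ : O) : gw j κ ≤ N j :=
  N_le_of_dvd hj (EuclideanDomain.gcd_dvd_left j κ)

/-- the gcd of a squarefree primary element and `κ` can be taken squarefree primary -/
theorem exists_primary_gcd {j : O} (hj : SqP j) (κ : O) : ∃ g : O, SqP g ∧ g ∣ j ∧ g ∣ κ ∧
    gw j κ = N g ∧ (∀ d, d ∣ j → d ∣ κ → d ∣ g) := by
  set d := EuclideanDomain.gcd j κ with hd
  have hdj : d ∣ j := EuclideanDomain.gcd_dvd_left j κ
  have hdk : d ∣ κ := EuclideanDomain.gcd_dvd_right j κ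
  have hl : ¬ lam ∣ d := fun h => hj.1.not_lam_dvd (h.trans hdj)
  obtain ⟨u, hu, hp⟩ := exists_unit_mul_primary hl
  have hass : Associated d (u * d) := associated_unit_mul_right d u hu
  refine ⟨u * d, ⟨hp, ?_⟩, hass.symm.dvd.trans hdj, hass.symm.dvd.trans hdk, ?_, ?_⟩
  · exact (hj.2.squarefree_of_dvd (hass.symm.dvd.trans hdj))
  · rw [gw, ← hd, N_mul, isUnit_iff_N.1 hu, one_mul]
  · intro e he1 he2
    exact (EuclideanDomain.dvd_gcd he1 he2).trans hass.dvd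

theorem gw_le_sum {j : O} (hj : SqP j) {A : ℝ} (hA : (N j : ℝ) ≤ A) (κ : O) :
    gw j κ ≤ ∑ g ∈ PB A with (g ∣ j ∧ g ∣ κ), (N g : ℝ) := by
  classical
  obtain ⟨g, hg, hgj, hgk, he, _⟩ := exists_primary_gcd hj κ
  rw [he]
  refine Finset.single_le_sum (f := fun g : O => (N g : ℝ)) (fun _ _ => by positivity) ?_
  rw [Finset.mem_filter, mem_PB]
  exact ⟨⟨(N_le_of_dvd hj.ne_zero hgj).trans hA, hg⟩, hgj, hgk⟩

/-- the gcd weight of a representation -/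
theorem gw_rep_le {j : O} (hj : SqP j) {u : O} (hu : u ∈ U3) (l : ℕ) {k1 k2 n : O}
    (hk1 : k1 ≠ 0) (hk2 : k2 ≠ 0) :
    gw j (rep u l k1 k2 n) ≤ (N k1 : ℝ) * N k2 * gw j n := by
  obtain ⟨d, hd, hdj, hdk, he, _⟩ := exists_primary_gcd hj (rep u l k1 k2 n)
  obtain ⟨g', hg', hg'j, hg'n, he', hmax⟩ := exists_primary_gcd hj n
  rw [he, he']
  have huu : IsUnit u := isUnit_iff_N.2 (N_U3 hu)
  -- d is coprime to u λ^l
  have hcl : IsCoprime d (u * lam ^ l) := by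
    apply IsCoprime.mul_right
    · obtain ⟨v, hv⟩ := huu.exists_left_inv
      exact ⟨0, v, by rw [hv]; ring⟩
    · exact (hd.1.isCoprime_lam.symm).pow_right
  have h1 : d ∣ (k1 * k2 ^ 2) * n ^ 3 := by
    apply hcl.dvd_of_dvd_mul_left
    rw [rep] at hdk
    convert hdk using 1
    ring
  have h2 : d ∣ (k1 * k2 * n) ^ 3 := h1.trans ⟨k1 ^ 2 * k2, by ring⟩
  have h3 : d ∣ k1 * k2 * n :=
    (hd.2.dvd_pow_iff_dvd (by norm_num)).1 h2
  -- split d by its gcd with n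
  obtain ⟨e, he1, he2, he3, _, hemax⟩ := exists_primary_gcd hd n
  obtain ⟨d', rfl⟩ := he2
  have he0 : e ≠ 0 := he1.ne_zero
  have hcop : IsCoprime d' n := by
    have hd'0 : d' ≠ 0 := right_ne_zero_of_mul hd.ne_zero
    by_contra hnc
    obtain ⟨p, hp, hpd, hpn⟩ : ∃ p : O, Prime p ∧ p ∣ d' ∧ p ∣ n := by
      by_contra hne
      push Not at hne
      apply hnc
      exact isCoprime_of_prime_dvd (fun h => hd'0 h.1) (fun z hz h1 h2 => hne z hz h1 h2)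
    have hpe : p ∣ e := hemax p (hpd.trans (Dvd.intro_left e rfl)) hpn
    exact hp.not_isUnit (hd.2 p (mul_dvd_mul hpe hpd))
  have h4 : d' ∣ k1 * k2 := by
    have h5 : d' ∣ k1 * k2 * n := (Dvd.intro_left e rfl).trans h3
    exact hcop.dvd_of_dvd_mul_right h5
  have h6 : e ∣ g' := hmax e ((Dvd.intro d' rfl).trans hdj) he3
  rw [N_mul]
  push_cast
  have h7 := N_le_of_dvd hg'.ne_zero h6
  have h8 := N_le_of_dvd (mul_ne_zero hk1 hk2) h4
  rw [N_mul] at h8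
  push_cast at h8
  have h9 : (0 : ℝ) ≤ N e := by positivity
  calc (N e : ℝ) * N d' ≤ N g' * (N k1 * N k2) := by gcongr
    _ = _ := by ring

end Vale.Agent.P006.NC
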