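import Vale.Agent.P006.H206.Final
import Vale.Agent.P006.PS.PStar
import Vale.Agent.P006.CLS.Recip
import Vale.Agent.P006.H845.Order

/-!
P006, block NC: the large sieve hypotheses discharged, and the unconditional interior theorem.
-/

namespace Vale.Agent.P006.NC

open Finset

theorem PB_eq_SF (X : ℝ) : PB X = HB.SF X := by
  ext z
  rw [mem_PB, HB.mem_SF]
  rfl

theorem PB_eq_SPB (X : ℝ) : PB X = Vale.Agent.P006.SPB X := by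
  ext z
  rw [mem_PB, mem_SPB]
  constructor
  · rintro ⟨h1, h2, h3⟩
    exact ⟨⟨h2, h1⟩, h3⟩
  · rintro ⟨⟨h2, h1⟩, h3⟩
    exact ⟨h1, h2, h3⟩

theorem NZ_eq_Hn (X : ℝ) : NZ X = HB.Hn X := by
  ext z
  rw [mem_NZ, HB.mem_Hn]

theorem hbsq : HBsq := by
  intro ε hε
  obtain ⟨C, hC, h⟩ := PS.cubic_large_sieve_symC ε hε
  refine ⟨C, hC, ?_⟩
  intro R K hR hK γ
  have h1 := h R K hR hK γ
  rw [PB_eq_SF, PB_eq_SF]
  simp only [Fs, PB_eq_SF]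
  exact h1

theorem clsc : ∃ C : ℝ, 0 < C ∧ CLSc C := by
  classical
  refine ⟨max CLS.cLS2 1, by positivity, ?_⟩
  intro R Q hR hQ γ
  set P : Finset (O × O) := (PB Q ×ˢ PB Q).filter
    (fun p => IsCoprime p.1 p.2 ∧ (N p.1 : ℝ) * N p.2 ≤ Q) with hP
  have h := CLS.large_sieve_recip hQ hR P (by
    intro p hp
    rw [hP, Finset.mem_filter, Finset.mem_product, mem_PB, mem_PB] at hp
    obtain ⟨⟨h1, h2⟩, hc, hle⟩ := hp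
    refine ⟨h1.2.1, h2.2.1, ?_, ?_⟩
    · rw [squarefree_mul_iff]
      exact ⟨hc.isRelPrime, h1.2.2, h2.2.2⟩
    · rw [N_mul]; push_cast; exact hle) (PB R) (fun n hn => by
      rw [mem_PB] at hn
      exact ⟨hn.2.1, hn.1⟩) γ
  have e : ∑ k1 ∈ PB Q, ∑ k2 ∈ PB Q,
      (if IsCoprime k1 k2 ∧ (N k1 : ℝ) * N k2 ≤ Q then
        ‖∑ r ∈ PB R, γ r * ch r k1 * ch r k2 ^ 2‖ ^ 2 else 0) =
      ∑ p ∈ P, ‖∑ n ∈ PB R, γ n * (toC (sym p.1 n) * toC (sym p.2 n) ^ 2)‖ ^ 2 := by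
    rw [hP, Finset.sum_filter, Finset.sum_product]
    refine Finset.sum_congr rfl fun k1 _ => Finset.sum_congr rfl fun k2 _ => ?_
    simp only [ch, mul_assoc]
  have hE : 0 ≤ ∑ r ∈ PB R, ‖γ r‖ ^ 2 := Finset.sum_nonneg fun _ _ => by positivity
  calc _ = ∑ p ∈ P, ‖∑ n ∈ PB R, γ n * (toC (sym p.1 n) * toC (sym p.2 n) ^ 2)‖ ^ 2 := by
        rw [← e]
    _ ≤ CLS.cLS2 * (R + Q ^ 2) * ∑ r ∈ PB R, ‖γ r‖ ^ 2 := h
    _ ≤ max CLS.cLS2 1 * (R + Q ^ 2) * ∑ r ∈ PB R, ‖γ r‖ ^ 2 := by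
        have : CLS.cLS2 ≤ max CLS.cLS2 1 := le_max_left _ _
        gcongr

/-- the interior theorem, large sieves discharged -/
theorem nc_int {δ : ℝ} (hδ : 0 < δ) : ∃ C η : ℝ, 0 < C ∧ 0 < η ∧ ∀ (ι : Type) (S : Finset ι)
      (α : ι → O → ℂ), Fam S α → ∀ A H Q0 J0 σ : ℝ, 1 ≤ A → 1 ≤ H → H ≤ A ^ (1 - δ) → 1 ≤ Q0 →
      1 ≤ J0 → 0 ≤ σ → SWhyp S α A H Q0 J0 σ →
      ∑ s ∈ S, NCQ (α s) A H ≤ C * A ^ 2 * H ^ (1 / 3 : ℝ) *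
        (Q0 ^ 3 * (J0 ^ 2 * σ + J0 ^ (-(1 / 2 : ℝ))) +
          (1 + Real.log A) ^ 3 * Q0 ^ (-(1 / 3 : ℝ)) + A ^ (-η)) := by
  obtain ⟨C', hC', h⟩ := clsc
  exact nc_interior hδ hbsq hC' h

/-- `∑_{a : j ∣ a} f (a / j) = ∑_r f r` -/
theorem sum_dvd_eq_sum_mul {A : ℝ} {j : O} (hj : SqP j) (β : O → ℂ) (f : O → ℂ)
    (hβ : ∀ a, β a ≠ 0 → SqP a) :
    ∑ a ∈ (Vale.Agent.P006.SPB A).filter (fun a => j ∣ a), β a * f (a / j) =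
      ∑ r ∈ PB (A / N j), β (j * r) * f r := by
  classical
  have hj0 := hj.ne_zero
  have hN0 : (0 : ℝ) < N j := by exact_mod_cast N_pos hj0
  symm
  rw [← Finset.sum_filter_of_ne (p := fun r => SqP (j * r))
    (s := PB (A / N j)) (f := fun r => β (j * r) * f r)]
  swap
  · intro r _ hr
    exact hβ _ (left_ne_zero_of_mul hr)
  refine Finset.sum_bij (fun r _ => j * r) ?_ ?_ ?_ ?_
  · intro r hr
    rw [Finset.mem_filter, mem_PB] at hr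
    rw [Finset.mem_filter, ← PB_eq_SPB, mem_PB]
    refine ⟨⟨?_, hr.2⟩, dvd_mul_right _ _⟩
    rw [N_mul]; push_cast
    have := hr.1.1
    rw [le_div_iff₀ hN0] at this
    linarith
  · intro r1 _ r2 _ h
    exact mul_left_cancel₀ hj0 h
  · intro a ha
    rw [Finset.mem_filter, ← PB_eq_SPB, mem_PB] at ha
    obtain ⟨⟨ha1, ha2⟩, r, rfl⟩ := ha
    refine ⟨r, ?_, rfl⟩
    rw [Finset.mem_filter, mem_PB]
    have hsq : Squarefree r := ha2.2.squarefree_of_dvd (dvd_mul_left _ _)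
    have hpr : Primary r := by
      have h1 : (3 : O) ∣ j * r - 1 := ha2.1
      have h2 : (3 : O) ∣ j - 1 := hj.1
      have h3 : r - 1 = (j * r - 1) - (j - 1) * r := by ring
      show (3 : O) ∣ r - 1
      rw [h3]
      exact dvd_sub h1 (Dvd.dvd.mul_right h2 _)
    refine ⟨⟨?_, hpr, hsq⟩, ha2⟩
    rw [le_div_iff₀ hN0]
    rw [N_mul] at ha1
    push_cast at ha1
    linarith
  · intro r _
    rw [mul_div_cancel_left₀ _ hj0]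

theorem N_rep_core_le {u : O} (hu : u ∈ U3) {l : ℕ} (hl : l ∈ Finset.range 3) {k1 k2 : O}
    (hk1 : SqP k1) (hk2 : SqP k2) {Q0 : ℝ} (hQ : (N k1 : ℝ) * N k2 ≤ Q0) :
    (N (u * lam ^ l * (k1 * k2 ^ 2)) : ℝ) ≤ 9 * Q0 ^ 2 := by
  have h1 := one_le_N hk1.ne_zero
  have h2 := one_le_N hk2.ne_zero
  have hu1 : N u = 1 := N_U3 hu
  have hl' : (N lam : ℝ) ^ l ≤ 9 := by
    rw [N_lam]
    have : l < 3 := Finset.mem_range.1 hl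
    interval_cases l <;> norm_num
  have e : (N (u * lam ^ l * (k1 * k2 ^ 2)) : ℝ) = (N lam : ℝ) ^ l * ((N k1 : ℝ) * (N k2 : ℝ) ^ 2) := by
    simp only [N_mul, N_pow, hu1]
    push_cast
    ring
  rw [e]
  have h3 : (N k1 : ℝ) * (N k2 : ℝ) ^ 2 ≤ Q0 ^ 2 := by
    calc (N k1 : ℝ) * (N k2 : ℝ) ^ 2 ≤ (N k1 : ℝ) ^ 2 * (N k2 : ℝ) ^ 2 := by
          have : (N k1 : ℝ) ≤ (N k1 : ℝ) ^ 2 := by nlinarith
          gcongr
      _ = ((N k1 : ℝ) * N k2) ^ 2 := by ring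
      _ ≤ Q0 ^ 2 := by
          have : 0 ≤ (N k1 : ℝ) * N k2 := by positivity
          gcongr
  have h4 : 0 ≤ (N k1 : ℝ) * (N k2 : ℝ) ^ 2 := by positivity
  nlinarith

/-- `SWhyp` from the form consumed by helper611 -/
theorem SWhyp.of_dvd {ι : Type*} {S : Finset ι} {α : ι → O → ℂ} {A H Q0 J0 σ : ℝ}
    (hα : ∀ s ∈ S, ∀ a, α s a ≠ 0 → Primary a ∧ Squarefree a)
    (h : ∀ s ∈ S, ∀ j ∈ Vale.Agent.P006.SPB J0, ∀ k0 n : O, n ≠ 0 → (N n : ℝ) ≤ H →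
      k0 ≠ 0 → (¬ ∃ e : O, k0 = e ^ 3) → (N k0 : ℝ) ≤ 9 * Q0 ^ 2 →
      ‖∑ a ∈ (Vale.Agent.P006.SPB A).filter (fun a => j ∣ a),
        α s a * toC (sym (k0 * n ^ 3) (a / j))‖ ≤ σ * A) : SWhyp S α A H Q0 J0 σ := by
  intro s hs j hj u hu l hl k1 k2 n hk1 hk2 hc hQ hn hnH hcube
  have hjS := (mem_PB.1 hj).2
  have n1 := one_le_N hk1.ne_zero
  have n2 := one_le_N hk2.ne_zero
  have n3 := one_le_N hn
  have hu0 : u ≠ 0 := by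
    rintro rfl
    have := N_U3 hu
    simp at this
  have hlam : lam ≠ 0 := by
    intro h0
    have := N_lam
    rw [h0] at this
    simp at this
  have hnle : (N n : ℝ) ≤ H := by
    calc (N n : ℝ) ≤ (N n : ℝ) ^ 3 := by
          nlinarith [mul_self_nonneg ((N n : ℝ) - 1), mul_self_nonneg ((N n : ℝ))]
      _ = 1 * 1 * (N n : ℝ) ^ 3 := by ring
      _ ≤ (N k1 : ℝ) * (N k2 : ℝ) ^ 2 * (N n : ℝ) ^ 3 := by
          have : (1 : ℝ) ≤ (N k2 : ℝ) ^ 2 := one_le_pow₀ n2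
          gcongr
      _ ≤ H := hnH
  have hk0 : u * lam ^ l * (k1 * k2 ^ 2) ≠ 0 := by
    refine mul_ne_zero (mul_ne_zero hu0 (pow_ne_zero _ hlam)) ?_
    exact mul_ne_zero hk1.ne_zero (pow_ne_zero _ hk2.ne_zero)
  have h1 := h s hs j (by rw [← PB_eq_SPB]; exact hj) (u * lam ^ l * (k1 * k2 ^ 2)) n hn hnle hk0
    (by
      rintro ⟨e, he⟩
      apply hcube
      refine ⟨e * n, ?_⟩
      unfold rep
      rw [he]; ring) (N_rep_core_le hu hl hk1 hk2 hQ)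
  rw [sum_dvd_eq_sum_mul hjS (α s) (fun r => toC (sym (u * lam ^ l * (k1 * k2 ^ 2) * n ^ 3) r))
    (hα s hs)] at h1
  exact h1

theorem NCQ_eq (α : O → ℂ) (A H : ℝ) : NCQ α A H =
    ∑ j ∈ Vale.Agent.P006.SPB A, ∑ κ ∈ HB.Hn H, (open Classical in
        if (¬ ∃ e : O, κ = e ^ 3) then (N (EuclideanDomain.gcd j κ) : ℝ) *
          ‖∑ r ∈ Vale.Agent.P006.SPB (A / N j), α (j * r) * toC (sym κ r)‖ ^ 2 else 0) := by
  unfold NCQ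
  rw [PB_eq_SPB, NZ_eq_Hn]
  refine Finset.sum_congr rfl fun j _ => Finset.sum_congr rfl fun κ _ => ?_
  have e : inner α A j κ = ∑ r ∈ Vale.Agent.P006.SPB (A / N j), α (j * r) * toC (sym κ r) := by
    unfold inner Fs
    rw [PB_eq_SPB]
    rfl
  rw [e]
  rfl

/-- **NC, interior, in the form consumed by DN.** -/
theorem nc_611 {δ : ℝ} (hδ : 0 < δ) : ∃ C η : ℝ, 0 < C ∧ 0 < η ∧ ∀ (ι : Type) (S : Finset ι)
      (α : ι → O → ℂ), (∀ s ∈ S, ∀ a, α s a ≠ 0 → Primary a ∧ Squarefree a) →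
      (∀ a, ∑ s ∈ S, ‖α s a‖ ≤ 1) →
      ∀ A H Q0 J0 σ : ℝ, 1 ≤ A → 1 ≤ H → H ≤ A ^ (1 - δ) → 1 ≤ Q0 → 1 ≤ J0 → 0 ≤ σ →
      (∀ s ∈ S, ∀ j ∈ Vale.Agent.P006.SPB J0, ∀ k0 n : O, n ≠ 0 → (N n : ℝ) ≤ H →
        k0 ≠ 0 → (¬ ∃ e : O, k0 = e ^ 3) → (N k0 : ℝ) ≤ 9 * Q0 ^ 2 →
        ‖∑ a ∈ (Vale.Agent.P006.SPB A).filter (fun a => j ∣ a),
          α s a * toC (sym (k0 * n ^ 3) (a / j))‖ ≤ σ * A) →
      ∑ s ∈ S, ∑ j ∈ Vale.Agent.P006.SPB A, ∑ κ ∈ HB.Hn H, (open Classical in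
        if (¬ ∃ e : O, κ = e ^ 3) then (N (EuclideanDomain.gcd j κ) : ℝ) *
          ‖∑ r ∈ Vale.Agent.P006.SPB (A / N j), α s (j * r) * toC (sym κ r)‖ ^ 2 else 0) ≤
        C * A ^ 2 * H ^ (1 / 3 : ℝ) *
        (Q0 ^ 3 * (J0 ^ 2 * σ + J0 ^ (-(1 / 2 : ℝ))) +
          (1 + Real.log A) ^ 3 * Q0 ^ (-(1 / 3 : ℝ)) + A ^ (-η)) := by
  obtain ⟨C, η, hC, hη, h⟩ := nc_int hδ
  refine ⟨C, η, hC, hη, ?_⟩
  intro ι S α hα hF A H Q0 J0 σ hA hH hHA hQ0 hJ0 hσ hSW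
  have h1 := h ι S α ⟨hF⟩ A H Q0 J0 σ hA hH hHA hQ0 hJ0 hσ (SWhyp.of_dvd hα hSW)
  simpa only [NCQ_eq] using h1

end Vale.Agent.P006.NC
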