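import Vale.Agent.P006.H206.LargeJ

/-!
P006, block NC: final assembly.
-/

namespace Vale.Agent.P006.NC

open Finset

theorem N_le_cbrt {H a b c : ℝ} (ha : 1 ≤ a) (hb : 1 ≤ b) (hc : 0 ≤ c)
    (h : a * b ^ 2 * c ^ 3 ≤ H) : c ≤ H ^ (1 / 3 : ℝ) := by
  have h1 : c ^ 3 ≤ H := by
    calc c ^ 3 = 1 * 1 ^ 2 * c ^ 3 := by ring
      _ ≤ a * b ^ 2 * c ^ 3 := by gcongr
      _ ≤ H := h
  calc c = (c ^ 3) ^ (1 / 3 : ℝ) := (rpow_one_third hc).symm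
    _ ≤ H ^ (1 / 3 : ℝ) := Real.rpow_le_rpow (by positivity) h1 (by norm_num)

/-- the small-kernel part for one pair -/
theorem small_pair {j : O} (hj : SqP j) {A H Q0 B : ℝ} (hA : (N j : ℝ) ≤ A) (hH : 1 ≤ H)
    (hB : 0 ≤ B) {k1 k2 : O} (hk1 : k1 ≠ 0) (hk2 : k2 ≠ 0) (hQ : (N k1 : ℝ) * N k2 ≤ Q0) :
    ∑ n ∈ NZ H with ((N k1 : ℝ) * (N k2 : ℝ) ^ 2 * (N n : ℝ) ^ 3 ≤ H),
          (N k1 : ℝ) * N k2 * gw j n * B ≤ Q0 * (32 * H ^ (1 / 3 : ℝ) * tauA A j) * B := by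
  have hH0 : 0 < H := by linarith
  have hHp : 0 < H ^ (1 / 3 : ℝ) := Real.rpow_pos_of_pos hH0 _
  have n1 := one_le_N hk1
  have n2 := one_le_N hk2
  have hτ : 0 ≤ tauA A j := by unfold tauA; positivity
  calc ∑ n ∈ NZ H with ((N k1 : ℝ) * (N k2 : ℝ) ^ 2 * (N n : ℝ) ^ 3 ≤ H),
        (N k1 : ℝ) * N k2 * gw j n * B
      ≤ ∑ n ∈ NZ (H ^ (1 / 3 : ℝ)), (N k1 : ℝ) * N k2 * gw j n * B := by
        refine Finset.sum_le_sum_of_subset_of_nonneg ?_ fun n _ _ => ?_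
        · intro n hn
          rw [Finset.mem_filter, mem_NZ] at hn
          rw [mem_NZ]
          exact ⟨N_le_cbrt n1 n2 (by positivity) hn.2, hn.1.2⟩
        · have := gw_nonneg j n
          positivity
    _ = (N k1 : ℝ) * N k2 * (∑ n ∈ NZ (H ^ (1 / 3 : ℝ)), gw j n) * B := by
        rw [Finset.mul_sum, Finset.sum_mul]
    _ ≤ Q0 * (32 * H ^ (1 / 3 : ℝ) * tauA A j) * B := by
        have h2 := sum_gw_le hj hA hHp.le
        have h3 : 0 ≤ ∑ n ∈ NZ (H ^ (1 / 3 : ℝ)), gw j n :=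
          Finset.sum_nonneg fun n _ => gw_nonneg j n
        have hQ0 : 0 ≤ Q0 := le_trans (by positivity) hQ
        exact mul_le_mul_of_nonneg_right (mul_le_mul hQ h2 h3 hQ0) hB

theorem card_filter_le (H : ℝ) {Q0 : ℝ} (hQ0 : 0 ≤ Q0) :
    (((PB H).filter (fun k2 => (N k2 : ℝ) ≤ Q0)).card : ℝ) ≤ 32 * Q0 := by
  have hsub : (PB H).filter (fun k2 => (N k2 : ℝ) ≤ Q0) ⊆ PB Q0 := by
    intro k hk
    rw [Finset.mem_filter, mem_PB] at hk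
    rw [mem_PB]; exact ⟨hk.2, hk.1.2⟩
  have h5 : (((PB H).filter (fun k2 => (N k2 : ℝ) ≤ Q0)).card : ℝ) ≤ (PB Q0).card := by
    exact_mod_cast Finset.card_le_card hsub
  exact h5.trans (card_PB_le hQ0)

theorem sum_pairs_le {H Q0 D : ℝ} (hQ0 : 0 ≤ Q0) (hD : 0 ≤ D) {f : O → O → ℝ}
    (hf : ∀ k1 ∈ PB H, ∀ k2 ∈ PB H, f k1 k2 ≤
      if (N k1 : ℝ) ≤ Q0 ∧ (N k2 : ℝ) ≤ Q0 then D else 0) :
    ∑ k1 ∈ PB H, ∑ k2 ∈ PB H, f k1 k2 ≤ (32 * Q0) ^ 2 * D := by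
  have hin : ∀ k1 : O, ∑ k2 ∈ PB H, (if (N k1 : ℝ) ≤ Q0 ∧ (N k2 : ℝ) ≤ Q0 then D else 0) ≤
      if (N k1 : ℝ) ≤ Q0 then (32 * Q0) * D else 0 := by
    intro k1
    by_cases hk : (N k1 : ℝ) ≤ Q0
    · simp only [hk, true_and, if_true]
      rw [← Finset.sum_filter, Finset.sum_const, nsmul_eq_mul]
      exact mul_le_mul_of_nonneg_right (card_filter_le H hQ0) hD
    · simp [hk]
  calc _ ≤ ∑ k1 ∈ PB H, ∑ k2 ∈ PB H, (if (N k1 : ℝ) ≤ Q0 ∧ (N k2 : ℝ) ≤ Q0 then D else 0) :=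
        Finset.sum_le_sum fun k1 hk1 => Finset.sum_le_sum fun k2 hk2 => hf k1 hk1 k2 hk2
    _ ≤ ∑ k1 ∈ PB H, if (N k1 : ℝ) ≤ Q0 then (32 * Q0) * D else 0 :=
        Finset.sum_le_sum fun k1 _ => hin k1
    _ ≤ (32 * Q0) * ((32 * Q0) * D) := by
        rw [← Finset.sum_filter, Finset.sum_const, nsmul_eq_mul]
        exact mul_le_mul_of_nonneg_right (card_filter_le H hQ0) (by positivity)
    _ = _ := by ring

/-- the small-kernel part for one `j` -/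
theorem small_j {j : O} (hj : SqP j) {A H Q0 B : ℝ} (hA : (N j : ℝ) ≤ A) (hH : 1 ≤ H)
    (hQ0 : 0 ≤ Q0) (hB : 0 ≤ B) :
    (∑ k1 ∈ PB H, ∑ k2 ∈ PB H, open Classical in
      if IsCoprime k1 k2 ∧ (N k1 : ℝ) * N k2 ≤ Q0 then
        ∑ n ∈ NZ H with ((N k1 : ℝ) * (N k2 : ℝ) ^ 2 * (N n : ℝ) ^ 3 ≤ H),
          (N k1 : ℝ) * N k2 * gw j n * B else 0) ≤
      (32 * Q0) ^ 2 * (Q0 * (32 * H ^ (1 / 3 : ℝ) * tauA A j) * B) := by
  classical
  have hH0 : 0 < H := by linarith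
  have hHp : 0 < H ^ (1 / 3 : ℝ) := Real.rpow_pos_of_pos hH0 _
  have hτ : 0 ≤ tauA A j := by unfold tauA; positivity
  have hD0 : 0 ≤ Q0 * (32 * H ^ (1 / 3 : ℝ) * tauA A j) * B := by positivity
  refine sum_pairs_le hQ0 hD0 fun k1 hk1 k2 hk2 => ?_
  rw [mem_PB] at hk1 hk2
  have n1 := one_le_N hk1.2.ne_zero
  have n2 := one_le_N hk2.2.ne_zero
  by_cases hc : IsCoprime k1 k2 ∧ (N k1 : ℝ) * N k2 ≤ Q0
  · rw [if_pos hc]
    have hle : (N k1 : ℝ) ≤ Q0 ∧ (N k2 : ℝ) ≤ Q0 := by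
      constructor <;> nlinarith [hc.2]
    rw [if_pos hle]
    exact small_pair hj hA hH hB hk1.2.ne_zero hk2.2.ne_zero hc.2
  · rw [if_neg hc]
    split_ifs
    · exact hD0
    · exact le_rfl

/-- decomposition of the contribution of one `j` -/
theorem one_j {ι : Type} {S : Finset ι} {α : ι → O → ℂ} (hF : Fam S α) {A H Q0 J0 σ : ℝ}
    (hA : 1 ≤ A) (hH : 1 ≤ H) (hQ0 : 0 ≤ Q0) (hσ : 0 ≤ σ) (hSW : SWhyp S α A H Q0 J0 σ)
    {j : O} (hj : j ∈ PB A) :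
    (∑ κ ∈ NZ H, open Classical in
      if ¬ IsCube κ then gw j κ * ∑ s ∈ S, ‖inner (α s) A j κ‖ ^ 2 else 0) ≤
      (N j : ℝ) * (∑ u ∈ U3, ∑ l ∈ Finset.range 3, ∑ s ∈ S,
        bigT (fun r => α s (j * r)) (A / N j) H Q0 u l) +
      9 * ((32 * Q0) ^ 2 * (Q0 * (32 * H ^ (1 / 3 : ℝ) * tauA A j) * B1 A J0 σ j)) := by
  classical
  rw [mem_PB] at hj
  have hA0 : 0 < A := by linarith
  have hBn := B1_nonneg (A := A) (J0 := J0) hσ j
  have hNj := one_le_N hj.2.ne_zero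
  have hf0 : ∀ κ : O, 0 ≤ (if ¬ IsCube κ then gw j κ * ∑ s ∈ S, ‖inner (α s) A j κ‖ ^ 2 else 0) := by
    intro κ
    split_ifs
    · exact le_rfl
    · exact mul_nonneg (gw_nonneg j κ) (Finset.sum_nonneg fun _ _ => by positivity)
  refine (sum_le_rep _ hf0 H).trans ?_
  have hkey : ∀ u ∈ U3, ∀ l ∈ Finset.range 3, ∀ k1 ∈ PB H, ∀ k2 ∈ PB H,
      (if IsCoprime k1 k2 then
        ∑ n ∈ NZ H with ((N k1 : ℝ) * (N k2 : ℝ) ^ 2 * (N n : ℝ) ^ 3 ≤ H),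
          (if ¬ IsCube (rep u l k1 k2 n) then gw j (rep u l k1 k2 n) *
            ∑ s ∈ S, ‖inner (α s) A j (rep u l k1 k2 n)‖ ^ 2 else 0) else 0) ≤
      (N j : ℝ) * (∑ s ∈ S, if IsCoprime k1 k2 ∧ Q0 < (N k1 : ℝ) * N k2 then
        ∑ n ∈ NZ H with ((N k1 : ℝ) * (N k2 : ℝ) ^ 2 * (N n : ℝ) ^ 3 ≤ H),
          ‖Fs (fun r => α s (j * r)) (A / N j) (rep u l k1 k2 n)‖ ^ 2 else 0) +
      (if IsCoprime k1 k2 ∧ (N k1 : ℝ) * N k2 ≤ Q0 then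
        ∑ n ∈ NZ H with ((N k1 : ℝ) * (N k2 : ℝ) ^ 2 * (N n : ℝ) ^ 3 ≤ H),
          (N k1 : ℝ) * N k2 * gw j n * B1 A J0 σ j else 0) := by
    intro u hu l hl k1 hk1 k2 hk2
    rw [mem_PB] at hk1 hk2
    by_cases hc : IsCoprime k1 k2
    · rcases le_or_gt ((N k1 : ℝ) * N k2) Q0 with hQ | hQ
      · rw [if_pos hc, if_pos ⟨hc, hQ⟩]
        have h0 : 0 ≤ (N j : ℝ) * (∑ s ∈ S, if IsCoprime k1 k2 ∧ Q0 < (N k1 : ℝ) * N k2 then
            ∑ n ∈ NZ H with ((N k1 : ℝ) * (N k2 : ℝ) ^ 2 * (N n : ℝ) ^ 3 ≤ H),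
              ‖Fs (fun r => α s (j * r)) (A / N j) (rep u l k1 k2 n)‖ ^ 2 else 0) := by
          refine mul_nonneg (by positivity) (Finset.sum_nonneg fun s _ => ?_)
          split_ifs
          · exact Finset.sum_nonneg fun _ _ => by positivity
          · exact le_rfl
        refine le_trans ?_ (le_add_of_nonneg_left h0)
        refine Finset.sum_le_sum fun n hn => ?_
        rw [Finset.mem_filter, mem_NZ] at hn
        split_ifs with hcube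
        · have := gw_nonneg j n
          positivity
        · have h1 := gw_rep_le hj.2 hu l (n := n) hk1.2.ne_zero hk2.2.ne_zero
          have h2 := sum_inner_sq_le hF hA0.le hσ hSW hj.2 hu hl hk1.2 hk2.2 hc hQ hn.1.2 hn.2 hcube
          have h3 := gw_nonneg j n
          have h4 : 0 ≤ ∑ s ∈ S, ‖inner (α s) A j (rep u l k1 k2 n)‖ ^ 2 :=
            Finset.sum_nonneg fun _ _ => by positivity
          exact mul_le_mul h1 h2 h4 (by positivity)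
      · rw [if_pos hc, if_neg (fun h => absurd h.2 (not_le.2 hQ)), add_zero]
        simp only [if_pos (And.intro hc hQ)]
        rw [Finset.sum_comm, Finset.mul_sum]
        refine Finset.sum_le_sum fun n _ => ?_
        have h4 : 0 ≤ ∑ s ∈ S, ‖inner (α s) A j (rep u l k1 k2 n)‖ ^ 2 :=
          Finset.sum_nonneg fun _ _ => by positivity
        split_ifs with hcube
        · exact mul_nonneg (by positivity) (Finset.sum_nonneg fun _ _ => by positivity)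
        · exact mul_le_mul_of_nonneg_right (gw_le hj.2.ne_zero _) h4
    · rw [if_neg hc, if_neg (fun h => hc h.1)]
      simp [hc]
  calc _ ≤ ∑ u ∈ U3, ∑ l ∈ Finset.range 3, ∑ k1 ∈ PB H, ∑ k2 ∈ PB H,
      ((N j : ℝ) * (∑ s ∈ S, if IsCoprime k1 k2 ∧ Q0 < (N k1 : ℝ) * N k2 then
        ∑ n ∈ NZ H with ((N k1 : ℝ) * (N k2 : ℝ) ^ 2 * (N n : ℝ) ^ 3 ≤ H),
          ‖Fs (fun r => α s (j * r)) (A / N j) (rep u l k1 k2 n)‖ ^ 2 else 0) +
      (if IsCoprime k1 k2 ∧ (N k1 : ℝ) * N k2 ≤ Q0 then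
        ∑ n ∈ NZ H with ((N k1 : ℝ) * (N k2 : ℝ) ^ 2 * (N n : ℝ) ^ 3 ≤ H),
          (N k1 : ℝ) * N k2 * gw j n * B1 A J0 σ j else 0)) := by
        refine Finset.sum_le_sum fun u hu => Finset.sum_le_sum fun l hl =>
          Finset.sum_le_sum fun k1 hk1 => Finset.sum_le_sum fun k2 hk2 => ?_
        exact hkey u hu l hl k1 hk1 k2 hk2
    _ = (N j : ℝ) * (∑ u ∈ U3, ∑ l ∈ Finset.range 3, ∑ s ∈ S,
        bigT (fun r => α s (j * r)) (A / N j) H Q0 u l) +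
        ∑ u ∈ U3, ∑ l ∈ Finset.range 3, ∑ k1 ∈ PB H, ∑ k2 ∈ PB H,
        (if IsCoprime k1 k2 ∧ (N k1 : ℝ) * N k2 ≤ Q0 then
        ∑ n ∈ NZ H with ((N k1 : ℝ) * (N k2 : ℝ) ^ 2 * (N n : ℝ) ^ 3 ≤ H),
          (N k1 : ℝ) * N k2 * gw j n * B1 A J0 σ j else 0) := by
        simp only [Finset.sum_add_distrib]
        congr 1
        rw [Finset.mul_sum]
        refine Finset.sum_congr rfl fun u _ => ?_
        rw [Finset.mul_sum]
        refine Finset.sum_congr rfl fun l _ => ?_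
        unfold bigT
        have e1 : (∑ s ∈ S, ∑ k1 ∈ PB H, ∑ k2 ∈ PB H,
            if IsCoprime k1 k2 ∧ Q0 < (N k1 : ℝ) * N k2 then
            ∑ n ∈ NZ H with ((N k1 : ℝ) * (N k2 : ℝ) ^ 2 * (N n : ℝ) ^ 3 ≤ H),
              ‖Fs (fun r => α s (j * r)) (A / N j) (rep u l k1 k2 n)‖ ^ 2 else 0) =
            ∑ k1 ∈ PB H, ∑ k2 ∈ PB H, ∑ s ∈ S,
            if IsCoprime k1 k2 ∧ Q0 < (N k1 : ℝ) * N k2 then
            ∑ n ∈ NZ H with ((N k1 : ℝ) * (N k2 : ℝ) ^ 2 * (N n : ℝ) ^ 3 ≤ H),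
              ‖Fs (fun r => α s (j * r)) (A / N j) (rep u l k1 k2 n)‖ ^ 2 else 0 := by
          rw [Finset.sum_comm]
          refine Finset.sum_congr rfl fun k1 _ => ?_
          rw [Finset.sum_comm]
        rw [e1, Finset.mul_sum]
        refine Finset.sum_congr rfl fun k1 _ => ?_
        rw [Finset.mul_sum]
    _ ≤ _ := by
        have hs := small_j hj.2 hj.1 hH hQ0 hBn
        have h9 : ∑ u ∈ U3, ∑ l ∈ Finset.range 3, ∑ k1 ∈ PB H, ∑ k2 ∈ PB H,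
            (if IsCoprime k1 k2 ∧ (N k1 : ℝ) * N k2 ≤ Q0 then
            ∑ n ∈ NZ H with ((N k1 : ℝ) * (N k2 : ℝ) ^ 2 * (N n : ℝ) ^ 3 ≤ H),
              (N k1 : ℝ) * N k2 * gw j n * B1 A J0 σ j else 0) ≤
            9 * ((32 * Q0) ^ 2 * (Q0 * (32 * H ^ (1 / 3 : ℝ) * tauA A j) * B1 A J0 σ j)) := by
          have hH0 : 0 < H := by linarith
          have hτ : 0 ≤ tauA A j := by unfold tauA; positivity
          calc _ ≤ ∑ u ∈ U3, ∑ l ∈ Finset.range 3,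
                ((32 * Q0) ^ 2 * (Q0 * (32 * H ^ (1 / 3 : ℝ) * tauA A j) * B1 A J0 σ j)) :=
                Finset.sum_le_sum fun u _ => Finset.sum_le_sum fun l _ => hs
            _ = U3.card * (3 *
                ((32 * Q0) ^ 2 * (Q0 * (32 * H ^ (1 / 3 : ℝ) * tauA A j) * B1 A J0 σ j))) := by
                simp only [Finset.sum_const, Finset.card_range, nsmul_eq_mul]
                push_cast; ring
            _ ≤ 3 * (3 *
                ((32 * Q0) ^ 2 * (Q0 * (32 * H ^ (1 / 3 : ℝ) * tauA A j) * B1 A J0 σ j))) := by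
                have : (U3.card : ℝ) ≤ 3 := by exact_mod_cast card_U3_le
                gcongr
            _ = _ := by ring
        linarith

end Vale.Agent.P006.NC
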