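import Mathlib.Analysis.SpecialFunctions.Pow.Real
import Mathlib.Tactic

/-!
P006, block NC: the elementary optimisation lemma (cube-root variables).
-/

namespace Vale.Agent.P006.NC

/-- bounds (a), (b), (c) for a dyadic block; `x³ = K₁`, `y³ = K₂`, `z³ = H`, `w³ = R` -/
noncomputable def bA (x y w : ℝ) : ℝ := y / x + y * x ^ 2 / w ^ 3 + x * y / w
noncomputable def bB (x y w : ℝ) : ℝ := x ^ 2 / y ^ 2 + x ^ 2 * y / w ^ 3 + x ^ 2 / w
noncomputable def bC (x y w : ℝ) : ℝ := 1 / (x * y ^ 2) + x ^ 5 * y ^ 4 / w ^ 3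

theorem bC_le {x y w : ℝ} (hx : 1 ≤ x) (hy : 1 ≤ y) (hw : 1 ≤ w)
    (h : (x * y) ^ 2 ≤ w) : bC x y w ≤ 2 / (x * y) := by
  have hx0 : 0 < x := by linarith
  have hy0 : 0 < y := by linarith
  have hw0 : 0 < w := by linarith
  have h3 : (x * y) ^ 6 ≤ w ^ 3 := by
    calc (x * y) ^ 6 = ((x * y) ^ 2) ^ 3 := by ring
      _ ≤ w ^ 3 := pow_le_pow_left₀ (by positivity) h 3
  have h1 : 1 / (x * y ^ 2) ≤ 1 / (x * y) := by
    apply one_div_le_one_div_of_le (by positivity)
    nlinarith [mul_pos hx0 hy0]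
  have h2 : x ^ 5 * y ^ 4 / w ^ 3 ≤ 1 / (x * y) := by
    rw [div_le_div_iff₀ (by positivity) (by positivity)]
    calc x ^ 5 * y ^ 4 * (x * y) = x ^ 6 * y ^ 5 * 1 := by ring
      _ ≤ x ^ 6 * y ^ 5 * y := by gcongr
      _ = (x * y) ^ 6 := by ring
      _ ≤ w ^ 3 := h3
      _ = 1 * w ^ 3 := by ring
  unfold bC
  have : (2 : ℝ) / (x * y) = 1 / (x * y) + 1 / (x * y) := by ring
  linarith

theorem rpow_split {w δ : ℝ} (hw : 1 ≤ w) : w ^ (1 + δ) = w * w ^ δ ∧ w ^ (1 - δ) = w / w ^ δ ∧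
    w ^ (-δ) = 1 / w ^ δ := by
  have hw0 : 0 < w := by linarith
  refine ⟨?_, ?_, ?_⟩
  · rw [Real.rpow_add hw0, Real.rpow_one]
  · rw [Real.rpow_sub hw0, Real.rpow_one]
  · rw [Real.rpow_neg hw0.le, one_div]

/-- the optimisation lemma; `q = w^δ`, `δ ≤ 1/9`, so that `q^9 ≤ w` -/
theorem min_lemma {x y z w q : ℝ} (hx : 1 ≤ x) (hy : 1 ≤ y) (hz : 1 ≤ z) (hw : 1 ≤ w)
    (hq : 1 ≤ q) (hq9 : q ^ 9 ≤ w) (hxyz : x * y ^ 2 ≤ z) (hzw : z ≤ w * q) :
    ((x * y) ^ 2 ≤ w ∧ bC x y w ≤ 2 / (x * y)) ∨ bA x y w ≤ 3 / q ∨ bB x y w ≤ 3 / q ∨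
      bC x y w ≤ 3 / q ∨ (y * q ≤ x ∧ w < x * y * q) ∨
      (y < x * q ∧ x < y * q ∧ w < x * y ^ 2 * q) := by
  have hx0 : 0 < x := by linarith
  have hy0 : 0 < y := by linarith
  have hz0 : 0 < z := by linarith
  have hw0 : 0 < w := by linarith
  have hq0 : 0 < q := by linarith
  rcases le_or_gt ((x * y) ^ 2) w with h0 | h0
  · exact Or.inl ⟨h0, bC_le hx hy hw h0⟩
  right
  rcases le_or_gt (y * q) x with h1 | h1
  · rcases le_or_gt (x * y * q) w with h2 | h2
    · left
      have e1 : y / x ≤ 1 / q := by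
        rw [div_le_div_iff₀ hx0 hq0]; linarith
      have e3 : x * y / w ≤ 1 / q := by
        rw [div_le_div_iff₀ hw0 hq0]; linarith
      have e2 : y * x ^ 2 / w ^ 3 ≤ 1 / q := by
        rw [div_le_div_iff₀ (by positivity) hq0]
        have f1 : y * x ^ 2 ≤ z ^ 2 := by
          calc y * x ^ 2 = x ^ 2 * y * 1 := by ring
            _ ≤ x ^ 2 * y * y ^ 3 := by
              have : (1 : ℝ) ≤ y ^ 3 := one_le_pow₀ hy
              gcongr
            _ = (x * y ^ 2) ^ 2 := by ring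
            _ ≤ z ^ 2 := pow_le_pow_left₀ (by positivity) hxyz 2
        have f2 : z ^ 2 ≤ (w * q) ^ 2 := pow_le_pow_left₀ (by positivity) hzw 2
        have f3 : q ^ 3 ≤ w := le_trans (pow_le_pow_right₀ hq (by norm_num)) hq9
        calc y * x ^ 2 * q ≤ (w * q) ^ 2 * q := by
              have := f1.trans f2
              gcongr
          _ = w ^ 2 * q ^ 3 := by ring
          _ ≤ w ^ 2 * w := by gcongr
          _ = 1 * w ^ 3 := by ring
      unfold bA
      have : (3 : ℝ) / q = 1 / q + 1 / q + 1 / q := by ring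
      linarith
    · right; right; right; left
      exact ⟨h1, h2⟩
  · rcases le_or_gt (x * q) y with h2 | h2
    · right; left
      have hxy : x ≤ y := by nlinarith
      have e1 : x ^ 2 / y ^ 2 ≤ 1 / q := by
        rw [div_le_div_iff₀ (by positivity) hq0]
        calc x ^ 2 * q ≤ x ^ 2 * q ^ 2 := by
              have : q ≤ q ^ 2 := by nlinarith
              gcongr
          _ = (x * q) ^ 2 := by ring
          _ ≤ y ^ 2 := pow_le_pow_left₀ (by positivity) h2 2
          _ = 1 * y ^ 2 := by ring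
      have e2 : x ^ 2 * y / w ^ 3 ≤ 1 / q := by
        rw [div_le_div_iff₀ (by positivity) hq0]
        calc x ^ 2 * y * q ≤ x * y ^ 2 * q := by
              have : x ^ 2 * y ≤ x * y ^ 2 := by nlinarith [mul_pos hx0 hy0]
              gcongr
          _ ≤ z * q := by gcongr
          _ ≤ w * q * q := by gcongr
          _ = w * q ^ 2 := by ring
          _ ≤ w * w ^ 2 := by
              have h5 : q ^ 2 ≤ w := le_trans (pow_le_pow_right₀ hq (by norm_num)) hq9
              have h6 : w ≤ w ^ 2 := by nlinarith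
              exact mul_le_mul_of_nonneg_left (h5.trans h6) hw0.le
          _ = 1 * w ^ 3 := by ring
      have e3 : x ^ 2 / w ≤ 1 / q := by
        rw [div_le_div_iff₀ hw0 hq0]
        -- x^3 ≤ x y^2 ≤ z ≤ w q, so (x^2 q)^3 ≤ w^2 q^2 q^3 = w^2 q^5 ≤ w^3
        have f1 : x ^ 3 ≤ w * q := by
          calc x ^ 3 = x * x ^ 2 := by ring
            _ ≤ x * y ^ 2 := by gcongr
            _ ≤ w * q := hxyz.trans hzw
        have f2 : (x ^ 2 * q) ^ 3 ≤ (1 * w) ^ 3 := by
          calc (x ^ 2 * q) ^ 3 = (x ^ 3) ^ 2 * q ^ 3 := by ring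
            _ ≤ (w * q) ^ 2 * q ^ 3 := by
              have := pow_le_pow_left₀ (by positivity : (0:ℝ) ≤ x ^ 3) f1 2
              gcongr
            _ = w ^ 2 * q ^ 5 := by ring
            _ ≤ w ^ 2 * w := by
              have : q ^ 5 ≤ w := le_trans (pow_le_pow_right₀ hq (by norm_num)) hq9
              gcongr
            _ = (1 * w) ^ 3 := by ring
        exact le_of_pow_le_pow_left₀ (by norm_num) (by positivity) f2
      unfold bB
      have : (3 : ℝ) / q = 1 / q + 1 / q + 1 / q := by ring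
      linarith
    · rcases le_or_gt (x * y ^ 2 * q) w with h3 | h3
      · right; right; left
        have e1 : 1 / (x * y ^ 2) ≤ 1 / q := by
          apply one_div_le_one_div_of_le hq0
          -- q ≤ x y^2: q^2 ≤ w < (x y)^2
          have f1 : q ^ 2 < (x * y) ^ 2 :=
            lt_of_le_of_lt (le_trans (pow_le_pow_right₀ hq (by norm_num)) hq9) h0
          have f2 : q < x * y := lt_of_pow_lt_pow_left₀ 2 (by positivity) f1
          nlinarith [mul_pos hx0 hy0]
        have e2 : x ^ 5 * y ^ 4 / w ^ 3 ≤ 1 / q := by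
          rw [div_le_div_iff₀ (by positivity) hq0]
          -- x^5 y^4 = (x y^2)^3 (x/y)^2
          have f1 : x ^ 5 * y ^ 4 * y ^ 2 ≤ (x * y ^ 2) ^ 3 * (y * q) ^ 2 := by
            calc x ^ 5 * y ^ 4 * y ^ 2 = (x * y ^ 2) ^ 3 * x ^ 2 := by ring
              _ ≤ (x * y ^ 2) ^ 3 * (y * q) ^ 2 := by
                have := pow_le_pow_left₀ hx0.le h1.le 2
                gcongr
          have f2 : x ^ 5 * y ^ 4 ≤ (x * y ^ 2) ^ 3 * q ^ 2 := by
            have h4 : 0 < y ^ 2 := by positivity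
            have : x ^ 5 * y ^ 4 * y ^ 2 ≤ ((x * y ^ 2) ^ 3 * q ^ 2) * y ^ 2 := by
              calc x ^ 5 * y ^ 4 * y ^ 2 ≤ (x * y ^ 2) ^ 3 * (y * q) ^ 2 := f1
                _ = ((x * y ^ 2) ^ 3 * q ^ 2) * y ^ 2 := by ring
            exact le_of_mul_le_mul_right this h4
          calc x ^ 5 * y ^ 4 * q ≤ (x * y ^ 2) ^ 3 * q ^ 2 * q := by gcongr
            _ = (x * y ^ 2 * q) ^ 3 := by ring
            _ ≤ w ^ 3 := pow_le_pow_left₀ (by positivity) h3 3
            _ = 1 * w ^ 3 := by ring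
        unfold bC
        have : (3 : ℝ) / q = 1 / q + 1 / q + 1 / q := by ring
        have : 0 < 1 / q := by positivity
        linarith
      · right; right; right; right
        exact ⟨h2, h1, h3⟩

end Vale.Agent.P006.NC
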