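import Vale.Agent.P006.H206.Sums
import Vale.Agent.P006.H206.MinLemma

/-!
P006, block NC: dyadic blocks of representations, bounds from the cubic and classical large
sieves.
-/

namespace Vale.Agent.P006.NC

open Finset

/-- the character sum attached to a sequence `γ` on squarefree primary elements of norm `≤ R` -/
noncomputable def Fs (γ : O → ℂ) (R : ℝ) (κ : O) : ℂ := ∑ r ∈ PB R, γ r * ch r κ

/-- the cubic large sieve inequality with constants `C`, `ε` -/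
def HBc (C ε : ℝ) : Prop := ∀ R K : ℝ, 1 ≤ R → 1 ≤ K → ∀ γ : O → ℂ,
  ∑ k ∈ PB K, ‖Fs γ R k‖ ^ 2 ≤
    C * (R * K) ^ ε * (R + K + (R * K) ^ (2 / 3 : ℝ)) * ∑ r ∈ PB R, ‖γ r‖ ^ 2

/-- Heath-Brown's cubic large sieve -/
def HBsq : Prop := ∀ ε : ℝ, 0 < ε → ∃ C : ℝ, 0 < C ∧ HBc C ε

/-- the classical large sieve for products of two cubic characters, with constant `C` -/
def CLSc (C : ℝ) : Prop := ∀ R Q : ℝ, 1 ≤ R → 1 ≤ Q → ∀ γ : O → ℂ,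
  ∑ k1 ∈ PB Q, ∑ k2 ∈ PB Q,
    (open Classical in
      if IsCoprime k1 k2 ∧ (N k1 : ℝ) * N k2 ≤ Q then
        ‖∑ r ∈ PB R, γ r * ch r k1 * ch r k2 ^ 2‖ ^ 2 else 0) ≤
    C * (R + Q ^ 2) * ∑ r ∈ PB R, ‖γ r‖ ^ 2

/-- dyadic block of squarefree primary elements: `2^a ≤ N k < 2^(a+1)` -/
noncomputable def DB (a : ℕ) : Finset O :=
  (PB (2 * 2 ^ a)).filter (fun k => (2 ^ a : ℝ) ≤ N k)

theorem mem_DB {a : ℕ} {k : O} : k ∈ DB a ↔ ((N k : ℝ) ≤ 2 * 2 ^ a ∧ SqP k) ∧ (2 ^ a : ℝ) ≤ N k := by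
  simp [DB]

theorem DB_subset (a : ℕ) : DB a ⊆ PB (2 * 2 ^ a) := Finset.filter_subset _ _

/-- the energy of a sequence -/
noncomputable def En (γ : O → ℂ) (R : ℝ) : ℝ := ∑ r ∈ PB R, ‖γ r‖ ^ 2

theorem En_nonneg (γ : O → ℂ) (R : ℝ) : 0 ≤ En γ R :=
  Finset.sum_nonneg fun _ _ => by positivity

theorem sum_sq_le {γ : O → ℂ} (hγ : ∀ r, ‖γ r‖ ≤ 1) {R : ℝ} (hR : 0 ≤ R) :
    ∑ r ∈ PB R, ‖γ r‖ ^ 2 ≤ 32 * R := by
  calc ∑ r ∈ PB R, ‖γ r‖ ^ 2 ≤ ∑ r ∈ PB R, (1 : ℝ) := by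
        refine Finset.sum_le_sum fun r _ => ?_
        have := hγ r
        have h0 := norm_nonneg (γ r)
        nlinarith
    _ = (PB R).card := by simp
    _ ≤ 32 * R := card_PB_le hR

theorem norm_Fs_le {γ : O → ℂ} (hγ : ∀ r, ‖γ r‖ ≤ 1) {R : ℝ} (hR : 0 ≤ R) (κ : O) :
    ‖Fs γ R κ‖ ≤ 32 * R := by
  calc ‖Fs γ R κ‖ ≤ ∑ r ∈ PB R, ‖γ r * ch r κ‖ := norm_sum_le _ _
    _ ≤ ∑ r ∈ PB R, (1 : ℝ) := by
        refine Finset.sum_le_sum fun r _ => ?_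
        rw [norm_mul]
        exact mul_le_one₀ (hγ r) (norm_nonneg _) (norm_ch_le r κ)
    _ = (PB R).card := by simp
    _ ≤ 32 * R := card_PB_le hR

/-- block sum for fixed `u`, `l`, `n` -/
noncomputable def blkS (γ : O → ℂ) (R : ℝ) (u : O) (l : ℕ) (n : O) (a b : ℕ) : ℝ :=
  ∑ k1 ∈ DB a, ∑ k2 ∈ DB b,
    open Classical in if IsCoprime k1 k2 then ‖Fs γ R (rep u l k1 k2 n)‖ ^ 2 else 0

theorem blkS_nonneg (γ : O → ℂ) (R : ℝ) (u : O) (l : ℕ) (n : O) (a b : ℕ) :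
    0 ≤ blkS γ R u l n a b := by
  unfold blkS
  refine Finset.sum_nonneg fun k1 _ => Finset.sum_nonneg fun k2 _ => ?_
  split_ifs <;> positivity

theorem Fs_rep_a (γ : O → ℂ) (R : ℝ) (u : O) (l : ℕ) (k1 k2 n : O) :
    Fs γ R (rep u l k1 k2 n) = Fs (fun r => γ r * ch r (u * lam ^ l * k2 ^ 2 * n ^ 3)) R k1 := by
  unfold Fs
  refine Finset.sum_congr rfl fun r _ => ?_
  rw [show rep u l k1 k2 n = (u * lam ^ l * k2 ^ 2 * n ^ 3) * k1 by rw [rep]; ring, ch_mul]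
  ring

theorem Fs_rep_b (γ : O → ℂ) (R : ℝ) (u : O) (l : ℕ) (k1 k2 n : O) :
    ‖Fs γ R (rep u l k1 k2 n)‖ =
      ‖Fs (fun r => (starRingEnd ℂ) (γ r * ch r (u * lam ^ l * k1 * n ^ 3))) R k2‖ := by
  rw [← Complex.norm_conj]
  congr 1
  unfold Fs
  rw [map_sum]
  refine Finset.sum_congr rfl fun r _ => ?_
  rw [show rep u l k1 k2 n = (u * lam ^ l * k1 * n ^ 3) * k2 ^ 2 by rw [rep]; ring, ch_mul,
    ch_pow, ch_sq, ← mul_assoc, map_mul, Complex.conj_conj]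

theorem Fs_rep_c (γ : O → ℂ) (R : ℝ) (u : O) (l : ℕ) (k1 k2 n : O) :
    Fs γ R (rep u l k1 k2 n) =
      ∑ r ∈ PB R, (γ r * ch r (u * lam ^ l * n ^ 3)) * ch r k1 * ch r k2 ^ 2 := by
  unfold Fs
  refine Finset.sum_congr rfl fun r _ => ?_
  rw [show rep u l k1 k2 n = (u * lam ^ l * n ^ 3) * k1 * k2 ^ 2 by rw [rep]; ring, ch_mul,
    ch_mul, ch_pow]
  ring

theorem En_twist_le (γ : O → ℂ) (R : ℝ) (k : O) :
    ∑ r ∈ PB R, ‖γ r * ch r k‖ ^ 2 ≤ En γ R := by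
  unfold En
  refine Finset.sum_le_sum fun r _ => ?_
  rw [norm_mul, mul_pow]
  have h1 := norm_ch_le r k
  have h2 : ‖ch r k‖ ^ 2 ≤ 1 := pow_le_one₀ (norm_nonneg _) h1
  have h3 : 0 ≤ ‖γ r‖ ^ 2 := by positivity
  nlinarith

theorem norm_twist_le {γ : O → ℂ} (hγ : ∀ r, ‖γ r‖ ≤ 1) (k : O) (r : O) :
    ‖γ r * ch r k‖ ≤ 1 := by
  rw [norm_mul]
  exact mul_le_one₀ (hγ r) (norm_nonneg _) (norm_ch_le r k)

/-- simplification of the large sieve factor for `2K` -/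
theorem hb_two {C ε R K : ℝ} (hC : 0 < C) (_hε : 0 < ε) (hε1 : ε ≤ 1) (hR : 1 ≤ R) (hK : 1 ≤ K) :
    C * (R * (2 * K)) ^ ε * (R + 2 * K + (R * (2 * K)) ^ (2 / 3 : ℝ)) ≤
      4 * (C * (R * K) ^ ε * (R + K + (R * K) ^ (2 / 3 : ℝ))) := by
  have hRK : 0 < R * K := by positivity
  have e1 : (R * (2 * K)) ^ ε ≤ 2 * (R * K) ^ ε := by
    rw [show R * (2 * K) = 2 * (R * K) by ring, Real.mul_rpow (by norm_num) hRK.le]
    have : (2 : ℝ) ^ ε ≤ 2 ^ (1 : ℝ) := Real.rpow_le_rpow_of_exponent_le (by norm_num) hε1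
    rw [Real.rpow_one] at this
    gcongr
  have e2 : (R * (2 * K)) ^ (2 / 3 : ℝ) ≤ 2 * (R * K) ^ (2 / 3 : ℝ) := by
    rw [show R * (2 * K) = 2 * (R * K) by ring, Real.mul_rpow (by norm_num) hRK.le]
    have : (2 : ℝ) ^ (2 / 3 : ℝ) ≤ 2 ^ (1 : ℝ) :=
      Real.rpow_le_rpow_of_exponent_le (by norm_num) (by norm_num)
    rw [Real.rpow_one] at this
    gcongr
  have p1 : 0 < (R * K) ^ ε := Real.rpow_pos_of_pos hRK _
  have p2 : 0 < (R * K) ^ (2 / 3 : ℝ) := Real.rpow_pos_of_pos hRK _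
  calc C * (R * (2 * K)) ^ ε * (R + 2 * K + (R * (2 * K)) ^ (2 / 3 : ℝ))
      ≤ C * (2 * (R * K) ^ ε) * (2 * R + 2 * K + 2 * (R * K) ^ (2 / 3 : ℝ)) := by
        have h3 : (0 : ℝ) ≤ (R * (2 * K)) ^ (2 / 3 : ℝ) := by positivity
        gcongr
        linarith
    _ = 4 * (C * (R * K) ^ ε * (R + K + (R * K) ^ (2 / 3 : ℝ))) := by ring

theorem blk_le_a {C ε : ℝ} (hC : 0 < C) (hε : 0 < ε) (hε1 : ε ≤ 1) (hHB : HBc C ε)
    (γ : O → ℂ) {R : ℝ} (hR : 1 ≤ R) (u : O) (l : ℕ) (n : O) (a b : ℕ) :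
    blkS γ R u l n a b ≤
      256 * C * ((R * 2 ^ a) ^ ε * (R + 2 ^ a + (R * 2 ^ a) ^ (2 / 3 : ℝ))) * 2 ^ b * En γ R := by
  classical
  have ha : (1 : ℝ) ≤ 2 ^ a := one_le_pow₀ (by norm_num)
  have hb : (1 : ℝ) ≤ 2 ^ b := one_le_pow₀ (by norm_num)
  have h1 : blkS γ R u l n a b ≤
      ∑ k2 ∈ PB (2 * 2 ^ b), ∑ k1 ∈ PB (2 * 2 ^ a), ‖Fs γ R (rep u l k1 k2 n)‖ ^ 2 := by
    unfold blkS
    rw [Finset.sum_comm]
    calc _ ≤ ∑ k2 ∈ DB b, ∑ k1 ∈ DB a, ‖Fs γ R (rep u l k1 k2 n)‖ ^ 2 := by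
          refine Finset.sum_le_sum fun k2 _ => Finset.sum_le_sum fun k1 _ => ?_
          split_ifs
          · exact le_rfl
          · positivity
      _ ≤ ∑ k2 ∈ DB b, ∑ k1 ∈ PB (2 * 2 ^ a), ‖Fs γ R (rep u l k1 k2 n)‖ ^ 2 := by
          refine Finset.sum_le_sum fun k2 _ => ?_
          exact Finset.sum_le_sum_of_subset_of_nonneg (DB_subset a) fun _ _ _ => by positivity
      _ ≤ _ := Finset.sum_le_sum_of_subset_of_nonneg (DB_subset b) fun _ _ _ => by positivity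
  refine h1.trans ?_
  have h2 : ∀ k2 ∈ PB (2 * 2 ^ b), ∑ k1 ∈ PB (2 * 2 ^ a), ‖Fs γ R (rep u l k1 k2 n)‖ ^ 2 ≤
      4 * (C * (R * 2 ^ a) ^ ε * (R + 2 ^ a + (R * 2 ^ a) ^ (2 / 3 : ℝ))) * En γ R := by
    intro k2 _
    have h3 := hHB R (2 * 2 ^ a) hR (by linarith)
      (fun r => γ r * ch r (u * lam ^ l * k2 ^ 2 * n ^ 3))
    have h4 : ∑ k1 ∈ PB (2 * 2 ^ a), ‖Fs γ R (rep u l k1 k2 n)‖ ^ 2 =
        ∑ k1 ∈ PB (2 * 2 ^ a),
          ‖Fs (fun r => γ r * ch r (u * lam ^ l * k2 ^ 2 * n ^ 3)) R k1‖ ^ 2 :=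
      Finset.sum_congr rfl fun k1 _ => by rw [Fs_rep_a]
    rw [h4]
    refine h3.trans ?_
    have h5 := hb_two (R := R) (K := 2 ^ a) hC hε hε1 hR ha
    have h6 := En_twist_le γ R (u * lam ^ l * k2 ^ 2 * n ^ 3)
    exact mul_le_mul h5 h6 (Finset.sum_nonneg fun _ _ => by positivity) (by positivity)
  calc _ ≤ ∑ k2 ∈ PB (2 * 2 ^ b),
        4 * (C * (R * 2 ^ a) ^ ε * (R + 2 ^ a + (R * 2 ^ a) ^ (2 / 3 : ℝ))) * En γ R :=
        Finset.sum_le_sum h2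
    _ = (PB (2 * 2 ^ b)).card *
        (4 * (C * (R * 2 ^ a) ^ ε * (R + 2 ^ a + (R * 2 ^ a) ^ (2 / 3 : ℝ))) * En γ R) := by
        rw [Finset.sum_const, nsmul_eq_mul]
    _ ≤ (32 * (2 * 2 ^ b)) *
        (4 * (C * (R * 2 ^ a) ^ ε * (R + 2 ^ a + (R * 2 ^ a) ^ (2 / 3 : ℝ))) * En γ R) := by
        have := card_PB_le (X := 2 * 2 ^ b) (by positivity)
        have hE := En_nonneg γ R
        gcongr
    _ = _ := by ring

theorem blk_le_b {C ε : ℝ} (hC : 0 < C) (hε : 0 < ε) (hε1 : ε ≤ 1) (hHB : HBc C ε)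
    (γ : O → ℂ) {R : ℝ} (hR : 1 ≤ R) (u : O) (l : ℕ) (n : O) (a b : ℕ) :
    blkS γ R u l n a b ≤
      256 * C * ((R * 2 ^ b) ^ ε * (R + 2 ^ b + (R * 2 ^ b) ^ (2 / 3 : ℝ))) * 2 ^ a * En γ R := by
  classical
  have ha : (1 : ℝ) ≤ 2 ^ a := one_le_pow₀ (by norm_num)
  have hb : (1 : ℝ) ≤ 2 ^ b := one_le_pow₀ (by norm_num)
  have h1 : blkS γ R u l n a b ≤
      ∑ k1 ∈ PB (2 * 2 ^ a), ∑ k2 ∈ PB (2 * 2 ^ b), ‖Fs γ R (rep u l k1 k2 n)‖ ^ 2 := by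
    unfold blkS
    calc _ ≤ ∑ k1 ∈ DB a, ∑ k2 ∈ DB b, ‖Fs γ R (rep u l k1 k2 n)‖ ^ 2 := by
          refine Finset.sum_le_sum fun k1 _ => Finset.sum_le_sum fun k2 _ => ?_
          split_ifs
          · exact le_rfl
          · positivity
      _ ≤ ∑ k1 ∈ DB a, ∑ k2 ∈ PB (2 * 2 ^ b), ‖Fs γ R (rep u l k1 k2 n)‖ ^ 2 := by
          refine Finset.sum_le_sum fun k1 _ => ?_
          exact Finset.sum_le_sum_of_subset_of_nonneg (DB_subset b) fun _ _ _ => by positivity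
      _ ≤ _ := Finset.sum_le_sum_of_subset_of_nonneg (DB_subset a) fun _ _ _ => by positivity
  refine h1.trans ?_
  have h2 : ∀ k1 ∈ PB (2 * 2 ^ a), ∑ k2 ∈ PB (2 * 2 ^ b), ‖Fs γ R (rep u l k1 k2 n)‖ ^ 2 ≤
      4 * (C * (R * 2 ^ b) ^ ε * (R + 2 ^ b + (R * 2 ^ b) ^ (2 / 3 : ℝ))) * En γ R := by
    intro k1 _
    have h3 := hHB R (2 * 2 ^ b) hR (by linarith)
      (fun r => (starRingEnd ℂ) (γ r * ch r (u * lam ^ l * k1 * n ^ 3)))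
    have h4 : ∑ k2 ∈ PB (2 * 2 ^ b), ‖Fs γ R (rep u l k1 k2 n)‖ ^ 2 =
        ∑ k2 ∈ PB (2 * 2 ^ b),
          ‖Fs (fun r => (starRingEnd ℂ) (γ r * ch r (u * lam ^ l * k1 * n ^ 3))) R k2‖ ^ 2 :=
      Finset.sum_congr rfl fun k2 _ => by rw [Fs_rep_b]
    rw [h4]
    refine h3.trans ?_
    have h5 := hb_two (R := R) (K := 2 ^ b) hC hε hε1 hR hb
    have h6 : ∑ r ∈ PB R, ‖(starRingEnd ℂ) (γ r * ch r (u * lam ^ l * k1 * n ^ 3))‖ ^ 2 ≤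
        En γ R := by
      simp only [Complex.norm_conj]
      exact En_twist_le γ R (u * lam ^ l * k1 * n ^ 3)
    exact mul_le_mul h5 h6 (Finset.sum_nonneg fun _ _ => by positivity) (by positivity)
  calc _ ≤ ∑ k1 ∈ PB (2 * 2 ^ a),
        4 * (C * (R * 2 ^ b) ^ ε * (R + 2 ^ b + (R * 2 ^ b) ^ (2 / 3 : ℝ))) * En γ R :=
        Finset.sum_le_sum h2
    _ = (PB (2 * 2 ^ a)).card *
        (4 * (C * (R * 2 ^ b) ^ ε * (R + 2 ^ b + (R * 2 ^ b) ^ (2 / 3 : ℝ))) * En γ R) := by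
        rw [Finset.sum_const, nsmul_eq_mul]
    _ ≤ (32 * (2 * 2 ^ a)) *
        (4 * (C * (R * 2 ^ b) ^ ε * (R + 2 ^ b + (R * 2 ^ b) ^ (2 / 3 : ℝ))) * En γ R) := by
        have := card_PB_le (X := 2 * 2 ^ a) (by positivity)
        have hE := En_nonneg γ R
        gcongr
    _ = _ := by ring

theorem blk_le_c {C : ℝ} (hC : 0 < C) (hCLS : CLSc C)
    (γ : O → ℂ) {R : ℝ} (hR : 1 ≤ R) (u : O) (l : ℕ) (n : O) (a b : ℕ) :
    blkS γ R u l n a b ≤ 16 * C * (R + (2 ^ a * 2 ^ b) ^ 2) * En γ R := by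
  classical
  have ha : (1 : ℝ) ≤ 2 ^ a := one_le_pow₀ (by norm_num)
  have hb : (1 : ℝ) ≤ 2 ^ b := one_le_pow₀ (by norm_num)
  set Q : ℝ := 4 * (2 ^ a * 2 ^ b) with hQ
  have hab : (1 : ℝ) ≤ 2 ^ a * 2 ^ b := one_le_mul_of_one_le_of_one_le ha hb
  have hQ1 : 1 ≤ Q := by rw [hQ]; linarith
  have hsa : DB a ⊆ PB Q := by
    intro k hk
    rw [mem_DB] at hk
    rw [mem_PB]
    refine ⟨hk.1.1.trans ?_, hk.1.2⟩
    rw [hQ]; nlinarith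
  have hsb : DB b ⊆ PB Q := by
    intro k hk
    rw [mem_DB] at hk
    rw [mem_PB]
    refine ⟨hk.1.1.trans ?_, hk.1.2⟩
    rw [hQ]; nlinarith
  set f : O → O → ℝ := fun k1 k2 =>
    if IsCoprime k1 k2 ∧ (N k1 : ℝ) * N k2 ≤ Q then ‖∑ r ∈ PB R,
      (γ r * ch r (u * lam ^ l * n ^ 3)) * ch r k1 * ch r k2 ^ 2‖ ^ 2 else 0 with hf
  have hf0 : ∀ k1 k2, 0 ≤ f k1 k2 := by
    intro k1 k2; simp only [hf]; split_ifs <;> positivity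
  have h1 : blkS γ R u l n a b ≤ ∑ k1 ∈ PB Q, ∑ k2 ∈ PB Q, f k1 k2 := by
    unfold blkS
    calc _ ≤ ∑ k1 ∈ DB a, ∑ k2 ∈ DB b, f k1 k2 := by
          refine Finset.sum_le_sum fun k1 hk1 => Finset.sum_le_sum fun k2 hk2 => ?_
          rw [mem_DB] at hk1 hk2
          by_cases hc : IsCoprime k1 k2
          · have hle : (N k1 : ℝ) * N k2 ≤ Q := by
              calc (N k1 : ℝ) * N k2 ≤ (2 * 2 ^ a) * (2 * 2 ^ b) := by
                    gcongr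
                    · exact hk1.1.1
                    · exact hk2.1.1
                _ = Q := by rw [hQ]; ring
            rw [if_pos hc]
            simp only [hf]
            rw [if_pos ⟨hc, hle⟩, Fs_rep_c]
          · rw [if_neg hc]; exact hf0 _ _
      _ ≤ ∑ k1 ∈ DB a, ∑ k2 ∈ PB Q, f k1 k2 := by
          refine Finset.sum_le_sum fun k1 _ => ?_
          exact Finset.sum_le_sum_of_subset_of_nonneg hsb fun _ _ _ => hf0 _ _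
      _ ≤ _ := Finset.sum_le_sum_of_subset_of_nonneg hsa fun _ _ _ =>
          Finset.sum_nonneg fun _ _ => hf0 _ _
  refine h1.trans ?_
  have h2 := hCLS R Q hR hQ1 (fun r => γ r * ch r (u * lam ^ l * n ^ 3))
  refine h2.trans ?_
  have h6 := En_twist_le γ R (u * lam ^ l * n ^ 3)
  have hE := En_nonneg γ R
  calc C * (R + Q ^ 2) * ∑ r ∈ PB R, ‖γ r * ch r (u * lam ^ l * n ^ 3)‖ ^ 2
      ≤ C * (R + Q ^ 2) * En γ R := by gcongr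
    _ = C * (R + 16 * (2 ^ a * 2 ^ b) ^ 2) * En γ R := by rw [hQ]; ring
    _ ≤ C * (16 * R + 16 * (2 ^ a * 2 ^ b) ^ 2) * En γ R := by
        gcongr; linarith
    _ = _ := by ring

end Vale.Agent.P006.NC
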