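import Vale.Agent.P006.CR.Symbol
import Mathlib.Analysis.SpecialFunctions.Sqrt
import Mathlib.Algebra.Order.Floor.Semiring

/-!
P006, block NC: finite sets of elements of bounded norm in `O`, counting.
-/

namespace Vale.Agent.P006.NC

open Finset

theorem sq_add_sq_le (z : O) : (z.re : ℝ) ^ 2 + (z.im : ℝ) ^ 2 ≤ 2 * (N z : ℝ) := by
  have h : (N z : ℝ) = ((N z : ℤ) : ℝ) := by simp
  rw [h, N_cast_int']
  push_cast
  nlinarith [sq_nonneg ((z.re : ℝ) - z.im)]

theorem finite_N_le (X : ℝ) : {z : O | (N z : ℝ) ≤ X}.Finite := by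
  set m : ℤ := ⌈Real.sqrt (2 * X)⌉ with hm
  have hsub : {z : O | (N z : ℝ) ≤ X} ⊆
      (fun p : ℤ × ℤ => (⟨p.1, p.2⟩ : O)) '' ((Set.Icc (-m) m) ×ˢ (Set.Icc (-m) m)) := by
    intro z hz
    have hz' : (N z : ℝ) ≤ X := hz
    have h1 := sq_add_sq_le z
    have habs : ∀ t : ℤ, (t : ℝ) ^ 2 ≤ 2 * X → t ∈ Set.Icc (-m) m := by
      intro t ht
      have h2 : |(t : ℝ)| ≤ Real.sqrt (2 * X) := Real.abs_le_sqrt ht
      have h3 : |(t : ℝ)| ≤ m := h2.trans (Int.le_ceil _)
      have h4 := abs_le.1 h3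
      constructor
      · have : ((-m : ℤ) : ℝ) ≤ t := by push_cast; exact h4.1
        exact_mod_cast this
      · exact_mod_cast h4.2
    refine ⟨(z.re, z.im), ⟨habs _ ?_, habs _ ?_⟩, rfl⟩
    · nlinarith [sq_nonneg (z.im : ℝ)]
    · nlinarith [sq_nonneg (z.re : ℝ)]
  exact ((Set.finite_Icc _ _).prod (Set.finite_Icc _ _)).image _ |>.subset hsub

/-- the finite set of elements of `O` of norm at most `X` -/
noncomputable def NB (X : ℝ) : Finset O := (finite_N_le X).toFinset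

@[simp] theorem mem_NB {X : ℝ} {z : O} : z ∈ NB X ↔ (N z : ℝ) ≤ X := by
  simp [NB]

theorem one_le_N {z : O} (hz : z ≠ 0) : (1 : ℝ) ≤ N z := by
  have := N_pos hz
  exact_mod_cast this

/-- nonzero elements of norm at most `X` -/
noncomputable def NZ (X : ℝ) : Finset O := (NB X).filter (fun z => z ≠ 0)

@[simp] theorem mem_NZ {X : ℝ} {z : O} : z ∈ NZ X ↔ (N z : ℝ) ≤ X ∧ z ≠ 0 := by
  simp [NZ]

theorem card_NB_le {X : ℝ} (hX : 1 ≤ X) : ((NB X).card : ℝ) ≤ 32 * X := by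
  set m : ℤ := ⌊Real.sqrt (2 * X)⌋ with hm
  have hs1 : 1 ≤ Real.sqrt (2 * X) := by
    rw [Real.one_le_sqrt]; linarith
  have hm1 : 1 ≤ m := by rw [hm, Int.le_floor]; exact_mod_cast hs1
  have hinj : Function.Injective (fun z : O => ((z.re, z.im) : ℤ × ℤ)) := by
    intro x y hxy
    simp only [Prod.mk.injEq] at hxy
    exact QuadraticAlgebra.ext hxy.1 hxy.2
  have hsub : (NB X).image (fun z : O => ((z.re, z.im) : ℤ × ℤ)) ⊆
      (Finset.Icc (-m) m) ×ˢ (Finset.Icc (-m) m) := by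
    intro p hp
    rw [Finset.mem_image] at hp
    obtain ⟨z, hz, rfl⟩ := hp
    rw [mem_NB] at hz
    have h1 := sq_add_sq_le z
    have habs : ∀ t : ℤ, (t : ℝ) ^ 2 ≤ 2 * X → t ∈ Finset.Icc (-m) m := by
      intro t ht
      have h2 : |(t : ℝ)| ≤ Real.sqrt (2 * X) := Real.abs_le_sqrt ht
      have h4 : |t| ≤ m := by
        rw [hm, Int.le_floor]; push_cast; exact h2
      rw [Finset.mem_Icc]; exact abs_le.1 h4
    rw [Finset.mem_product]
    refine ⟨habs _ ?_, habs _ ?_⟩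
    · nlinarith [sq_nonneg (z.im : ℝ)]
    · nlinarith [sq_nonneg (z.re : ℝ)]
  have hcard := Finset.card_le_card hsub
  rw [Finset.card_image_of_injective _ hinj, Finset.card_product, Int.card_Icc] at hcard
  have hc2 : ((NB X).card : ℝ) ≤ ((m + 1 - -m).toNat : ℝ) * ((m + 1 - -m).toNat : ℝ) := by
    exact_mod_cast hcard
  have hc3 : ((m + 1 - -m).toNat : ℝ) = 2 * m + 1 := by
    have h5 : ((m + 1 - -m).toNat : ℤ) = 2 * m + 1 := by omega
    exact_mod_cast h5
  rw [hc3] at hc2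
  have hm2 : (m : ℝ) ≤ Real.sqrt (2 * X) := Int.floor_le _
  have hsq : Real.sqrt (2 * X) * Real.sqrt (2 * X) = 2 * X := Real.mul_self_sqrt (by linarith)
  have hm1' : (1 : ℝ) ≤ m := by exact_mod_cast hm1
  nlinarith

/-- the number of nonzero elements of norm at most `X` is at most `32 X`, for every real `X ≥ 0` -/
theorem card_NZ_le {X : ℝ} (hX : 0 ≤ X) : ((NZ X).card : ℝ) ≤ 32 * X := by
  rcases lt_or_ge X 1 with h | h
  · have : NZ X = ∅ := by
      rw [Finset.eq_empty_iff_forall_notMem]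
      intro z hz
      rw [mem_NZ] at hz
      have := one_le_N hz.2
      linarith [hz.1]
    rw [this]; simp; linarith
  · have h1 := card_NB_le h
    have h2 : (NZ X).card ≤ (NB X).card := Finset.card_filter_le _ _
    have h3 : ((NZ X).card : ℝ) ≤ (NB X).card := by exact_mod_cast h2
    linarith

/-- squarefree primary elements -/
def SqP (a : O) : Prop := Primary a ∧ Squarefree a

/-- squarefree primary elements of norm at most `X` -/
noncomputable def PB (X : ℝ) : Finset O := by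
  classical exact (NB X).filter SqP

@[simp] theorem mem_PB {X : ℝ} {z : O} : z ∈ PB X ↔ (N z : ℝ) ≤ X ∧ SqP z := by
  simp [PB]

theorem SqP.ne_zero {a : O} (h : SqP a) : a ≠ 0 := h.1.ne_zero

theorem PB_subset_NZ (X : ℝ) : PB X ⊆ NZ X := by
  intro z hz
  rw [mem_PB] at hz
  rw [mem_NZ]
  exact ⟨hz.1, hz.2.ne_zero⟩

theorem card_PB_le {X : ℝ} (hX : 0 ≤ X) : ((PB X).card : ℝ) ≤ 32 * X := by
  have h1 := card_NZ_le hX
  have h2 : ((PB X).card : ℝ) ≤ (NZ X).card := by
    exact_mod_cast Finset.card_le_card (PB_subset_NZ X)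
  linarith

theorem PB_eq_empty {X : ℝ} (hX : X < 1) : PB X = ∅ := by
  rw [Finset.eq_empty_iff_forall_notMem]
  intro z hz
  rw [mem_PB] at hz
  have := one_le_N hz.2.ne_zero
  linarith [hz.1]

theorem sqP_one : SqP 1 := ⟨primary_one, squarefree_one⟩

/-- the cubic symbol with complex values: `ch r k = (k/r)_3 = χ_r(k)` -/
noncomputable def ch (r k : O) : ℂ := toC (sym k r)

theorem ch_mul (r k l : O) : ch r (k * l) = ch r k * ch r l := by
  simp [ch, sym_mul_left]

theorem ch_pow (r k : O) (n : ℕ) : ch r (k ^ n) = ch r k ^ n := by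
  simp [ch, sym_pow_left]

theorem ch_sq (r k : O) : ch r k ^ 2 = (starRingEnd ℂ) (ch r k) := by
  rw [ch, conj_sym]

theorem norm_ch_le (r k : O) : ‖ch r k‖ ≤ 1 := norm_sym_le k r

theorem ch_mul_left {r s : O} (k : O) (hr : r ≠ 0) (hs : s ≠ 0) :
    ch (r * s) k = ch r k * ch s k := by
  simp [ch, sym_mul_right k hr hs]

end Vale.Agent.P006.NC
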