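import Vale.Agent.P006.H206.Assemble

/-!
P006, block NC: the theorem on the non-cube quantity.
-/

namespace Vale.Agent.P006.NC

open Finset

theorem log_cube_le {A ε : ℝ} (hA : 1 ≤ A) (hε : 0 < ε) :
    (1 + Real.log A) ^ 3 ≤ (1 + 1 / ε) ^ 3 * (A ^ ε) ^ 3 := by
  have h1 : Real.log A ≤ A ^ ε / ε := Real.log_le_rpow_div (by linarith) hε
  have h2 : 1 ≤ A ^ ε := Real.one_le_rpow hA hε.le
  have h3 : 0 ≤ Real.log A := Real.log_nonneg hA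
  have h4 : 1 + Real.log A ≤ (1 + 1 / ε) * A ^ ε := by
    have : (1 + 1 / ε) * A ^ ε = A ^ ε + A ^ ε / ε := by ring
    linarith
  calc (1 + Real.log A) ^ 3 ≤ ((1 + 1 / ε) * A ^ ε) ^ 3 := pow_le_pow_left₀ (by linarith) h4 3
    _ = _ := by ring

/-- geometry of the parameters: for `N j ≤ A^{δ/4}`, `R = A/N j` -/
theorem params {δ A H n : ℝ} (hδ : 0 < δ) (hδ1 : δ ≤ 1 / 9) (hA : 1 ≤ A) (hn : 1 ≤ n)
    (hnA : n ≤ A ^ (δ / 4)) (hH : H ≤ A ^ (1 + δ / 16)) :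
    1 ≤ A / n ∧ A ^ (1 - δ / 4) ≤ A / n ∧ H ≤ (A / n) ^ (1 + δ) ∧
      (A / n) ^ (-(δ / 6)) ≤ A ^ (-(δ / 12)) := by
  have hA0 : 0 < A := by linarith
  have hn0 : 0 < n := by linarith
  have h1 : A ^ (1 - δ / 4) ≤ A / n := by
    rw [le_div_iff₀ hn0]
    calc A ^ (1 - δ / 4) * n ≤ A ^ (1 - δ / 4) * A ^ (δ / 4) := by gcongr
      _ = A := by
        rw [← Real.rpow_add hA0]
        norm_num
  have h0 : 1 ≤ A ^ (1 - δ / 4) := Real.one_le_rpow hA (by linarith)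
  have hp0 : 0 < A ^ (1 - δ / 4) := by linarith
  refine ⟨h0.trans h1, h1, ?_, ?_⟩
  · calc H ≤ A ^ (1 + δ / 16) := hH
      _ ≤ A ^ ((1 - δ / 4) * (1 + δ)) := by
          apply Real.rpow_le_rpow_of_exponent_le hA
          nlinarith
      _ = (A ^ (1 - δ / 4)) ^ (1 + δ) := by rw [Real.rpow_mul hA0.le]
      _ ≤ (A / n) ^ (1 + δ) := Real.rpow_le_rpow hp0.le h1 (by linarith)
  · calc (A / n) ^ (-(δ / 6)) ≤ (A ^ (1 - δ / 4)) ^ (-(δ / 6)) :=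
          Real.rpow_le_rpow_of_nonpos hp0 h1 (by linarith)
      _ = A ^ ((1 - δ / 4) * (-(δ / 6))) := by rw [← Real.rpow_mul hA0.le]
      _ ≤ A ^ (-(δ / 12)) := by
          apply Real.rpow_le_rpow_of_exponent_le hA
          nlinarith

/-- **Theorem NC (general form).** -/
theorem nc_general {δ : ℝ} (hδ : 0 < δ) (hδ1 : δ ≤ 1 / 9) (hHB : HBsq) {C' : ℝ} (hC' : 0 < C')
    (hCLS : CLSc C') : ∃ C : ℝ, 0 < C ∧ ∀ (ι : Type) (S : Finset ι) (α : ι → O → ℂ), Fam S α →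
      ∀ A H Q0 J0 σ M0 : ℝ, 1 ≤ A → 1 ≤ H → H ≤ A ^ (1 + δ / 16) → 1 ≤ Q0 → 1 ≤ J0 → 0 ≤ σ →
      0 ≤ M0 → SWhyp S α A H Q0 J0 σ →
      (∀ j ∈ PB (A ^ (δ / 4)), LVhyp S (fun s r => α s (j * r)) (A / N j) H ((A / N j) ^ δ)
        (M0 * (A / N j) ^ 2)) →
      ∑ s ∈ S, NCQ (α s) A H ≤ C * A ^ 2 * H ^ (1 / 3 : ℝ) *
        (Q0 ^ 3 * (J0 ^ 2 * σ + J0 ^ (-(1 / 2 : ℝ))) +
          (1 + Real.log A) ^ 3 * (Q0 ^ (-(1 / 3 : ℝ)) + M0) + A ^ (-(δ / 96))) := by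
  classical
  obtain ⟨C1, hC1, hone⟩ := one_main hδ hδ1 hHB hC' hCLS
  obtain ⟨C2, hC2, hpA⟩ := part_A hHB hδ hδ1
  obtain ⟨C3, hC3, hB1⟩ := sum_B1_le
  set ε : ℝ := δ / 100 with hε
  have hε0 : 0 < ε := by positivity
  set K : ℝ := (1 + 1 / ε) ^ 3 with hK
  have hK0 : 0 < K := by positivity
  refine ⟨C2 + 294912 * C3 + 16384 * C1 * (1 + K), by positivity, ?_⟩
  intro ι S α hF A H Q0 J0 σ M0 hA hH hHA hQ0 hJ0 hσ hM0 hSW hLV
  have hA0 : 0 < A := by linarith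
  have hH0 : 0 < H := by linarith
  have hHp : 0 < H ^ (1 / 3 : ℝ) := Real.rpow_pos_of_pos hH0 _
  have hlogA : 0 ≤ Real.log A := Real.log_nonneg hA
  have hlogH : 0 ≤ Real.log H := Real.log_nonneg hH
  have hQp : 0 < Q0 ^ (-(1 / 3 : ℝ)) := Real.rpow_pos_of_pos (by linarith) _
  have hJp : 0 < J0 ^ (-(1 / 2 : ℝ)) := Real.rpow_pos_of_pos (by linarith) _
  set T : O → O → ℝ := fun j κ => ∑ s ∈ S, ‖inner (α s) A j κ‖ ^ 2 with hT
  have hT0 : ∀ j κ, 0 ≤ T j κ := fun j κ => Finset.sum_nonneg fun _ _ => by positivity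
  set G : O → ℝ := fun j => ∑ κ ∈ NZ H, (if ¬ IsCube κ then gw j κ * T j κ else 0) with hG
  have hG0 : ∀ j, 0 ≤ G j := fun j => Finset.sum_nonneg fun κ _ => by
    split_ifs
    · exact le_rfl
    · exact mul_nonneg (gw_nonneg j κ) (hT0 j κ)
  -- rewrite the family sum
  have e0 : ∑ s ∈ S, NCQ (α s) A H = ∑ j ∈ PB A, G j := by
    unfold NCQ
    rw [Finset.sum_comm]
    refine Finset.sum_congr rfl fun j _ => ?_
    rw [Finset.sum_comm]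
    refine Finset.sum_congr rfl fun κ _ => ?_
    by_cases hc : IsCube κ
    · simp [hc]
    · simp only [hc, not_false_eq_true, if_true]
      rw [Finset.mul_sum]
  -- split
  have e1 : ∑ j ∈ PB A, G j = ∑ j ∈ PB A with A ^ (δ / 4) < (N j : ℝ), G j +
      ∑ j ∈ PB A with ¬ (A ^ (δ / 4) < (N j : ℝ)), G j :=
    (Finset.sum_filter_add_sum_filter_not _ _ _).symm
  have hbig : ∑ j ∈ PB A with A ^ (δ / 4) < (N j : ℝ), G j ≤
      C2 * A ^ 2 * H ^ (1 / 3 : ℝ) * A ^ (-(δ / 96)) := by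
    refine le_trans ?_ (hpA ι S α hF A H hA hH hHA)
    refine Finset.sum_le_sum fun j _ => Finset.sum_le_sum fun κ _ => ?_
    have := mul_nonneg (gw_nonneg j κ) (hT0 j κ)
    split_ifs
    · exact this
    · exact le_rfl
  -- the low part
  have hlow1 : ∀ j ∈ PB A, ¬ (A ^ (δ / 4) < (N j : ℝ)) → G j ≤
      (4 * C1 * (1 + Real.log A) ^ 2 * H ^ (1 / 3 : ℝ) * A ^ 2 *
        (32 * (Q0 ^ (-(1 / 3 : ℝ)) + A ^ (-(δ / 12))) + M0)) * (1 / (N j : ℝ)) +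
      294912 * Q0 ^ 3 * H ^ (1 / 3 : ℝ) * (B1 A J0 σ j * tauA A j) := by
    intro j hj hnj
    have hj' := hj
    rw [mem_PB] at hj'
    have hnj' : (N j : ℝ) ≤ A ^ (δ / 4) := not_lt.1 hnj
    have hN1 := one_le_N hj'.2.ne_zero
    have hN0 : (0 : ℝ) < N j := by linarith
    obtain ⟨p1, p2, p3, p4⟩ := params hδ hδ1 hA hN1 hnj' hHA
    have hjl : j ∈ PB (A ^ (δ / 4)) := by rw [mem_PB]; exact ⟨hnj', hj'.2⟩
    have h1 := one_j hF hA hH (by linarith : (0 : ℝ) ≤ Q0) hσ hSW hj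
    have h2 := hone ι S (fun s r => α s (j * r)) (A / N j) H Q0 (M0 * (A / N j) ^ 2) p1 hH p3
      (by linarith) (by positivity) (hLV j hjl)
    set R : ℝ := A / N j with hR
    have hR0 : 0 < R := by linarith
    have hE := hF.sum_En_le hA0.le j
    rw [← hR] at hE
    have hE0 : 0 ≤ ∑ s ∈ S, En (fun r => α s (j * r)) R :=
      Finset.sum_nonneg fun _ _ => En_nonneg _ _
    have hlogHA : (1 + Real.log H) ^ 2 ≤ 4 * (1 + Real.log A) ^ 2 := by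
      have h3 : Real.log H ≤ 2 * Real.log A := by
        have h4 : H ≤ A ^ (2 : ℝ) := hHA.trans
          (Real.rpow_le_rpow_of_exponent_le hA (by linarith))
        calc Real.log H ≤ Real.log (A ^ (2 : ℝ)) := Real.log_le_log hH0 h4
          _ = 2 * Real.log A := Real.log_rpow hA0 2
      calc (1 + Real.log H) ^ 2 ≤ (2 * (1 + Real.log A)) ^ 2 :=
            pow_le_pow_left₀ (by linarith) (by linarith) 2
        _ = _ := by ring
    have hRp : 0 < R ^ (-(δ / 6)) := Real.rpow_pos_of_pos hR0 _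
    have h5 : C1 * (1 + Real.log H) ^ 2 * H ^ (1 / 3 : ℝ) *
          (R * (∑ s ∈ S, En (fun r => α s (j * r)) R) * (Q0 ^ (-(1 / 3 : ℝ)) + R ^ (-(δ / 6))) +
            M0 * R ^ 2) ≤
        C1 * (4 * (1 + Real.log A) ^ 2) * H ^ (1 / 3 : ℝ) *
          (R * (32 * R) * (Q0 ^ (-(1 / 3 : ℝ)) + A ^ (-(δ / 12))) + M0 * R ^ 2) := by
      gcongr
    have h6 : (N j : ℝ) * (C1 * (4 * (1 + Real.log A) ^ 2) * H ^ (1 / 3 : ℝ) *
          (R * (32 * R) * (Q0 ^ (-(1 / 3 : ℝ)) + A ^ (-(δ / 12))) + M0 * R ^ 2)) =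
        (4 * C1 * (1 + Real.log A) ^ 2 * H ^ (1 / 3 : ℝ) * A ^ 2 *
        (32 * (Q0 ^ (-(1 / 3 : ℝ)) + A ^ (-(δ / 12))) + M0)) * (1 / (N j : ℝ)) := by
      rw [hR]; field_simp
    have h7 : 9 * ((32 * Q0) ^ 2 * (Q0 * (32 * H ^ (1 / 3 : ℝ) * tauA A j) * B1 A J0 σ j)) =
        294912 * Q0 ^ 3 * H ^ (1 / 3 : ℝ) * (B1 A J0 σ j * tauA A j) := by ring
    rw [h7] at h1
    have h8 := mul_le_mul_of_nonneg_left (h2.trans h5) hN0.le
    rw [h6] at h8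
    exact h1.trans (by linarith)
  have hτ0 : ∀ j, 0 ≤ B1 A J0 σ j * tauA A j := fun j =>
    mul_nonneg (B1_nonneg hσ j) (by unfold tauA; positivity)
  set W : ℝ := 4 * C1 * (1 + Real.log A) ^ 2 * H ^ (1 / 3 : ℝ) * A ^ 2 *
        (32 * (Q0 ^ (-(1 / 3 : ℝ)) + A ^ (-(δ / 12))) + M0) with hW
  have hAp12 : 0 < A ^ (-(δ / 12)) := Real.rpow_pos_of_pos hA0 _
  have hAp96 : 0 < A ^ (-(δ / 96)) := Real.rpow_pos_of_pos hA0 _
  have hW0 : 0 ≤ W := by positivity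
  have hlow : ∑ j ∈ PB A with ¬ (A ^ (δ / 4) < (N j : ℝ)), G j ≤
      W * (128 * (1 + Real.log A)) +
      294912 * Q0 ^ 3 * H ^ (1 / 3 : ℝ) * (C3 * A ^ 2 * (J0 ^ 2 * σ + J0 ^ (-(1 / 2 : ℝ)))) := by
    calc ∑ j ∈ PB A with ¬ (A ^ (δ / 4) < (N j : ℝ)), G j
        ≤ ∑ j ∈ PB A with ¬ (A ^ (δ / 4) < (N j : ℝ)), (W * (1 / (N j : ℝ)) +
          294912 * Q0 ^ 3 * H ^ (1 / 3 : ℝ) * (B1 A J0 σ j * tauA A j)) := by
          refine Finset.sum_le_sum fun j hj => ?_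
          rw [Finset.mem_filter] at hj
          exact hlow1 j hj.1 hj.2
      _ ≤ ∑ j ∈ PB A, (W * (1 / (N j : ℝ)) +
          294912 * Q0 ^ 3 * H ^ (1 / 3 : ℝ) * (B1 A J0 σ j * tauA A j)) := by
          refine Finset.sum_le_sum_of_subset_of_nonneg (Finset.filter_subset _ _) fun j _ _ => ?_
          have := hτ0 j
          positivity
      _ = W * (∑ j ∈ PB A, 1 / (N j : ℝ)) +
          294912 * Q0 ^ 3 * H ^ (1 / 3 : ℝ) * ∑ j ∈ PB A, B1 A J0 σ j * tauA A j := by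
          rw [Finset.sum_add_distrib, ← Finset.mul_sum, ← Finset.mul_sum]
      _ ≤ _ := by
          have h1 := sum_inv_le hA
          have h2 := hB1 A J0 σ hA hJ0 hσ
          gcongr
  rw [e0, e1]
  refine (add_le_add hbig hlow).trans ?_
  -- final bookkeeping
  have hK1 : (1 + Real.log A) ^ 3 * A ^ (-(δ / 12)) ≤ K * A ^ (-(δ / 96)) := by
    have h1 := log_cube_le hA hε0
    have h2 : (A ^ ε) ^ 3 = A ^ (3 * ε) := by
      rw [← Real.rpow_natCast, ← Real.rpow_mul hA0.le]; congr 1; push_cast; ring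
    rw [h2] at h1
    calc (1 + Real.log A) ^ 3 * A ^ (-(δ / 12)) ≤ (K * A ^ (3 * ε)) * A ^ (-(δ / 12)) := by gcongr
      _ = K * (A ^ (3 * ε) * A ^ (-(δ / 12))) := by ring
      _ ≤ K * A ^ (-(δ / 96)) := by
          have h3 : A ^ (3 * ε) * A ^ (-(δ / 12)) ≤ A ^ (-(δ / 96)) := by
            rw [← Real.rpow_add hA0]
            apply Real.rpow_le_rpow_of_exponent_le hA
            rw [hε]; linarith
          gcongr
  have hWe : W * (128 * (1 + Real.log A)) = A ^ 2 * H ^ (1 / 3 : ℝ) * (512 * C1) *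
      ((1 + Real.log A) ^ 3 * (32 * Q0 ^ (-(1 / 3 : ℝ)) + M0) +
        32 * ((1 + Real.log A) ^ 3 * A ^ (-(δ / 12)))) := by
    rw [hW]; ring
  rw [hWe]
  set X : ℝ := A ^ 2 * H ^ (1 / 3 : ℝ) with hX
  have hX0 : 0 < X := by positivity
  set L3 : ℝ := (1 + Real.log A) ^ 3 with hL3
  have hL30 : 0 < L3 := by positivity
  set Sσ : ℝ := J0 ^ 2 * σ + J0 ^ (-(1 / 2 : ℝ)) with hSσ
  have hSσ0 : 0 < Sσ := by positivity
  have t1 : X * (512 * C1) * (L3 * (32 * Q0 ^ (-(1 / 3 : ℝ)) + M0) +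
        32 * (L3 * A ^ (-(δ / 12)))) ≤
      X * (16384 * C1 * (1 + K)) * (L3 * (Q0 ^ (-(1 / 3 : ℝ)) + M0) + A ^ (-(δ / 96))) := by
    calc X * (512 * C1) * (L3 * (32 * Q0 ^ (-(1 / 3 : ℝ)) + M0) + 32 * (L3 * A ^ (-(δ / 12))))
        ≤ X * (512 * C1) * (L3 * (32 * Q0 ^ (-(1 / 3 : ℝ)) + 32 * M0) +
            32 * (K * A ^ (-(δ / 96)))) := by
          have : M0 ≤ 32 * M0 := by linarith
          gcongr
      _ = X * (16384 * C1) * (L3 * (Q0 ^ (-(1 / 3 : ℝ)) + M0) + K * A ^ (-(δ / 96))) := by ring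
      _ ≤ X * (16384 * C1) * ((1 + K) * (L3 * (Q0 ^ (-(1 / 3 : ℝ)) + M0) + A ^ (-(δ / 96)))) := by
          have h1 : 0 ≤ K * (L3 * (Q0 ^ (-(1 / 3 : ℝ)) + M0)) := by positivity
          have h2 : L3 * (Q0 ^ (-(1 / 3 : ℝ)) + M0) + K * A ^ (-(δ / 96)) ≤
              (1 + K) * (L3 * (Q0 ^ (-(1 / 3 : ℝ)) + M0) + A ^ (-(δ / 96))) := by
            calc _ ≤ L3 * (Q0 ^ (-(1 / 3 : ℝ)) + M0) + K * A ^ (-(δ / 96)) +
                  (K * (L3 * (Q0 ^ (-(1 / 3 : ℝ)) + M0)) + A ^ (-(δ / 96))) := by linarith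
              _ = _ := by ring
          gcongr
      _ = _ := by ring
  have t2 : 294912 * Q0 ^ 3 * H ^ (1 / 3 : ℝ) * (C3 * A ^ 2 * Sσ) =
      X * (294912 * C3) * (Q0 ^ 3 * Sσ) := by rw [hX]; ring
  have t3 : C2 * A ^ 2 * H ^ (1 / 3 : ℝ) * A ^ (-(δ / 96)) = X * C2 * A ^ (-(δ / 96)) := by
    rw [hX]; ring
  rw [t2, t3]
  set P : ℝ := Q0 ^ 3 * Sσ with hP
  have hP0 : 0 ≤ P := by positivity
  set V : ℝ := L3 * (Q0 ^ (-(1 / 3 : ℝ)) + M0) with hV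
  have hV0 : 0 ≤ V := by positivity
  calc X * C2 * A ^ (-(δ / 96)) + (X * (512 * C1) * (L3 * (32 * Q0 ^ (-(1 / 3 : ℝ)) + M0) +
        32 * (L3 * A ^ (-(δ / 12)))) + X * (294912 * C3) * P)
      ≤ X * C2 * A ^ (-(δ / 96)) + (X * (16384 * C1 * (1 + K)) * (V + A ^ (-(δ / 96))) +
          X * (294912 * C3) * P) := by linarith
    _ ≤ X * C2 * (P + V + A ^ (-(δ / 96))) +
          (X * (16384 * C1 * (1 + K)) * (P + V + A ^ (-(δ / 96))) +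
          X * (294912 * C3) * (P + V + A ^ (-(δ / 96)))) := by
        gcongr <;> linarith
    _ = _ := by rw [hX]; ring

/-- in the interior the exceptional ranges are empty -/
theorem LVhyp_interior {ι : Type} (S : Finset ι) (γ : ι → O → ℂ) {R H s M : ℝ}
    (hs : 0 ≤ s) (h : H * s ≤ R) : LVhyp S γ R H s M := by
  intro a b hab hr
  exfalso
  have hb : (1 : ℝ) ≤ 2 ^ b := one_le_pow₀ (by norm_num)
  have ha : (0 : ℝ) < 2 ^ a := by positivity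
  rcases hr with hr | hr
  · have h1 : (2 : ℝ) ^ a * 2 ^ b * s ≤ H * s := by
      have : (2 : ℝ) ^ a * 2 ^ b ≤ H := by
        refine le_trans ?_ hab
        have : (2 : ℝ) ^ b ≤ (2 ^ b) ^ 2 := by nlinarith
        gcongr
      gcongr
    linarith [hr.2]
  · have h1 : (2 : ℝ) ^ a * (2 ^ b) ^ 2 * s ≤ H * s := by gcongr
    linarith [hr.2.2]

/-- **Theorem NC (interior).** -/
theorem nc_interior {δ : ℝ} (hδ : 0 < δ) (hHB : HBsq) {C' : ℝ} (hC' : 0 < C')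
    (hCLS : CLSc C') : ∃ C η : ℝ, 0 < C ∧ 0 < η ∧ ∀ (ι : Type) (S : Finset ι) (α : ι → O → ℂ),
      Fam S α → ∀ A H Q0 J0 σ : ℝ, 1 ≤ A → 1 ≤ H → H ≤ A ^ (1 - δ) → 1 ≤ Q0 → 1 ≤ J0 → 0 ≤ σ →
      SWhyp S α A H Q0 J0 σ →
      ∑ s ∈ S, NCQ (α s) A H ≤ C * A ^ 2 * H ^ (1 / 3 : ℝ) *
        (Q0 ^ 3 * (J0 ^ 2 * σ + J0 ^ (-(1 / 2 : ℝ))) +
          (1 + Real.log A) ^ 3 * Q0 ^ (-(1 / 3 : ℝ)) + A ^ (-η)) := by
  set d : ℝ := min (1 / 9) (δ / 2) with hd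
  have hd0 : 0 < d := lt_min (by norm_num) (by positivity)
  have hd1 : d ≤ 1 / 9 := min_le_left _ _
  have hd2 : d ≤ δ / 2 := min_le_right _ _
  obtain ⟨C, hC, hmain⟩ := nc_general hd0 hd1 hHB hC' hCLS
  refine ⟨C, d / 96, hC, by positivity, ?_⟩
  intro ι S α hF A H Q0 J0 σ hA hH hHA hQ0 hJ0 hσ hSW
  have hA0 : 0 < A := by linarith
  have hH2 : H ≤ A ^ (1 + d / 16) := hHA.trans
    (Real.rpow_le_rpow_of_exponent_le hA (by linarith))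
  have hLV : ∀ j ∈ PB (A ^ (d / 4)), LVhyp S (fun s r => α s (j * r)) (A / N j) H ((A / N j) ^ d)
        (0 * (A / N j) ^ 2) := by
    intro j hj
    rw [mem_PB] at hj
    have hN1 := one_le_N hj.2.ne_zero
    obtain ⟨p1, p2, p3, p4⟩ := params hd0 hd1 hA hN1 hj.1 hH2
    set R : ℝ := A / N j with hR
    have hR0 : 0 < R := by linarith
    apply LVhyp_interior S _ (Real.rpow_nonneg hR0.le _)
    -- H R^d ≤ R
    have h1 : H ≤ R ^ (1 - d) := by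
      calc H ≤ A ^ (1 - δ) := hHA
        _ ≤ A ^ ((1 - d / 4) * (1 - d)) := by
            apply Real.rpow_le_rpow_of_exponent_le hA
            nlinarith
        _ = (A ^ (1 - d / 4)) ^ (1 - d) := by rw [Real.rpow_mul hA0.le]
        _ ≤ R ^ (1 - d) := Real.rpow_le_rpow (by positivity) p2 (by linarith)
    calc H * R ^ d ≤ R ^ (1 - d) * R ^ d := by gcongr
      _ = R := by rw [← Real.rpow_add hR0]; norm_num
  have h := hmain ι S α hF A H Q0 J0 σ 0 hA hH hH2 hQ0 hJ0 hσ le_rfl hSW hLV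
  simpa using h

end Vale.Agent.P006.NC
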