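import Vale.Agent.P006.H206.Total

/-!
P006, block NC: the full cubic large sieve (all nonzero `κ`), from the squarefree one.
-/

namespace Vale.Agent.P006.NC

open Finset

/-- sum over all nonzero `κ` by representations with `Q0 = 0` -/
theorem sum_NZ_le_bigT (γ : O → ℂ) (R H : ℝ) :
    ∑ κ ∈ NZ H, ‖Fs γ R κ‖ ^ 2 ≤ ∑ u ∈ U3, ∑ l ∈ Finset.range 3, bigT γ R H 0 u l := by
  classical
  refine (sum_le_rep (fun κ => ‖Fs γ R κ‖ ^ 2) (fun κ => by positivity) H).trans ?_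
  refine Finset.sum_le_sum fun u _ => Finset.sum_le_sum fun l _ => ?_
  unfold bigT
  refine Finset.sum_le_sum fun k1 hk1 => Finset.sum_le_sum fun k2 hk2 => ?_
  rw [mem_PB] at hk1 hk2
  have h1 := one_le_N hk1.2.ne_zero
  have h2 := one_le_N hk2.2.ne_zero
  by_cases hc : IsCoprime k1 k2
  · have h3 : (0 : ℝ) < (N k1 : ℝ) * N k2 := by positivity
    rw [if_pos hc, if_pos ⟨hc, h3⟩]
  · rw [if_neg hc, if_neg (fun h => hc h.1)]

theorem full_block {C ε : ℝ} (hC : 0 < C) (hε : 0 < ε) (hε1 : ε ≤ 1) (hHB : HBc C ε)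
    {γ : O → ℂ} {R H w z : ℝ} (hw : 1 ≤ w) (hz : 1 ≤ z) (hR : R = w ^ 3) (hH : H = z ^ 3)
    {u : O} {l : ℕ} (a b : ℕ) :
    blkT γ R H 0 u l a b ≤
      8192 * C * (R * H) ^ ε * (En γ R * (z ^ 3 + z * w ^ 3 + z ^ 2 * w ^ 2)) := by
  have ha : (1 : ℝ) ≤ 2 ^ a := one_le_pow₀ (by norm_num)
  have hb : (1 : ℝ) ≤ 2 ^ b := one_le_pow₀ (by norm_num)
  obtain ⟨x, hx1, hx3⟩ : ∃ x : ℝ, 1 ≤ x ∧ x ^ 3 = 2 ^ a :=
    ⟨((2 : ℝ) ^ a) ^ (1 / 3 : ℝ), one_le_cbrt ha, cbrt_pow (by positivity)⟩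
  obtain ⟨y, hy1, hy3⟩ : ∃ y : ℝ, 1 ≤ y ∧ y ^ 3 = 2 ^ b :=
    ⟨((2 : ℝ) ^ b) ^ (1 / 3 : ℝ), one_le_cbrt hb, cbrt_pow (by positivity)⟩
  have hx0 : 0 < x := by linarith
  have hy0 : 0 < y := by linarith
  have hw0 : 0 < w := by linarith
  have hz0 : 0 < z := by linarith
  have hE0 : 0 ≤ En γ R := En_nonneg _ _
  have hR0 : 0 < R := by rw [hR]; positivity
  have hH0 : 0 < H := by rw [hH]; positivity
  have hRHp : 0 < (R * H) ^ ε := Real.rpow_pos_of_pos (by positivity) _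
  rcases lt_or_ge z (x * y ^ 2) with hlt | hxyz
  · rw [blkT_eq_zero_of_H hz0 hx3 hy3 hH.symm hlt]
    positivity
  have hxz : x ≤ z := by
    calc x = x * 1 := by ring
      _ ≤ x * y ^ 2 := by
        have := one_le_pow₀ (n := 2) hy1
        gcongr
      _ ≤ z := hxyz
  have hyz : y ≤ z := by
    calc y ≤ 1 * y ^ 2 := by nlinarith
      _ ≤ x * y ^ 2 := by gcongr
      _ ≤ z := hxyz
  have hpow : ∀ t : ℝ, 1 ≤ t → t ≤ z → (R * t ^ 3) ^ ε ≤ (R * H) ^ ε := by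
    intro t ht1 htz
    apply Real.rpow_le_rpow (by positivity) _ hε.le
    rw [hH]
    gcongr
  have hxyz' : x * y ≤ z := by
    calc x * y = x * (y * 1) := by ring
      _ ≤ x * (y * y) := by gcongr
      _ = x * y ^ 2 := by ring
      _ ≤ z := hxyz
  rcases le_or_gt y x with hyx | hxy
  · have h1 := famA (S := {()}) (γ := fun _ => γ) (Q0 := 0) (u := u) (l := l) hC hε hε1 hHB hw hR
      hx0 hy0 hz0 hx3 hy3 hH (hpow x hx1 hxz)
    simp only [Finset.sum_singleton] at h1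
    refine h1.trans ?_
    have h2 : z * w ^ 3 * bA x y w ≤ z ^ 3 + z * w ^ 3 + z ^ 2 * w ^ 2 := by
      have e1 : y / x ≤ 1 := by rw [div_le_one hx0]; exact hyx
      have e2 : y * x ^ 2 ≤ z ^ 2 := by
        calc y * x ^ 2 = x ^ 2 * y * 1 := by ring
          _ ≤ x ^ 2 * y * y ^ 3 := by
            have : (1 : ℝ) ≤ y ^ 3 := one_le_pow₀ hy1
            gcongr
          _ = (x * y ^ 2) ^ 2 := by ring
          _ ≤ z ^ 2 := pow_le_pow_left₀ (by positivity) hxyz 2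
      have e3 : z * w ^ 3 * bA x y w = z * w ^ 3 * (y / x) + z * (y * x ^ 2) + z * (x * y) * w ^ 2 := by
        unfold bA; field_simp
      rw [e3]
      have f1 : z * w ^ 3 * (y / x) ≤ z * w ^ 3 * 1 := by gcongr
      have f2 : z * (y * x ^ 2) ≤ z * z ^ 2 := by gcongr
      have f3 : z * (x * y) * w ^ 2 ≤ z * z * w ^ 2 := by gcongr
      nlinarith
    calc 8192 * C * (R * H) ^ ε * (z * w ^ 3 * En γ R) * bA x y w
        = 8192 * C * (R * H) ^ ε * (En γ R * (z * w ^ 3 * bA x y w)) := by ring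
      _ ≤ _ := by gcongr
  · have h1 := famB (S := {()}) (γ := fun _ => γ) (Q0 := 0) (u := u) (l := l) hC hε hε1 hHB hw hR
      hx0 hy0 hz0 hx3 hy3 hH (hpow y hy1 hyz)
    simp only [Finset.sum_singleton] at h1
    refine h1.trans ?_
    have h2 : z * w ^ 3 * bB x y w ≤ z ^ 3 + z * w ^ 3 + z ^ 2 * w ^ 2 := by
      have e1 : x ^ 2 / y ^ 2 ≤ 1 := by
        rw [div_le_one (by positivity)]
        exact pow_le_pow_left₀ hx0.le hxy.le 2
      have e2 : x ^ 2 * y ≤ z ^ 2 := by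
        calc x ^ 2 * y = x * (x * y) := by ring
          _ ≤ z * z := by gcongr
          _ = z ^ 2 := by ring
      have e4 : x ^ 2 ≤ z := by
        calc x ^ 2 = x * x := by ring
          _ ≤ x * y := by gcongr
          _ ≤ z := hxyz'
      have e3 : z * w ^ 3 * bB x y w = z * w ^ 3 * (x ^ 2 / y ^ 2) + z * (x ^ 2 * y) +
          z * x ^ 2 * w ^ 2 := by
        unfold bB; field_simp
      rw [e3]
      have f1 : z * w ^ 3 * (x ^ 2 / y ^ 2) ≤ z * w ^ 3 * 1 := by gcongr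
      have f2 : z * (x ^ 2 * y) ≤ z * z ^ 2 := by gcongr
      have f3 : z * x ^ 2 * w ^ 2 ≤ z * z * w ^ 2 := by gcongr
      nlinarith
    calc 8192 * C * (R * H) ^ ε * (z * w ^ 3 * En γ R) * bB x y w
        = 8192 * C * (R * H) ^ ε * (En γ R * (z * w ^ 3 * bB x y w)) := by ring
      _ ≤ _ := by gcongr

theorem log_sq_le {H ε : ℝ} (hH : 1 ≤ H) (hε : 0 < ε) :
    (1 + Real.log H) ^ 2 ≤ (1 + 1 / ε) ^ 2 * (H ^ ε) ^ 2 := by
  have h1 : Real.log H ≤ H ^ ε / ε := Real.log_le_rpow_div (by linarith) hε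
  have h2 : 1 ≤ H ^ ε := Real.one_le_rpow hH hε.le
  have h3 : 0 ≤ Real.log H := Real.log_nonneg hH
  have h4 : 1 + Real.log H ≤ (1 + 1 / ε) * H ^ ε := by
    have : (1 + 1 / ε) * H ^ ε = H ^ ε + H ^ ε / ε := by ring
    linarith
  calc (1 + Real.log H) ^ 2 ≤ ((1 + 1 / ε) * H ^ ε) ^ 2 := pow_le_pow_left₀ (by linarith) h4 2
    _ = _ := by ring

/-- the full cubic large sieve -/
theorem full_main (hHB : HBsq) {ε : ℝ} (hε : 0 < ε) : ∃ C : ℝ, 0 < C ∧ ∀ (γ : O → ℂ) (R H : ℝ),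
    1 ≤ R → 1 ≤ H → ∑ κ ∈ NZ H, ‖Fs γ R κ‖ ^ 2 ≤
      C * (R * H) ^ ε * (H + H ^ (1 / 3 : ℝ) * R + (H * R) ^ (2 / 3 : ℝ)) * En γ R := by
  set ε1 : ℝ := min (ε / 3) 1 with hε1
  have hε10 : 0 < ε1 := lt_min (by positivity) one_pos
  have hε11 : ε1 ≤ 1 := min_le_right _ _
  obtain ⟨C0, hC0, hHBc⟩ := hHB ε1 hε10
  refine ⟨36 * 8192 * C0 * (1 + 1 / ε1) ^ 2, by positivity, ?_⟩
  intro γ R H hR hH
  have hR0 : 0 < R := by linarith
  have hH0 : 0 < H := by linarith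
  set w : ℝ := R ^ (1 / 3 : ℝ) with hwdef
  set z : ℝ := H ^ (1 / 3 : ℝ) with hzdef
  have hw : 1 ≤ w := one_le_cbrt hR
  have hz : 1 ≤ z := one_le_cbrt hH
  have hw3 : R = w ^ 3 := (cbrt_pow hR0.le).symm
  have hz3 : H = z ^ 3 := (cbrt_pow hH0.le).symm
  have hE0 : 0 ≤ En γ R := En_nonneg _ _
  have hHR : (H * R) ^ (2 / 3 : ℝ) = z ^ 2 * w ^ 2 := by
    conv_lhs => rw [hw3, hz3]
    rw [← mul_pow, rpow_two_thirds (by positivity), mul_pow]
  set B : ℝ := 8192 * C0 * (R * H) ^ ε1 * (En γ R * (z ^ 3 + z * w ^ 3 + z ^ 2 * w ^ 2)) with hB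
  have hRH1 : 1 ≤ R * H := one_le_mul_of_one_le_of_one_le hR hH
  have hRH0 : 0 < R * H := by positivity
  have hp0 : 0 < (R * H) ^ ε1 := Real.rpow_pos_of_pos hRH0 _
  have hB0 : 0 ≤ B := by positivity
  have h1 : ∑ κ ∈ NZ H, ‖Fs γ R κ‖ ^ 2 ≤ 36 * (1 + Real.log H) ^ 2 * B := by
    refine (sum_NZ_le_bigT γ R H).trans ?_
    have hD := Dn_le hH
    have hL : 0 ≤ Real.log H := Real.log_nonneg hH
    have hD2 : (Dn H : ℝ) ^ 2 ≤ 4 * (1 + Real.log H) ^ 2 := by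
      have h0 : (0 : ℝ) ≤ Dn H := by positivity
      calc (Dn H : ℝ) ^ 2 ≤ (2 * (1 + Real.log H)) ^ 2 := pow_le_pow_left₀ h0 hD 2
        _ = 4 * (1 + Real.log H) ^ 2 := by ring
    have hul : ∀ u ∈ U3, ∀ l ∈ Finset.range 3, bigT γ R H 0 u l ≤ (Dn H : ℝ) ^ 2 * B := by
      intro u _ l _
      calc bigT γ R H 0 u l
          ≤ ∑ a ∈ range (Dn H), ∑ b ∈ range (Dn H), blkT γ R H 0 u l a b := bigT_le _ _ _ _ _ _
        _ ≤ ∑ a ∈ range (Dn H), ∑ b ∈ range (Dn H), B :=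
            Finset.sum_le_sum fun a _ => Finset.sum_le_sum fun b _ =>
              full_block hC0 hε10 hε11 hHBc hw hz hw3 hz3 a b
        _ = (Dn H : ℝ) ^ 2 * B := by
            simp only [Finset.sum_const, Finset.card_range, nsmul_eq_mul]; ring
    calc ∑ u ∈ U3, ∑ l ∈ Finset.range 3, bigT γ R H 0 u l
        ≤ ∑ u ∈ U3, ∑ l ∈ Finset.range 3, (Dn H : ℝ) ^ 2 * B :=
          Finset.sum_le_sum fun u hu => Finset.sum_le_sum fun l hl => hul u hu l hl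
      _ = U3.card * (3 * ((Dn H : ℝ) ^ 2 * B)) := by
          simp only [Finset.sum_const, Finset.card_range, nsmul_eq_mul]
          push_cast; ring
      _ ≤ 3 * (3 * ((4 * (1 + Real.log H) ^ 2) * B)) := by
          have : (U3.card : ℝ) ≤ 3 := by exact_mod_cast card_U3_le
          gcongr
      _ = 36 * (1 + Real.log H) ^ 2 * B := by ring
  refine h1.trans ?_
  have h2 := log_sq_le hH hε10
  have h3 : (H ^ ε1) ^ 2 ≤ ((R * H) ^ ε1) ^ 2 := by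
    have : H ^ ε1 ≤ (R * H) ^ ε1 := by
      apply Real.rpow_le_rpow hH0.le _ hε10.le
      nlinarith
    have h0 : 0 ≤ H ^ ε1 := by positivity
    exact pow_le_pow_left₀ h0 this 2
  have h4 : ((R * H) ^ ε1) ^ 2 * (R * H) ^ ε1 ≤ (R * H) ^ ε := by
    calc ((R * H) ^ ε1) ^ 2 * (R * H) ^ ε1 = ((R * H) ^ ε1) ^ (3 : ℕ) := by ring
      _ = (R * H) ^ (ε1 * 3) := by
          rw [← Real.rpow_natCast, ← Real.rpow_mul hRH0.le]; norm_num
      _ ≤ (R * H) ^ ε := by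
          apply Real.rpow_le_rpow_of_exponent_le hRH1
          have := min_le_left (ε / 3) 1
          linarith
  calc 36 * (1 + Real.log H) ^ 2 * B
      ≤ 36 * ((1 + 1 / ε1) ^ 2 * ((R * H) ^ ε1) ^ 2) * B := by
        gcongr
        exact h2.trans (by gcongr)
    _ = 36 * 8192 * C0 * (1 + 1 / ε1) ^ 2 * (((R * H) ^ ε1) ^ 2 * (R * H) ^ ε1) *
          (z ^ 3 + z * w ^ 3 + z ^ 2 * w ^ 2) * En γ R := by rw [hB]; ring
    _ ≤ 36 * 8192 * C0 * (1 + 1 / ε1) ^ 2 * (R * H) ^ ε *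
          (z ^ 3 + z * w ^ 3 + z ^ 2 * w ^ 2) * En γ R := by gcongr
    _ = _ := by rw [hHR, ← hz3, ← hw3]

end Vale.Agent.P006.NC
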