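import Vale.Agent.P006.H206.Small

/-!
P006, block NC: contribution of large `j`.
-/

namespace Vale.Agent.P006.NC

open Finset

theorem Fs_mul (γ : O → ℂ) (R : ℝ) (g κ : O) :
    Fs γ R (g * κ) = Fs (fun r => γ r * ch r g) R κ := by
  unfold Fs
  refine Finset.sum_congr rfl fun r _ => ?_
  rw [ch_mul]; ring

theorem En_twist (γ : O → ℂ) (R : ℝ) (k : O) : En (fun r => γ r * ch r k) R ≤ En γ R :=
  En_twist_le γ R k

/-- one pair `(g, i)`, `j = g i` -/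
theorem pair_bound {C ε : ℝ} (hC : 0 < C) (hε : 0 < ε)
    (hfull : ∀ (γ : O → ℂ) (R H : ℝ), 1 ≤ R → 1 ≤ H → ∑ κ ∈ NZ H, ‖Fs γ R κ‖ ^ 2 ≤
      C * (R * H) ^ ε * (H + H ^ (1 / 3 : ℝ) * R + (H * R) ^ (2 / 3 : ℝ)) * En γ R)
    {ι : Type} {S : Finset ι} {α : ι → O → ℂ} (hF : Fam S α) {A H : ℝ} (hA : 1 ≤ A) (hH : 1 ≤ H)
    {g i : O} (hg : g ∈ PB A) (hi : i ∈ PB (A / N g)) :
    (N g : ℝ) * ∑ κ ∈ NZ (H / N g), ∑ s ∈ S, ‖inner (α s) A (g * i) (g * κ)‖ ^ 2 ≤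
      32 * C * (A * H) ^ ε * (H * A * (1 / (N g : ℝ) * (1 / N i)) +
        (H ^ (1 / 3 : ℝ) * A ^ 2 + H ^ (2 / 3 : ℝ) * A ^ (5 / 3 : ℝ)) *
          ((N g : ℝ) * N i) ^ (-(4 / 3 : ℝ))) := by
  rw [mem_PB] at hg hi
  have hg1 := one_le_N hg.2.ne_zero
  have hi1 := one_le_N hi.2.ne_zero
  have hA0 : 0 < A := by linarith
  have hH0 : 0 < H := by linarith
  set G : ℝ := (N g : ℝ) with hG
  set I : ℝ := (N i : ℝ) with hI
  have hG0 : 0 < G := by linarith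
  have hI0 : 0 < I := by linarith
  have hAH : 0 < A * H := by positivity
  have hrhs : 0 ≤ 32 * C * (A * H) ^ ε * (H * A * (1 / G * (1 / I)) +
        (H ^ (1 / 3 : ℝ) * A ^ 2 + H ^ (2 / 3 : ℝ) * A ^ (5 / 3 : ℝ)) *
          (G * I) ^ (-(4 / 3 : ℝ))) := by positivity
  rcases lt_or_ge (H / G) 1 with hlt | hge
  · have h0 : NZ (H / G) = ∅ := by
      rw [Finset.eq_empty_iff_forall_notMem]
      intro n hn
      rw [mem_NZ] at hn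
      have := one_le_N hn.2
      linarith [hn.1]
    rw [h0, Finset.sum_empty, mul_zero]
    exact hrhs
  have hNgi : (N (g * i) : ℝ) = G * I := by rw [N_mul]; push_cast; rfl
  set R : ℝ := A / (G * I) with hR
  have hR1 : 1 ≤ R := by
    rw [hR, le_div_iff₀ (by positivity), one_mul]
    have := hi.1
    rw [le_div_iff₀ hG0] at this
    linarith
  have hR0 : 0 < R := by linarith
  have hRA : R ≤ A := by
    rw [hR]; exact div_le_self hA0.le (by nlinarith)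
  have h1 : ∑ κ ∈ NZ (H / G), ∑ s ∈ S, ‖inner (α s) A (g * i) (g * κ)‖ ^ 2 ≤
      C * (A * H) ^ ε * (H / G + (H / G) ^ (1 / 3 : ℝ) * R + (H / G * R) ^ (2 / 3 : ℝ)) *
        (32 * R) := by
    rw [Finset.sum_comm]
    have hEn := hF.sum_En_le hA0.le (g * i)
    rw [hNgi, ← hR] at hEn
    have hstep : ∀ s ∈ S, ∑ κ ∈ NZ (H / G), ‖inner (α s) A (g * i) (g * κ)‖ ^ 2 ≤
        C * (A * H) ^ ε * (H / G + (H / G) ^ (1 / 3 : ℝ) * R + (H / G * R) ^ (2 / 3 : ℝ)) *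
          En (fun r => α s (g * i * r)) R := by
      intro s _
      have h2 := hfull (fun r => α s (g * i * r) * ch r g) R (H / G) hR1 hge
      have h3 : ∑ κ ∈ NZ (H / G), ‖inner (α s) A (g * i) (g * κ)‖ ^ 2 =
          ∑ κ ∈ NZ (H / G), ‖Fs (fun r => α s (g * i * r) * ch r g) R κ‖ ^ 2 := by
        refine Finset.sum_congr rfl fun κ _ => ?_
        unfold inner
        rw [hNgi, ← hR, Fs_mul]
      rw [h3]
      refine h2.trans ?_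
      have h4 := En_twist (fun r => α s (g * i * r)) R g
      have h5 : (R * (H / G)) ^ ε ≤ (A * H) ^ ε := by
        apply Real.rpow_le_rpow (by positivity) _ hε.le
        have : H / G ≤ H := div_le_self hH0.le hg1
        gcongr
      have h6 := En_nonneg (fun r => α s (g * i * r) * ch r g) R
      gcongr
    calc _ ≤ ∑ s ∈ S, C * (A * H) ^ ε *
          (H / G + (H / G) ^ (1 / 3 : ℝ) * R + (H / G * R) ^ (2 / 3 : ℝ)) *
          En (fun r => α s (g * i * r)) R := Finset.sum_le_sum hstep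
      _ = C * (A * H) ^ ε * (H / G + (H / G) ^ (1 / 3 : ℝ) * R + (H / G * R) ^ (2 / 3 : ℝ)) *
          ∑ s ∈ S, En (fun r => α s (g * i * r)) R := by rw [Finset.mul_sum]
      _ ≤ _ := by gcongr
  -- now the algebra of exponents, in cube-root variables
  obtain ⟨a, ha0, ha⟩ : ∃ a : ℝ, 0 < a ∧ a ^ 3 = A := ⟨A ^ (1 / 3 : ℝ), by positivity, cbrt_pow hA0.le⟩
  obtain ⟨h, hh0, hh⟩ : ∃ h : ℝ, 0 < h ∧ h ^ 3 = H := ⟨H ^ (1 / 3 : ℝ), by positivity, cbrt_pow hH0.le⟩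
  obtain ⟨x, hx0, hx⟩ : ∃ x : ℝ, 0 < x ∧ x ^ 3 = G := ⟨G ^ (1 / 3 : ℝ), by positivity, cbrt_pow hG0.le⟩
  obtain ⟨y, hy0, hy⟩ : ∃ y : ℝ, 0 < y ∧ y ^ 3 = I := ⟨I ^ (1 / 3 : ℝ), by positivity, cbrt_pow hI0.le⟩
  have hy1 : 1 ≤ y := by
    by_contra hlt
    push Not at hlt
    have : y ^ 3 < 1 := pow_lt_one₀ hy0.le hlt (by norm_num)
    linarith
  have eR : R = (a / (x * y)) ^ 3 := by rw [hR, ← ha, ← hx, ← hy, div_pow, mul_pow]
  have eHG : H / G = (h / x) ^ 3 := by rw [← hh, ← hx, div_pow]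
  have e1 : (H / G) ^ (1 / 3 : ℝ) = h / x := by rw [eHG, rpow_one_third (by positivity)]
  have e2 : (H / G * R) ^ (2 / 3 : ℝ) = (h / x * (a / (x * y))) ^ 2 := by
    rw [eHG, eR, ← mul_pow, rpow_two_thirds (by positivity)]
  have e3 : H ^ (1 / 3 : ℝ) = h := by rw [← hh, rpow_one_third hh0.le]
  have e4 : H ^ (2 / 3 : ℝ) = h ^ 2 := by rw [← hh, rpow_two_thirds hh0.le]
  have e5 : A ^ (5 / 3 : ℝ) = a ^ 5 := by
    rw [← ha, ← Real.rpow_natCast, ← Real.rpow_mul ha0.le, ← Real.rpow_natCast]; norm_num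
  have e6 : (G * I) ^ (-(4 / 3 : ℝ)) = ((x * y) ^ 4)⁻¹ := by
    rw [← hx, ← hy, ← mul_pow, ← Real.rpow_natCast, ← Real.rpow_mul (by positivity),
      show ((3 : ℕ) : ℝ) * -(4 / 3) = -((4 : ℕ) : ℝ) by norm_num, Real.rpow_neg (by positivity),
      Real.rpow_natCast]
  have hAHp : 0 < (A * H) ^ ε := Real.rpow_pos_of_pos hAH _
  calc G * ∑ κ ∈ NZ (H / G), ∑ s ∈ S, ‖inner (α s) A (g * i) (g * κ)‖ ^ 2
      ≤ G * (C * (A * H) ^ ε *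
        (H / G + (H / G) ^ (1 / 3 : ℝ) * R + (H / G * R) ^ (2 / 3 : ℝ)) * (32 * R)) := by gcongr
    _ = 32 * C * (A * H) ^ ε * (G * (H / G + (H / G) ^ (1 / 3 : ℝ) * R +
        (H / G * R) ^ (2 / 3 : ℝ)) * R) := by ring
    _ ≤ _ := by
        refine mul_le_mul_of_nonneg_left ?_ (by positivity)
        rw [e1, e2, e3, e4, e5, e6, eHG, eR, ← hx, ← hy, ← ha, ← hh]
        have f1 : x ^ 3 * ((h / x) ^ 3 + h / x * (a / (x * y)) ^ 3 + (h / x * (a / (x * y))) ^ 2) *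
            (a / (x * y)) ^ 3 = h ^ 3 * a ^ 3 * (1 / x ^ 3 * (1 / y ^ 3)) +
              (h * (a ^ 3) ^ 2 * ((x * y) ^ 4)⁻¹) * (1 / y ^ 2) +
              (h ^ 2 * a ^ 5 * ((x * y) ^ 4)⁻¹) * (1 / y) := by
          field_simp
        rw [f1]
        have g1 : 1 / y ≤ 1 := by rw [div_le_one hy0]; exact hy1
        have g2 : 1 / y ^ 2 ≤ 1 := by
          rw [div_le_one (by positivity)]; exact one_le_pow₀ hy1
        have k1 : (h * (a ^ 3) ^ 2 * ((x * y) ^ 4)⁻¹) * (1 / y ^ 2) ≤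
            (h * (a ^ 3) ^ 2 * ((x * y) ^ 4)⁻¹) * 1 := by gcongr
        have k2 : (h ^ 2 * a ^ 5 * ((x * y) ^ 4)⁻¹) * (1 / y) ≤
            (h ^ 2 * a ^ 5 * ((x * y) ^ 4)⁻¹) * 1 := by gcongr
        calc _ ≤ h ^ 3 * a ^ 3 * (1 / x ^ 3 * (1 / y ^ 3)) +
              (h * (a ^ 3) ^ 2 * ((x * y) ^ 4)⁻¹) * 1 + (h ^ 2 * a ^ 5 * ((x * y) ^ 4)⁻¹) * 1 := by
              linarith
          _ = _ := by ring

/-- the double sum over pairs `(g, i)` with `N(g i) > J1` -/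
theorem pairs_sum {C ε J1 : ℝ} (hC : 0 < C) (hε : 0 < ε)
    (hfull : ∀ (γ : O → ℂ) (R H : ℝ), 1 ≤ R → 1 ≤ H → ∑ κ ∈ NZ H, ‖Fs γ R κ‖ ^ 2 ≤
      C * (R * H) ^ ε * (H + H ^ (1 / 3 : ℝ) * R + (H * R) ^ (2 / 3 : ℝ)) * En γ R)
    {ι : Type} {S : Finset ι} {α : ι → O → ℂ} (hF : Fam S α) {A H : ℝ} (hA : 1 ≤ A) (hH : 1 ≤ H)
    (hJ1 : 0 < J1) :
    ∑ j ∈ PB A with J1 < (N j : ℝ), ∑ κ ∈ NZ H, gw j κ * ∑ s ∈ S, ‖inner (α s) A j κ‖ ^ 2 ≤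
      32 * C * (A * H) ^ ε * (H * A * (128 * (1 + Real.log A)) ^ 2 +
        (H ^ (1 / 3 : ℝ) * A ^ 2 + H ^ (2 / 3 : ℝ) * A ^ (5 / 3 : ℝ)) *
          (J1 ^ (-(1 / 6 : ℝ)) * (64 / (1 - 2 ^ (1 - (7 / 6 : ℝ)))) ^ 2)) := by
  classical
  have hA0 : 0 < A := by linarith
  have hH0 : 0 < H := by linarith
  have hAHp : 0 < (A * H) ^ ε := Real.rpow_pos_of_pos (by positivity) _
  -- step 1: expand the gcd weight
  set T : O → O → ℝ := fun j κ => ∑ s ∈ S, ‖inner (α s) A j κ‖ ^ 2 with hT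
  have hT0 : ∀ j κ, 0 ≤ T j κ := fun j κ => Finset.sum_nonneg fun _ _ => by positivity
  set F : O → O → ℝ := fun g j => if J1 < (N j : ℝ) then
      (N g : ℝ) * ∑ κ ∈ NZ (H / N g), T j (g * κ) else 0 with hFdef
  have hF0 : ∀ g j, 0 ≤ F g j := by
    intro g j; simp only [hFdef]; split_ifs
    · exact mul_nonneg (by positivity) (Finset.sum_nonneg fun _ _ => hT0 _ _)
    · exact le_rfl
  have h1 : ∑ j ∈ PB A with J1 < (N j : ℝ), ∑ κ ∈ NZ H, gw j κ * T j κ ≤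
      ∑ j ∈ PB A, ∑ g ∈ PB A with g ∣ j, F g j := by
    rw [Finset.sum_filter]
    refine Finset.sum_le_sum fun j hj => ?_
    rw [mem_PB] at hj
    split_ifs with hJ
    · calc ∑ κ ∈ NZ H, gw j κ * T j κ
          ≤ ∑ κ ∈ NZ H, (∑ g ∈ PB A with (g ∣ j ∧ g ∣ κ), (N g : ℝ)) * T j κ := by
            refine Finset.sum_le_sum fun κ _ => ?_
            exact mul_le_mul_of_nonneg_right (gw_le_sum hj.2 hj.1 κ) (hT0 _ _)
        _ = ∑ g ∈ PB A with g ∣ j, ∑ κ ∈ NZ H with g ∣ κ, (N g : ℝ) * T j κ := by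
            simp only [Finset.sum_filter, Finset.sum_mul]
            rw [Finset.sum_comm]
            refine Finset.sum_congr rfl fun g _ => ?_
            by_cases hg : g ∣ j
            · simp only [hg, true_and, if_true]
              refine Finset.sum_congr rfl fun κ _ => ?_
              split_ifs <;> simp
            · simp [hg]
        _ ≤ ∑ g ∈ PB A with g ∣ j, F g j := by
            refine Finset.sum_le_sum fun g hg => ?_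
            rw [Finset.mem_filter, mem_PB] at hg
            simp only [hFdef, if_pos hJ]
            rw [Finset.mul_sum]
            exact sum_NZ_dvd_le hg.1.2.ne_zero H
              (F := fun κ => (N g : ℝ) * T j κ) fun κ => mul_nonneg (by positivity) (hT0 _ _)
    · exact Finset.sum_nonneg fun g _ => hF0 g j
  have h2 : ∑ j ∈ PB A, ∑ g ∈ PB A with g ∣ j, F g j ≤
      ∑ g ∈ PB A, ∑ i ∈ PB (A / N g), F g (g * i) := by
    calc ∑ j ∈ PB A, ∑ g ∈ PB A with g ∣ j, F g j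
        = ∑ g ∈ PB A, ∑ j ∈ PB A with g ∣ j, F g j := by
          simp only [Finset.sum_filter]
          rw [Finset.sum_comm]
      _ ≤ _ := by
          refine Finset.sum_le_sum fun g hg => ?_
          rw [mem_PB] at hg
          exact sum_PB_dvd_le hg.2.1 A (hF0 g)
  set V : ℝ := H ^ (1 / 3 : ℝ) * A ^ 2 + H ^ (2 / 3 : ℝ) * A ^ (5 / 3 : ℝ) with hV
  have hV0 : 0 < V := by positivity
  have hJp : 0 < J1 ^ (-(1 / 6 : ℝ)) := Real.rpow_pos_of_pos hJ1 _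
  have h3 : ∀ g ∈ PB A, ∀ i ∈ PB (A / N g), F g (g * i) ≤
      32 * C * (A * H) ^ ε * (H * A * (1 / (N g : ℝ) * (1 / N i)) +
        V * J1 ^ (-(1 / 6 : ℝ)) * ((N g : ℝ) ^ (-(7 / 6 : ℝ)) * (N i : ℝ) ^ (-(7 / 6 : ℝ)))) := by
    intro g hg i hi
    have hg' := hg
    have hi' := hi
    rw [mem_PB] at hg' hi'
    have hg1 := one_le_N hg'.2.ne_zero
    have hi1 := one_le_N hi'.2.ne_zero
    have hg0 : (0 : ℝ) < N g := by linarith
    have hi0 : (0 : ℝ) < N i := by linarith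
    simp only [hFdef]
    split_ifs with hJ
    · refine (pair_bound hC hε hfull hF hA hH hg hi).trans ?_
      refine mul_le_mul_of_nonneg_left ?_ (by positivity)
      rw [← hV]
      have hNgi : (N (g * i) : ℝ) = (N g : ℝ) * N i := by rw [N_mul]; push_cast; rfl
      rw [hNgi] at hJ
      have hP : 0 < (N g : ℝ) * N i := by positivity
      have h5 : ((N g : ℝ) * N i) ^ (-(4 / 3 : ℝ)) ≤
          J1 ^ (-(1 / 6 : ℝ)) * ((N g : ℝ) ^ (-(7 / 6 : ℝ)) * (N i : ℝ) ^ (-(7 / 6 : ℝ))) := by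
        rw [← Real.mul_rpow hg0.le hi0.le]
        calc ((N g : ℝ) * N i) ^ (-(4 / 3 : ℝ)) = ((N g : ℝ) * N i) ^ (-(1 / 6 : ℝ)) *
              ((N g : ℝ) * N i) ^ (-(7 / 6 : ℝ)) := by
              rw [← Real.rpow_add hP]; norm_num
          _ ≤ J1 ^ (-(1 / 6 : ℝ)) * ((N g : ℝ) * N i) ^ (-(7 / 6 : ℝ)) := by
              have := Real.rpow_le_rpow_of_nonpos hJ1 hJ.le (show -(1 / 6 : ℝ) ≤ 0 by norm_num)
              gcongr
      have h6 := mul_le_mul_of_nonneg_left h5 hV0.le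
      linarith
    · positivity
  have hsub : ∀ g : O, g ∈ PB A → PB (A / N g) ⊆ PB A := by
    intro g hg
    rw [mem_PB] at hg
    exact PB_mono (div_le_self hA0.le (one_le_N hg.2.ne_zero))
  have hlog : 0 ≤ Real.log A := Real.log_nonneg hA
  have hq : (2 : ℝ) ^ (1 - (7 / 6 : ℝ)) < 1 :=
    Real.rpow_lt_one_of_one_lt_of_neg (by norm_num) (by norm_num)
  set C2 : ℝ := 64 / (1 - 2 ^ (1 - (7 / 6 : ℝ))) with hC2
  have hC20 : 0 < C2 := div_pos (by norm_num) (by linarith)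
  have hS1 := sum_inv_le hA
  have hS2 := sum_rpow_le (show (1 : ℝ) < 7 / 6 by norm_num) A
  have hS1' : 0 ≤ ∑ k ∈ PB A, 1 / (N k : ℝ) := Finset.sum_nonneg fun _ _ => by positivity
  have hS2' : 0 ≤ ∑ k ∈ PB A, (N k : ℝ) ^ (-(7 / 6 : ℝ)) :=
    Finset.sum_nonneg fun _ _ => by positivity
  calc ∑ j ∈ PB A with J1 < (N j : ℝ), ∑ κ ∈ NZ H, gw j κ * T j κ
      ≤ ∑ g ∈ PB A, ∑ i ∈ PB (A / N g), F g (g * i) := h1.trans h2
    _ ≤ ∑ g ∈ PB A, ∑ i ∈ PB (A / N g),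
        32 * C * (A * H) ^ ε * (H * A * (1 / (N g : ℝ) * (1 / N i)) +
        V * J1 ^ (-(1 / 6 : ℝ)) * ((N g : ℝ) ^ (-(7 / 6 : ℝ)) * (N i : ℝ) ^ (-(7 / 6 : ℝ)))) :=
        Finset.sum_le_sum fun g hg => Finset.sum_le_sum fun i hi => h3 g hg i hi
    _ ≤ ∑ g ∈ PB A, ∑ i ∈ PB A,
        32 * C * (A * H) ^ ε * (H * A * (1 / (N g : ℝ) * (1 / N i)) +
        V * J1 ^ (-(1 / 6 : ℝ)) * ((N g : ℝ) ^ (-(7 / 6 : ℝ)) * (N i : ℝ) ^ (-(7 / 6 : ℝ)))) := by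
        refine Finset.sum_le_sum fun g hg => ?_
        exact Finset.sum_le_sum_of_subset_of_nonneg (hsub g hg) fun _ _ _ => by positivity
    _ = 32 * C * (A * H) ^ ε * (H * A * ((∑ g ∈ PB A, 1 / (N g : ℝ)) * ∑ i ∈ PB A, 1 / (N i : ℝ)) +
        V * J1 ^ (-(1 / 6 : ℝ)) * ((∑ g ∈ PB A, (N g : ℝ) ^ (-(7 / 6 : ℝ))) *
          ∑ i ∈ PB A, (N i : ℝ) ^ (-(7 / 6 : ℝ)))) := by
        rw [Finset.sum_mul_sum, Finset.sum_mul_sum, Finset.mul_sum, Finset.mul_sum,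
          ← Finset.sum_add_distrib, Finset.mul_sum]
        refine Finset.sum_congr rfl fun g _ => ?_
        rw [Finset.mul_sum, Finset.mul_sum, ← Finset.sum_add_distrib, Finset.mul_sum]
    _ ≤ 32 * C * (A * H) ^ ε * (H * A * ((128 * (1 + Real.log A)) * (128 * (1 + Real.log A))) +
        V * J1 ^ (-(1 / 6 : ℝ)) * (C2 * C2)) := by gcongr
    _ = _ := by ring

/-- **Large `j`.** -/
theorem part_A (hHB : HBsq) {δ : ℝ} (hδ : 0 < δ) (hδ1 : δ ≤ 1 / 9) : ∃ C : ℝ, 0 < C ∧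
    ∀ (ι : Type) (S : Finset ι) (α : ι → O → ℂ), Fam S α → ∀ A H : ℝ, 1 ≤ A → 1 ≤ H →
      H ≤ A ^ (1 + δ / 16) →
      ∑ j ∈ PB A with A ^ (δ / 4) < (N j : ℝ), ∑ κ ∈ NZ H, gw j κ *
        ∑ s ∈ S, ‖inner (α s) A j κ‖ ^ 2 ≤ C * A ^ 2 * H ^ (1 / 3 : ℝ) * A ^ (-(δ / 96)) := by
  set ε : ℝ := δ / 1000 with hε
  have hε0 : 0 < ε := by positivity
  obtain ⟨C, hC, hfull⟩ := full_main hHB hε0
  set C2 : ℝ := (64 / (1 - 2 ^ (1 - (7 / 6 : ℝ)))) ^ 2 with hC2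
  have hC20 : 0 ≤ C2 := by positivity
  refine ⟨32 * C * (128 ^ 2 * (1 + 1 / ε) ^ 2 + 2 * C2 + 1), by positivity, ?_⟩
  intro ι S α hF A H hA hH hHA
  have hA0 : 0 < A := by linarith
  have hH0 : 0 < H := by linarith
  have hJ1 : 0 < A ^ (δ / 4) := Real.rpow_pos_of_pos hA0 _
  refine (pairs_sum hC hε0 hfull hF hA hH hJ1).trans ?_
  rw [← hC2]
  -- exponents
  have hH3 : 0 < H ^ (1 / 3 : ℝ) := by positivity
  have hlogsq := log_sq_le hA hε0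
  have e0 : (A * H) ^ ε ≤ A ^ (3 * ε) := by
    calc (A * H) ^ ε ≤ (A * A ^ (2 : ℝ)) ^ ε := by
          apply Real.rpow_le_rpow (by positivity) _ hε0.le
          have : H ≤ A ^ (2 : ℝ) := hHA.trans
            (Real.rpow_le_rpow_of_exponent_le hA (by linarith))
          gcongr
      _ = (A ^ (3 : ℝ)) ^ ε := by
          congr 1
          nth_rewrite 1 [← Real.rpow_one A]
          rw [← Real.rpow_add hA0]; norm_num
      _ = A ^ (3 * ε) := by rw [← Real.rpow_mul hA0.le]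
  have e1 : H * A ≤ A ^ 2 * H ^ (1 / 3 : ℝ) * A ^ (-(1 / 4 : ℝ)) := by
    have h1 : H = H ^ (1 / 3 : ℝ) * H ^ (2 / 3 : ℝ) := by
      rw [← Real.rpow_add hH0]; norm_num
    have h2 : H ^ (2 / 3 : ℝ) ≤ A ^ (3 / 4 : ℝ) := by
      calc H ^ (2 / 3 : ℝ) ≤ (A ^ (1 + δ / 16)) ^ (2 / 3 : ℝ) :=
            Real.rpow_le_rpow hH0.le hHA (by norm_num)
        _ = A ^ ((1 + δ / 16) * (2 / 3)) := by rw [← Real.rpow_mul hA0.le]
        _ ≤ A ^ (3 / 4 : ℝ) := Real.rpow_le_rpow_of_exponent_le hA (by linarith)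
    have h3 : A ^ 2 * A ^ (-(1 / 4 : ℝ)) = A * A ^ (3 / 4 : ℝ) := by
      rw [← Real.rpow_natCast, ← Real.rpow_add hA0]
      nth_rewrite 2 [← Real.rpow_one A]
      rw [← Real.rpow_add hA0]; norm_num
    calc H * A = (H ^ (1 / 3 : ℝ) * H ^ (2 / 3 : ℝ)) * A := by rw [← h1]
      _ ≤ (H ^ (1 / 3 : ℝ) * A ^ (3 / 4 : ℝ)) * A := by gcongr
      _ = H ^ (1 / 3 : ℝ) * (A * A ^ (3 / 4 : ℝ)) := by ring
      _ = H ^ (1 / 3 : ℝ) * (A ^ 2 * A ^ (-(1 / 4 : ℝ))) := by rw [h3]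
      _ = _ := by ring
  have e2 : H ^ (2 / 3 : ℝ) * A ^ (5 / 3 : ℝ) ≤ A ^ 2 * H ^ (1 / 3 : ℝ) * A ^ (δ / 48) := by
    have h1 : H ^ (2 / 3 : ℝ) = H ^ (1 / 3 : ℝ) * H ^ (1 / 3 : ℝ) := by
      rw [← Real.rpow_add hH0]; norm_num
    have h2 : H ^ (1 / 3 : ℝ) ≤ A ^ (1 / 3 + δ / 48) := by
      calc H ^ (1 / 3 : ℝ) ≤ (A ^ (1 + δ / 16)) ^ (1 / 3 : ℝ) :=
            Real.rpow_le_rpow hH0.le hHA (by norm_num)
        _ = A ^ (1 / 3 + δ / 48) := by rw [← Real.rpow_mul hA0.le]; congr 1; ring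
    have h3 : A ^ (1 / 3 + δ / 48) * A ^ (5 / 3 : ℝ) = A ^ 2 * A ^ (δ / 48) := by
      rw [← Real.rpow_natCast, ← Real.rpow_add hA0, ← Real.rpow_add hA0]
      congr 1; push_cast; ring
    calc H ^ (2 / 3 : ℝ) * A ^ (5 / 3 : ℝ) = H ^ (1 / 3 : ℝ) * (H ^ (1 / 3 : ℝ) * A ^ (5 / 3 : ℝ)) := by
          rw [h1]; ring
      _ ≤ H ^ (1 / 3 : ℝ) * (A ^ (1 / 3 + δ / 48) * A ^ (5 / 3 : ℝ)) := by gcongr
      _ = H ^ (1 / 3 : ℝ) * (A ^ 2 * A ^ (δ / 48)) := by rw [h3]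
      _ = _ := by ring
  have e3 : H ^ (1 / 3 : ℝ) * A ^ 2 ≤ A ^ 2 * H ^ (1 / 3 : ℝ) * A ^ (δ / 48) := by
    have : 1 ≤ A ^ (δ / 48) := Real.one_le_rpow hA (by positivity)
    calc H ^ (1 / 3 : ℝ) * A ^ 2 = A ^ 2 * H ^ (1 / 3 : ℝ) * 1 := by ring
      _ ≤ _ := by gcongr
  have e4 : (A ^ (δ / 4)) ^ (-(1 / 6 : ℝ)) = A ^ (-(δ / 24)) := by
    rw [← Real.rpow_mul hA0.le]; congr 1; ring
  have hX : 0 < A ^ 2 * H ^ (1 / 3 : ℝ) := by positivity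
  set X : ℝ := A ^ 2 * H ^ (1 / 3 : ℝ) with hXdef
  have g1 : H * A * (128 * (1 + Real.log A)) ^ 2 ≤
      X * (128 ^ 2 * (1 + 1 / ε) ^ 2) * A ^ (2 * ε - 1 / 4) := by
    have h1 : (128 * (1 + Real.log A)) ^ 2 ≤ 128 ^ 2 * ((1 + 1 / ε) ^ 2 * A ^ (2 * ε)) := by
      have h2 : (A ^ ε) ^ 2 = A ^ (2 * ε) := by
        rw [← Real.rpow_natCast, ← Real.rpow_mul hA0.le]; congr 1; push_cast; ring
      rw [mul_pow, ← h2]
      gcongr
    calc H * A * (128 * (1 + Real.log A)) ^ 2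
        ≤ (X * A ^ (-(1 / 4 : ℝ))) * (128 ^ 2 * ((1 + 1 / ε) ^ 2 * A ^ (2 * ε))) := by gcongr
      _ = X * (128 ^ 2 * (1 + 1 / ε) ^ 2) * (A ^ (-(1 / 4 : ℝ)) * A ^ (2 * ε)) := by ring
      _ = _ := by rw [← Real.rpow_add hA0]; congr 2; ring
  have g2 : (H ^ (1 / 3 : ℝ) * A ^ 2 + H ^ (2 / 3 : ℝ) * A ^ (5 / 3 : ℝ)) *
      ((A ^ (δ / 4)) ^ (-(1 / 6 : ℝ)) * C2) ≤ X * (2 * C2) * A ^ (δ / 48 - δ / 24) := by
    rw [e4]
    calc (H ^ (1 / 3 : ℝ) * A ^ 2 + H ^ (2 / 3 : ℝ) * A ^ (5 / 3 : ℝ)) * (A ^ (-(δ / 24)) * C2)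
        ≤ (X * A ^ (δ / 48) + X * A ^ (δ / 48)) * (A ^ (-(δ / 24)) * C2) := by gcongr
      _ = X * (2 * C2) * (A ^ (δ / 48) * A ^ (-(δ / 24))) := by ring
      _ = _ := by rw [← Real.rpow_add hA0]; congr 2
  have g3 : A ^ (3 * ε) * A ^ (2 * ε - 1 / 4) ≤ A ^ (-(δ / 96)) := by
    rw [← Real.rpow_add hA0]
    apply Real.rpow_le_rpow_of_exponent_le hA
    rw [hε]; linarith
  have g4 : A ^ (3 * ε) * A ^ (δ / 48 - δ / 24) ≤ A ^ (-(δ / 96)) := by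
    rw [← Real.rpow_add hA0]
    apply Real.rpow_le_rpow_of_exponent_le hA
    rw [hε]; linarith
  have hAp : 0 < A ^ (-(δ / 96)) := Real.rpow_pos_of_pos hA0 _
  calc 32 * C * (A * H) ^ ε * (H * A * (128 * (1 + Real.log A)) ^ 2 +
        (H ^ (1 / 3 : ℝ) * A ^ 2 + H ^ (2 / 3 : ℝ) * A ^ (5 / 3 : ℝ)) *
          ((A ^ (δ / 4)) ^ (-(1 / 6 : ℝ)) * C2))
      ≤ 32 * C * A ^ (3 * ε) * (X * (128 ^ 2 * (1 + 1 / ε) ^ 2) * A ^ (2 * ε - 1 / 4) +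
          X * (2 * C2) * A ^ (δ / 48 - δ / 24)) := by gcongr
    _ = 32 * C * X * ((128 ^ 2 * (1 + 1 / ε) ^ 2) * (A ^ (3 * ε) * A ^ (2 * ε - 1 / 4)) +
          (2 * C2) * (A ^ (3 * ε) * A ^ (δ / 48 - δ / 24))) := by ring
    _ ≤ 32 * C * X * ((128 ^ 2 * (1 + 1 / ε) ^ 2) * A ^ (-(δ / 96)) +
          (2 * C2) * A ^ (-(δ / 96))) := by gcongr
    _ ≤ 32 * C * X * ((128 ^ 2 * (1 + 1 / ε) ^ 2) * A ^ (-(δ / 96)) +
          (2 * C2) * A ^ (-(δ / 96))) + 32 * C * X * A ^ (-(δ / 96)) := by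
        have : 0 ≤ 32 * C * X * A ^ (-(δ / 96)) := by positivity
        linarith
    _ = _ := by rw [hXdef]; ring

end Vale.Agent.P006.NC
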