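import Vale.Agent.P006.H206.Block

/-!
P006, block NC: the sum over one polynomial, all representations with large kernel.
-/

namespace Vale.Agent.P006.NC

open Finset

/-- block sum including the sum over `n`, restricted to kernel norm `> Q0` -/
noncomputable def blkT (γ : O → ℂ) (R H Q0 : ℝ) (u : O) (l : ℕ) (a b : ℕ) : ℝ :=
  ∑ k1 ∈ DB a, ∑ k2 ∈ DB b,
    open Classical in if IsCoprime k1 k2 ∧ Q0 < (N k1 : ℝ) * N k2 then
      ∑ n ∈ NZ H with ((N k1 : ℝ) * (N k2 : ℝ) ^ 2 * (N n : ℝ) ^ 3 ≤ H),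
        ‖Fs γ R (rep u l k1 k2 n)‖ ^ 2 else 0

theorem blkT_nonneg (γ : O → ℂ) (R H Q0 : ℝ) (u : O) (l : ℕ) (a b : ℕ) :
    0 ≤ blkT γ R H Q0 u l a b := by
  unfold blkT
  refine Finset.sum_nonneg fun k1 _ => Finset.sum_nonneg fun k2 _ => ?_
  split_ifs
  · exact Finset.sum_nonneg fun _ _ => by positivity
  · exact le_rfl

theorem blkT_le_sum {γ : O → ℂ} {R H Q0 : ℝ} {u : O} {l : ℕ} {a b : ℕ} {x y z : ℝ}
    (hx : 0 < x) (hy : 0 < y) (hz : 0 < z) (hx3 : x ^ 3 = 2 ^ a) (hy3 : y ^ 3 = 2 ^ b)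
    (hz3 : z ^ 3 = H) :
    blkT γ R H Q0 u l a b ≤ ∑ n ∈ NZ (z / (x * y ^ 2)), blkS γ R u l n a b := by
  classical
  unfold blkS
  rw [Finset.sum_comm]
  unfold blkT
  refine Finset.sum_le_sum fun k1 hk1 => ?_
  rw [Finset.sum_comm]
  refine Finset.sum_le_sum fun k2 hk2 => ?_
  rw [mem_DB] at hk1 hk2
  by_cases hc : IsCoprime k1 k2
  · by_cases hQ : Q0 < (N k1 : ℝ) * N k2
    · rw [if_pos ⟨hc, hQ⟩]
      simp only [if_pos hc]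
      refine Finset.sum_le_sum_of_subset_of_nonneg ?_ fun _ _ _ => by positivity
      intro n hn
      rw [Finset.mem_filter, mem_NZ] at hn
      rw [mem_NZ]
      refine ⟨?_, hn.1.2⟩
      have h2 : (x * y ^ 2) ^ 3 * (N n : ℝ) ^ 3 ≤ z ^ 3 := by
        calc (x * y ^ 2) ^ 3 * (N n : ℝ) ^ 3 = x ^ 3 * (y ^ 3) ^ 2 * (N n : ℝ) ^ 3 := by ring
          _ = 2 ^ a * (2 ^ b) ^ 2 * (N n : ℝ) ^ 3 := by rw [hx3, hy3]
          _ ≤ (N k1 : ℝ) * (N k2 : ℝ) ^ 2 * (N n : ℝ) ^ 3 := by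
              gcongr
              · exact hk1.2
              · exact hk2.2
          _ ≤ H := hn.2
          _ = z ^ 3 := hz3.symm
      have h3 : (x * y ^ 2 * (N n : ℝ)) ^ 3 ≤ z ^ 3 := by
        calc _ = (x * y ^ 2) ^ 3 * (N n : ℝ) ^ 3 := by ring
          _ ≤ _ := h2
      have h4 : x * y ^ 2 * (N n : ℝ) ≤ z := le_of_pow_le_pow_left₀ (by norm_num) hz.le h3
      rw [le_div_iff₀ (by positivity)]
      linarith
    · rw [if_neg (fun h => hQ h.2)]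
      exact Finset.sum_nonneg fun _ _ => by split_ifs; positivity
  · rw [if_neg (fun h => hc h.1)]
    exact Finset.sum_nonneg fun _ _ => by simp [hc]

/-- block bound for a finite family of sequences -/
theorem blkT_le {ι : Type*} {S : Finset ι} {γ : ι → O → ℂ} {R H Q0 : ℝ} {u : O} {l : ℕ} {a b : ℕ}
    {x y z B : ℝ}
    (hx : 0 < x) (hy : 0 < y) (hz : 0 < z) (hx3 : x ^ 3 = 2 ^ a) (hy3 : y ^ 3 = 2 ^ b)
    (hz3 : z ^ 3 = H) (hB : ∀ n, n ≠ 0 → ∑ s ∈ S, blkS (γ s) R u l n a b ≤ B) :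
    ∑ s ∈ S, blkT (γ s) R H Q0 u l a b ≤ 32 * (z / (x * y ^ 2)) * B := by
  have hX : 0 < z / (x * y ^ 2) := by positivity
  have hB0 : 0 ≤ B :=
    (Finset.sum_nonneg fun s _ => blkS_nonneg (γ s) R u l 1 a b).trans (hB 1 one_ne_zero)
  calc ∑ s ∈ S, blkT (γ s) R H Q0 u l a b
      ≤ ∑ s ∈ S, ∑ n ∈ NZ (z / (x * y ^ 2)), blkS (γ s) R u l n a b :=
        Finset.sum_le_sum fun s _ => blkT_le_sum hx hy hz hx3 hy3 hz3
    _ = ∑ n ∈ NZ (z / (x * y ^ 2)), ∑ s ∈ S, blkS (γ s) R u l n a b := Finset.sum_comm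
    _ ≤ ∑ n ∈ NZ (z / (x * y ^ 2)), B :=
        Finset.sum_le_sum fun n hn => hB n ((mem_NZ.1 hn).2)
    _ = (NZ (z / (x * y ^ 2))).card * B := by rw [Finset.sum_const, nsmul_eq_mul]
    _ ≤ 32 * (z / (x * y ^ 2)) * B := by
        have h5 := card_NZ_le hX.le
        gcongr

theorem blkT_eq_zero_of_ker {γ : O → ℂ} {R H Q0 : ℝ} {u : O} {l : ℕ} {a b : ℕ}
    (h : 4 * (2 ^ a * 2 ^ b) ≤ Q0) : blkT γ R H Q0 u l a b = 0 := by
  classical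
  unfold blkT
  refine Finset.sum_eq_zero fun k1 hk1 => Finset.sum_eq_zero fun k2 hk2 => ?_
  rw [mem_DB] at hk1 hk2
  rw [if_neg]
  rintro ⟨_, hlt⟩
  have : (N k1 : ℝ) * N k2 ≤ (2 * 2 ^ a) * (2 * 2 ^ b) := by
    gcongr
    · exact hk1.1.1
    · exact hk2.1.1
  linarith

theorem blkT_eq_zero_of_H {γ : O → ℂ} {R H Q0 : ℝ} {u : O} {l : ℕ} {a b : ℕ} {x y z : ℝ}
    (hz : 0 < z) (hx3 : x ^ 3 = 2 ^ a) (hy3 : y ^ 3 = 2 ^ b)
    (hz3 : z ^ 3 = H) (h : z < x * y ^ 2) : blkT γ R H Q0 u l a b = 0 := by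
  classical
  unfold blkT
  refine Finset.sum_eq_zero fun k1 hk1 => Finset.sum_eq_zero fun k2 hk2 => ?_
  rw [mem_DB] at hk1 hk2
  split_ifs with hc
  · refine Finset.sum_eq_zero fun n hn => ?_
    exfalso
    rw [Finset.mem_filter, mem_NZ] at hn
    have hn1 := one_le_N hn.1.2
    have h2 : (x * y ^ 2) ^ 3 ≤ z ^ 3 := by
      calc (x * y ^ 2) ^ 3 = x ^ 3 * (y ^ 3) ^ 2 * 1 := by ring
        _ = 2 ^ a * (2 ^ b) ^ 2 * 1 := by rw [hx3, hy3]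
        _ ≤ (N k1 : ℝ) * (N k2 : ℝ) ^ 2 * (N n : ℝ) ^ 3 := by
            have := one_le_pow₀ (n := 3) hn1
            gcongr
            · exact hk1.2
            · exact hk2.2
        _ ≤ H := hn.2
        _ = z ^ 3 := hz3.symm
    have h3 := le_of_pow_le_pow_left₀ (by norm_num) hz.le h2
    linarith
  · rfl

/-- the exceptional ranges of the centre: (A) `K₁ ≥ K₂ s`, `K₁K₂ s > R`, (B) `K₁ ≈ K₂` up to `s`
and `K₁K₂² s > R` -/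
def LVrange (R s : ℝ) (a b : ℕ) : Prop :=
  ((2 : ℝ) ^ b * s ≤ 2 ^ a ∧ R < 2 ^ a * 2 ^ b * s) ∨
    ((2 : ℝ) ^ b < 2 ^ a * s ∧ (2 : ℝ) ^ a < 2 ^ b * s ∧ R < 2 ^ a * (2 ^ b) ^ 2 * s)

/-- hypothesis on the large value ranges: bound `M (K₁K₂²)^{1/3}` for every block in the
exceptional ranges -/
def LVhyp {ι : Type*} (S : Finset ι) (γ : ι → O → ℂ) (R H s M : ℝ) : Prop :=
  ∀ a b : ℕ, (2 : ℝ) ^ a * (2 ^ b) ^ 2 ≤ H → LVrange R s a b →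
    ∀ u ∈ U3, ∀ l ∈ Finset.range 3, ∀ n : O, n ≠ 0 → (N n : ℝ) ^ 3 * (2 ^ a * (2 ^ b) ^ 2) ≤ H →
      ∑ t ∈ S, blkS (γ t) R u l n a b ≤ M * (2 ^ a * (2 ^ b) ^ 2) ^ (1 / 3 : ℝ)

end Vale.Agent.P006.NC
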