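import Vale.Agent.P006.H206.One

/-!
P006, block NC: bound for the sum over all representations with kernel norm `> Q0`.
-/

namespace Vale.Agent.P006.NC

open Finset

theorem cbrt_pow {t : ℝ} (ht : 0 ≤ t) : (t ^ (1 / 3 : ℝ)) ^ 3 = t := by
  rw [← Real.rpow_natCast, ← Real.rpow_mul ht]; norm_num

theorem one_le_cbrt {t : ℝ} (ht : 1 ≤ t) : 1 ≤ t ^ (1 / 3 : ℝ) :=
  Real.one_le_rpow ht (by norm_num)

theorem rpow_two_thirds {t : ℝ} (ht : 0 ≤ t) : (t ^ 3) ^ (2 / 3 : ℝ) = t ^ 2 := by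
  rw [← Real.rpow_natCast, ← Real.rpow_natCast, ← Real.rpow_mul ht]; norm_num

theorem rpow_one_third {t : ℝ} (ht : 0 ≤ t) : (t ^ 3) ^ (1 / 3 : ℝ) = t := by
  rw [← Real.rpow_natCast, ← Real.rpow_mul ht]; norm_num

section Blocks

variable {ι : Type*} {S : Finset ι} {γ : ι → O → ℂ} {R H Q0 w z x y p : ℝ} {u : O} {l a b : ℕ}

theorem famA {C ε : ℝ} (hC : 0 < C) (hε : 0 < ε) (hε1 : ε ≤ 1) (hHB : HBc C ε)
    (hw : 1 ≤ w) (hR : R = w ^ 3) (hx0 : 0 < x) (hy0 : 0 < y) (hz0 : 0 < z)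
    (hx3 : x ^ 3 = 2 ^ a) (hy3 : y ^ 3 = 2 ^ b) (hH : H = z ^ 3)
    (h3 : (R * x ^ 3) ^ ε ≤ p) :
    ∑ s ∈ S, blkT (γ s) R H Q0 u l a b ≤
      8192 * C * p * (z * w ^ 3 * ∑ s ∈ S, En (γ s) R) * bA x y w := by
  have hw0 : 0 < w := by linarith
  have hR1 : 1 ≤ R := by rw [hR]; exact one_le_pow₀ hw
  have h1 : ∀ n : O, n ≠ 0 → ∑ s ∈ S, blkS (γ s) R u l n a b ≤
      256 * C * (p * (w ^ 3 + x ^ 3 + w ^ 2 * x ^ 2)) * y ^ 3 * ∑ s ∈ S, En (γ s) R := by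
    intro n _
    rw [Finset.mul_sum]
    refine Finset.sum_le_sum fun s _ => ?_
    refine (blk_le_a hC hε hε1 hHB (γ s) hR1 u l n a b).trans ?_
    have h2 : (R * 2 ^ a) ^ (2 / 3 : ℝ) = w ^ 2 * x ^ 2 := by
      rw [hR, ← hx3, ← mul_pow, rpow_two_thirds (by positivity), mul_pow]
    rw [h2, ← hx3, ← hy3]
    have h4 := En_nonneg (γ s) R
    have h5 : R + x ^ 3 + w ^ 2 * x ^ 2 = w ^ 3 + x ^ 3 + w ^ 2 * x ^ 2 := by rw [hR]
    rw [h5]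
    gcongr
  have h5 := blkT_le (Q0 := Q0) hx0 hy0 hz0 hx3 hy3 hH.symm h1
  refine h5.trans (le_of_eq ?_)
  unfold bA
  field_simp
  ring

theorem famB {C ε : ℝ} (hC : 0 < C) (hε : 0 < ε) (hε1 : ε ≤ 1) (hHB : HBc C ε)
    (hw : 1 ≤ w) (hR : R = w ^ 3) (hx0 : 0 < x) (hy0 : 0 < y) (hz0 : 0 < z)
    (hx3 : x ^ 3 = 2 ^ a) (hy3 : y ^ 3 = 2 ^ b) (hH : H = z ^ 3)
    (h3 : (R * y ^ 3) ^ ε ≤ p) :
    ∑ s ∈ S, blkT (γ s) R H Q0 u l a b ≤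
      8192 * C * p * (z * w ^ 3 * ∑ s ∈ S, En (γ s) R) * bB x y w := by
  have hw0 : 0 < w := by linarith
  have hR1 : 1 ≤ R := by rw [hR]; exact one_le_pow₀ hw
  have h1 : ∀ n : O, n ≠ 0 → ∑ s ∈ S, blkS (γ s) R u l n a b ≤
      256 * C * (p * (w ^ 3 + y ^ 3 + w ^ 2 * y ^ 2)) * x ^ 3 * ∑ s ∈ S, En (γ s) R := by
    intro n _
    rw [Finset.mul_sum]
    refine Finset.sum_le_sum fun s _ => ?_
    refine (blk_le_b hC hε hε1 hHB (γ s) hR1 u l n a b).trans ?_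
    have h2 : (R * 2 ^ b) ^ (2 / 3 : ℝ) = w ^ 2 * y ^ 2 := by
      rw [hR, ← hy3, ← mul_pow, rpow_two_thirds (by positivity), mul_pow]
    rw [h2, ← hx3, ← hy3]
    have h4 := En_nonneg (γ s) R
    have h5 : R + y ^ 3 + w ^ 2 * y ^ 2 = w ^ 3 + y ^ 3 + w ^ 2 * y ^ 2 := by rw [hR]
    rw [h5]
    gcongr
  have h5 := blkT_le (Q0 := Q0) hx0 hy0 hz0 hx3 hy3 hH.symm h1
  refine h5.trans (le_of_eq ?_)
  unfold bB
  field_simp
  ring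

theorem famC {C' : ℝ} (hC' : 0 < C') (hCLS : CLSc C')
    (hw : 1 ≤ w) (hR : R = w ^ 3) (hx0 : 0 < x) (hy0 : 0 < y) (hz0 : 0 < z)
    (hx3 : x ^ 3 = 2 ^ a) (hy3 : y ^ 3 = 2 ^ b) (hH : H = z ^ 3) :
    ∑ s ∈ S, blkT (γ s) R H Q0 u l a b ≤
      512 * C' * (z * w ^ 3 * ∑ s ∈ S, En (γ s) R) * bC x y w := by
  have hw0 : 0 < w := by linarith
  have hR1 : 1 ≤ R := by rw [hR]; exact one_le_pow₀ hw
  have h1 : ∀ n : O, n ≠ 0 → ∑ s ∈ S, blkS (γ s) R u l n a b ≤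
      16 * C' * (w ^ 3 + (x ^ 3 * y ^ 3) ^ 2) * ∑ s ∈ S, En (γ s) R := by
    intro n _
    rw [Finset.mul_sum]
    refine Finset.sum_le_sum fun s _ => ?_
    refine (blk_le_c hC' hCLS (γ s) hR1 u l n a b).trans (le_of_eq ?_)
    rw [← hx3, ← hy3]
    congr 3
  have h5 := blkT_le (Q0 := Q0) hx0 hy0 hz0 hx3 hy3 hH.symm h1
  refine h5.trans (le_of_eq ?_)
  unfold bC
  field_simp
  ring

theorem famLV {M q : ℝ} (hM : 0 ≤ M) (hLV : LVhyp S γ R H (q ^ 3) M)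
    (hx0 : 0 < x) (hy0 : 0 < y) (hz0 : 0 < z)
    (hx3 : x ^ 3 = 2 ^ a) (hy3 : y ^ 3 = 2 ^ b) (hH : H = z ^ 3) (hxyz : x * y ^ 2 ≤ z)
    (hu : u ∈ U3) (hl : l ∈ Finset.range 3) (hrange : LVrange R (q ^ 3) a b) :
    ∑ s ∈ S, blkT (γ s) R H Q0 u l a b ≤ 32 * M * z := by
  have hKH : (2 : ℝ) ^ a * (2 ^ b) ^ 2 ≤ H := by
    rw [← hx3, ← hy3, hH]
    calc x ^ 3 * (y ^ 3) ^ 2 = (x * y ^ 2) ^ 3 := by ring
      _ ≤ z ^ 3 := pow_le_pow_left₀ (by positivity) hxyz 3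
  have hcb : ((2 : ℝ) ^ a * (2 ^ b) ^ 2) ^ (1 / 3 : ℝ) = x * y ^ 2 := by
    rw [← hx3, ← hy3, show x ^ 3 * (y ^ 3) ^ 2 = (x * y ^ 2) ^ 3 by ring,
      rpow_one_third (by positivity)]
  calc ∑ s ∈ S, blkT (γ s) R H Q0 u l a b
      ≤ ∑ s ∈ S, ∑ n ∈ NZ (z / (x * y ^ 2)), blkS (γ s) R u l n a b :=
        Finset.sum_le_sum fun s _ => blkT_le_sum hx0 hy0 hz0 hx3 hy3 hH.symm
    _ = ∑ n ∈ NZ (z / (x * y ^ 2)), ∑ s ∈ S, blkS (γ s) R u l n a b := Finset.sum_comm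
    _ ≤ ∑ n ∈ NZ (z / (x * y ^ 2)), M * (x * y ^ 2) := by
        refine Finset.sum_le_sum fun n hn => ?_
        rw [mem_NZ] at hn
        have hn3 : (N n : ℝ) ^ 3 * (2 ^ a * (2 ^ b) ^ 2) ≤ H := by
          rw [← hx3, ← hy3, hH]
          have h2 : (N n : ℝ) * (x * y ^ 2) ≤ z := by
            rw [← le_div_iff₀ (by positivity)]; exact hn.1
          calc (N n : ℝ) ^ 3 * (x ^ 3 * (y ^ 3) ^ 2) = ((N n : ℝ) * (x * y ^ 2)) ^ 3 := by ring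
            _ ≤ z ^ 3 := pow_le_pow_left₀ (by positivity) h2 3
        have := hLV a b hKH hrange u hu l hl n hn.2 hn3
        rwa [hcb] at this
    _ = (NZ (z / (x * y ^ 2))).card * (M * (x * y ^ 2)) := by
        rw [Finset.sum_const, nsmul_eq_mul]
    _ ≤ 32 * (z / (x * y ^ 2)) * (M * (x * y ^ 2)) := by
        have h5 := card_NZ_le (X := z / (x * y ^ 2)) (by positivity)
        gcongr
    _ = 32 * M * z := by field_simp

theorem ker_bound (hx0 : 0 < x) (hy0 : 0 < y) (hx3 : x ^ 3 = 2 ^ a) (hy3 : y ^ 3 = 2 ^ b)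
    (hQ0 : 0 < Q0) (hk : Q0 < 4 * (2 ^ a * 2 ^ b)) : 2 / (x * y) ≤ 4 * Q0 ^ (-(1 / 3 : ℝ)) := by
  have h3 : Q0 ^ (1 / 3 : ℝ) ≤ 2 * (x * y) := by
    have h4 : Q0 ≤ (2 * (x * y)) ^ 3 := by
      calc Q0 ≤ 4 * (2 ^ a * 2 ^ b) := hk.le
        _ = 4 * (x ^ 3 * y ^ 3) := by rw [hx3, hy3]
        _ ≤ 8 * (x ^ 3 * y ^ 3) := by
          have : 0 ≤ x ^ 3 * y ^ 3 := by positivity
          linarith
        _ = (2 * (x * y)) ^ 3 := by ring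
    calc Q0 ^ (1 / 3 : ℝ) ≤ ((2 * (x * y)) ^ 3) ^ (1 / 3 : ℝ) :=
          Real.rpow_le_rpow hQ0.le h4 (by norm_num)
      _ = 2 * (x * y) := rpow_one_third (by positivity)
  have h5 : 0 < Q0 ^ (1 / 3 : ℝ) := Real.rpow_pos_of_pos hQ0 _
  rw [Real.rpow_neg hQ0.le, div_le_iff₀ (by positivity)]
  have h6 : (Q0 ^ (1 / 3 : ℝ))⁻¹ * Q0 ^ (1 / 3 : ℝ) = 1 := inv_mul_cancel₀ h5.ne'
  have h7 : 0 < (Q0 ^ (1 / 3 : ℝ))⁻¹ := by positivity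
  nlinarith

end Blocks

theorem arith_c1 {C C' T g i : ℝ} (hC : 0 < C) (hC' : 0 < C') (hT : 0 ≤ T) (hg : 0 ≤ g) (hi : 0 ≤ i) :
    512 * C' * T * (4 * g) ≤ 30000 * (C + C') * T * (g + i) := by
  calc 512 * C' * T * (4 * g) = (2048 * C') * T * g := by ring
    _ ≤ (30000 * (C + C')) * T * (g + i) := by
        have h1 : 2048 * C' ≤ 30000 * (C + C') := by linarith
        have h2 : g ≤ g + i := by linarith
        gcongr

theorem arith_a {C C' T g p q : ℝ} (hC : 0 < C) (hC' : 0 < C') (hT : 0 ≤ T) (hg : 0 ≤ g)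
    (hp : 0 < p) (hpq1 : p / q ≤ 1 / p) :
    8192 * C * p * T * (3 / q) ≤ 30000 * (C + C') * T * (g + 1 / p) := by
  calc 8192 * C * p * T * (3 / q) = (24576 * C) * T * (p / q) := by ring
    _ ≤ (24576 * C) * T * (1 / p) := by gcongr
    _ ≤ (30000 * (C + C')) * T * (g + 1 / p) := by
        have h1 : 24576 * C ≤ 30000 * (C + C') := by linarith
        have h2 : 1 / p ≤ g + 1 / p := by linarith
        gcongr

theorem arith_c2 {C C' T g p q : ℝ} (hC : 0 < C) (hC' : 0 < C') (hT : 0 ≤ T) (hg : 0 ≤ g)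
    (hp : 0 < p) (hpq : p ≤ q) :
    512 * C' * T * (3 / q) ≤ 30000 * (C + C') * T * (g + 1 / p) := by
  have e0 : 1 / q ≤ 1 / p := one_div_le_one_div_of_le hp hpq
  calc 512 * C' * T * (3 / q) = (1536 * C') * T * (1 / q) := by ring
    _ ≤ (1536 * C') * T * (1 / p) := by gcongr
    _ ≤ (30000 * (C + C')) * T * (g + 1 / p) := by
        have h1 : 1536 * C' ≤ 30000 * (C + C') := by linarith
        have h2 : 1 / p ≤ g + 1 / p := by linarith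
        gcongr

/-- bound for one dyadic block of a family, in cube-root variables -/
theorem one_block {ι : Type*} {S : Finset ι} {γ : ι → O → ℂ} {C C' ε : ℝ}
    (hC : 0 < C) (hε : 0 < ε) (hε1 : ε ≤ 1) (hHB : HBc C ε) (hC' : 0 < C') (hCLS : CLSc C')
    {R H Q0 w z q p M : ℝ} (hw : 1 ≤ w) (hz : 1 ≤ z) (hq : 1 ≤ q) (hR : R = w ^ 3) (hH : H = z ^ 3)
    (hq9 : q ^ 9 ≤ w) (hzw : z ≤ w * q) (hp1 : 1 ≤ p) (hp : ∀ t : ℝ, 1 ≤ t → t ≤ w ^ 9 → t ^ ε ≤ p)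
    (hpq : p ^ 2 ≤ q) (hQ0 : 0 < Q0) (hM : 0 ≤ M) (hLV : LVhyp S γ R H (q ^ 3) M)
    {u : O} (hu : u ∈ U3) {l : ℕ} (hl : l ∈ Finset.range 3) (a b : ℕ) :
    ∑ s ∈ S, blkT (γ s) R H Q0 u l a b ≤
      30000 * (C + C') * (z * w ^ 3 * ∑ s ∈ S, En (γ s) R) * (Q0 ^ (-(1 / 3 : ℝ)) + 1 / p) +
        32 * M * z := by
  have ha : (1 : ℝ) ≤ 2 ^ a := one_le_pow₀ (by norm_num)
  have hb : (1 : ℝ) ≤ 2 ^ b := one_le_pow₀ (by norm_num)
  obtain ⟨x, hx1, hx3⟩ : ∃ x : ℝ, 1 ≤ x ∧ x ^ 3 = 2 ^ a :=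
    ⟨((2 : ℝ) ^ a) ^ (1 / 3 : ℝ), one_le_cbrt ha, cbrt_pow (by positivity)⟩
  obtain ⟨y, hy1, hy3⟩ : ∃ y : ℝ, 1 ≤ y ∧ y ^ 3 = 2 ^ b :=
    ⟨((2 : ℝ) ^ b) ^ (1 / 3 : ℝ), one_le_cbrt hb, cbrt_pow (by positivity)⟩
  have hx0 : 0 < x := by linarith
  have hy0 : 0 < y := by linarith
  have hw0 : 0 < w := by linarith
  have hz0 : 0 < z := by linarith
  have hq0 : 0 < q := by linarith
  have hp0 : 0 < p := by linarith
  have hE0 : 0 ≤ ∑ s ∈ S, En (γ s) R := Finset.sum_nonneg fun s _ => En_nonneg _ _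
  have hT : 0 ≤ z * w ^ 3 * ∑ s ∈ S, En (γ s) R := by positivity
  have hg : 0 < Q0 ^ (-(1 / 3 : ℝ)) := Real.rpow_pos_of_pos hQ0 _
  have hpinv : 0 < 1 / p := by positivity
  have hmain0 : 0 ≤ 30000 * (C + C') * (z * w ^ 3 * ∑ s ∈ S, En (γ s) R) *
      (Q0 ^ (-(1 / 3 : ℝ)) + 1 / p) := by positivity
  have hMz : 0 ≤ 32 * M * z := by positivity
  have hpq1 : p / q ≤ 1 / p := by
    rw [div_le_div_iff₀ hq0 hp0]; nlinarith
  have hpq2 : p ≤ q := by nlinarith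
  rcases lt_or_ge z (x * y ^ 2) with hlt | hxyz
  · have : ∑ s ∈ S, blkT (γ s) R H Q0 u l a b = 0 :=
      Finset.sum_eq_zero fun s _ => blkT_eq_zero_of_H hz0 hx3 hy3 hH.symm hlt
    rw [this]; linarith
  have hq1w : q ≤ w := le_trans (le_self_pow₀ hq (by norm_num)) hq9
  have hzw2 : z ≤ w ^ 2 := hzw.trans (by nlinarith)
  have hxz : x ≤ z := by
    calc x = x * 1 := by ring
      _ ≤ x * y ^ 2 := by
        have := one_le_pow₀ (n := 2) hy1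
        gcongr
      _ ≤ z := hxyz
  have hyz : y ≤ z := by
    calc y ≤ 1 * y ^ 2 := by nlinarith
      _ ≤ x * y ^ 2 := by gcongr
      _ ≤ z := hxyz
  have hpow : ∀ t : ℝ, 1 ≤ t → t ≤ z → (R * t ^ 3) ^ ε ≤ p := by
    intro t ht1 htz
    apply hp
    · rw [hR]; exact one_le_mul_of_one_le_of_one_le (one_le_pow₀ hw) (one_le_pow₀ ht1)
    · have h1 : t ^ 3 ≤ (w ^ 2) ^ 3 := pow_le_pow_left₀ (by linarith) (htz.trans hzw2) 3
      calc R * t ^ 3 ≤ w ^ 3 * (w ^ 2) ^ 3 := by rw [hR]; gcongr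
        _ = w ^ 9 := by ring
  rcases min_lemma hx1 hy1 hz hw hq hq9 hxyz hzw with ⟨_, h⟩ | h | h | h | h | h
  · rcases le_or_gt (4 * (2 ^ a * 2 ^ b)) Q0 with hk | hk
    · have : ∑ s ∈ S, blkT (γ s) R H Q0 u l a b = 0 :=
        Finset.sum_eq_zero fun s _ => blkT_eq_zero_of_ker hk
      rw [this]; linarith
    · have hBc := famC (S := S) (γ := γ) (Q0 := Q0) (u := u) (l := l) hC' hCLS hw hR hx0 hy0 hz0
        hx3 hy3 hH
      have h8 := mul_le_mul_of_nonneg_left (h.trans (ker_bound hx0 hy0 hx3 hy3 hQ0 hk))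
        (show 0 ≤ 512 * C' * (z * w ^ 3 * ∑ s ∈ S, En (γ s) R) by positivity)
      have h9 := arith_c1 hC hC' hT hg.le hpinv.le
      linarith
  · have hBa := famA (S := S) (γ := γ) (Q0 := Q0) (u := u) (l := l) hC hε hε1 hHB hw hR hx0 hy0 hz0
      hx3 hy3 hH (hpow x hx1 hxz)
    have h8 := mul_le_mul_of_nonneg_left h
      (show 0 ≤ 8192 * C * p * (z * w ^ 3 * ∑ s ∈ S, En (γ s) R) by positivity)
    have h9 := arith_a hC hC' hT hg.le hp0 hpq1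
    linarith
  · have hBb := famB (S := S) (γ := γ) (Q0 := Q0) (u := u) (l := l) hC hε hε1 hHB hw hR hx0 hy0 hz0
      hx3 hy3 hH (hpow y hy1 hyz)
    have h8 := mul_le_mul_of_nonneg_left h
      (show 0 ≤ 8192 * C * p * (z * w ^ 3 * ∑ s ∈ S, En (γ s) R) by positivity)
    have h9 := arith_a hC hC' hT hg.le hp0 hpq1
    linarith
  · have hBc := famC (S := S) (γ := γ) (Q0 := Q0) (u := u) (l := l) hC' hCLS hw hR hx0 hy0 hz0
      hx3 hy3 hH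
    have h8 := mul_le_mul_of_nonneg_left h
      (show 0 ≤ 512 * C' * (z * w ^ 3 * ∑ s ∈ S, En (γ s) R) by positivity)
    have h9 := arith_c2 hC hC' hT hg.le hp0 hpq2
    linarith
  · have hrange : LVrange R (q ^ 3) a b := by
      refine Or.inl ⟨?_, ?_⟩
      · rw [← hx3, ← hy3]
        calc y ^ 3 * q ^ 3 = (y * q) ^ 3 := by ring
          _ ≤ x ^ 3 := pow_le_pow_left₀ (by positivity) h.1 3
      · rw [← hx3, ← hy3, hR]
        calc w ^ 3 < (x * y * q) ^ 3 := pow_lt_pow_left₀ h.2 hw0.le (by norm_num)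
          _ = x ^ 3 * y ^ 3 * q ^ 3 := by ring
    have := famLV (Q0 := Q0) hM hLV hx0 hy0 hz0 hx3 hy3 hH hxyz hu hl hrange
    linarith
  · have hrange : LVrange R (q ^ 3) a b := by
      refine Or.inr ⟨?_, ?_, ?_⟩
      · rw [← hx3, ← hy3]
        calc y ^ 3 < (x * q) ^ 3 := pow_lt_pow_left₀ h.1 hy0.le (by norm_num)
          _ = x ^ 3 * q ^ 3 := by ring
      · rw [← hx3, ← hy3]
        calc x ^ 3 < (y * q) ^ 3 := pow_lt_pow_left₀ h.2.1 hx0.le (by norm_num)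
          _ = y ^ 3 * q ^ 3 := by ring
      · rw [← hx3, ← hy3, hR]
        calc w ^ 3 < (x * y ^ 2 * q) ^ 3 := pow_lt_pow_left₀ h.2.2 hw0.le (by norm_num)
          _ = x ^ 3 * (y ^ 3) ^ 2 * q ^ 3 := by ring
    have := famLV (Q0 := Q0) hM hLV hx0 hy0 hz0 hx3 hy3 hH hxyz hu hl hrange
    linarith

end Vale.Agent.P006.NC
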