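import Vale.Agent.P006.H206.Fin

/-!
P006, block NC: every nonzero `κ : O` is `u * lam^l * (k1 * k2^2) * n^3`.
-/

namespace Vale.Agent.P006.NC

open Finset

theorem SqP.of_mul_left {a b : O} (h : SqP (a * b)) (ha : Primary a) : SqP b :=
  ⟨ha.of_mul h.1, h.2.squarefree_of_dvd (Dvd.intro_left a rfl)⟩

theorem SqP.mul {a b : O} (ha : SqP a) (hb : SqP b) (h : IsCoprime a b) : SqP (a * b) :=
  ⟨ha.1.mul hb.1, (squarefree_mul_iff.2 ⟨h.isRelPrime, ha.2, hb.2⟩)⟩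

theorem SqP.of_prime {p : O} (hp : Prime p) (h : Primary p) : SqP p :=
  ⟨h, hp.irreducible.squarefree⟩

/-- decomposition of a primary element -/
theorem primary_rep {c : O} (hc : Primary c) : ∃ k1 k2 n : O, SqP k1 ∧ SqP k2 ∧
    IsCoprime k1 k2 ∧ Primary n ∧ c = k1 * k2 ^ 2 * n ^ 3 := by
  revert c
  apply Primary.induction (P := fun c => ∃ k1 k2 n : O, SqP k1 ∧ SqP k2 ∧
    IsCoprime k1 k2 ∧ Primary n ∧ c = k1 * k2 ^ 2 * n ^ 3)
  · exact ⟨1, 1, 1, sqP_one, sqP_one, isCoprime_one_left, primary_one, by ring⟩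
  · intro π b hπ hπp hb ⟨k1, k2, n, h1, h2, h12, hn, hbe⟩
    by_cases hd1 : π ∣ k1
    · obtain ⟨m, rfl⟩ := hd1
      have hm : SqP m := h1.of_mul_left hπp
      have hπm : IsCoprime π m := by
        rw [hπ.coprime_iff_not_dvd]
        intro hdm
        exact hπ.not_isUnit (h1.2 π (mul_dvd_mul_left π hdm))
      have hπ2 : IsCoprime π k2 := h12.of_mul_left_left
      have hm2 : IsCoprime m k2 := h12.of_mul_left_right
      refine ⟨m, π * k2, n, hm, (SqP.of_prime hπ hπp).mul h2 hπ2, ?_, hn, ?_⟩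
      · exact IsCoprime.mul_right hπm.symm hm2
      · rw [hbe]; ring
    · by_cases hd2 : π ∣ k2
      · obtain ⟨m, rfl⟩ := hd2
        have hm : SqP m := h2.of_mul_left hπp
        refine ⟨k1, m, π * n, h1, hm, h12.of_mul_right_right, hπp.mul hn, ?_⟩
        rw [hbe]; ring
      · have hc1 : IsCoprime π k1 := (hπ.coprime_iff_not_dvd).2 hd1
        have hc2 : IsCoprime π k2 := (hπ.coprime_iff_not_dvd).2 hd2
        refine ⟨π * k1, k2, n, (SqP.of_prime hπ hπp).mul h1 hc1, h2, ?_, hn, ?_⟩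
        · exact IsCoprime.mul_left hc2 h12
        · rw [hbe]; ring

/-- the units used as representatives modulo cubes -/
def U3 : Finset O := {1, om, om ^ 2}

theorem mem_U3 {u : O} : u ∈ U3 ↔ u = 1 ∨ u = om ∨ u = om ^ 2 := by simp [U3]

theorem card_U3_le : U3.card ≤ 3 := by
  unfold U3; exact Finset.card_le_three

theorem N_U3 {u : O} (h : u ∈ U3) : N u = 1 := by
  rw [mem_U3] at h
  rcases h with h | h | h <;> subst h <;> simp

theorem unit_eq {u : O} (h : IsUnit u) : ∃ v ∈ U3, ∃ s : O, s ≠ 0 ∧ N s = 1 ∧ u = v * s ^ 3 := by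
  rcases isUnit_cases h with h | h | h | h | h | h <;> subst h
  · exact ⟨1, by simp [mem_U3], 1, one_ne_zero, by simp, by ring⟩
  · exact ⟨om, by simp [mem_U3], 1, one_ne_zero, by simp, by ring⟩
  · exact ⟨om ^ 2, by simp [mem_U3], 1, one_ne_zero, by simp, by ring⟩
  · exact ⟨1, by simp [mem_U3], -1, by simp, by simp, by ring⟩
  · exact ⟨om, by simp [mem_U3], -1, by simp, by simp, by ring⟩
  · exact ⟨om ^ 2, by simp [mem_U3], -1, by simp, by simp, by ring⟩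

theorem exists_lam_pow {κ : O} (hκ : κ ≠ 0) : ∃ (m : ℕ) (c : O), ¬ lam ∣ c ∧ κ = lam ^ m * c := by
  have h := WfDvdMonoid.max_power_factor hκ prime_lam.irreducible
  obtain ⟨m, c, h1, h2⟩ := h
  exact ⟨m, c, h1, h2⟩

/-- the decomposition of a nonzero element -/
theorem exists_rep {κ : O} (hκ : κ ≠ 0) : ∃ u ∈ U3, ∃ l ∈ Finset.range 3, ∃ k1 k2 n : O,
    SqP k1 ∧ SqP k2 ∧ IsCoprime k1 k2 ∧ n ≠ 0 ∧ κ = u * lam ^ l * (k1 * k2 ^ 2) * n ^ 3 := by
  obtain ⟨m, c, hc, rfl⟩ := exists_lam_pow hκ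
  obtain ⟨u, hu, hp⟩ := exists_unit_mul_primary hc
  obtain ⟨k1, k2, n, h1, h2, h12, hn, he⟩ := primary_rep hp
  obtain ⟨u', hu'⟩ := hu.exists_left_inv
  have huu : IsUnit u' := IsUnit.of_mul_eq_one u hu'
  obtain ⟨v, hv, s, hs0, hs1, hvs⟩ := unit_eq huu
  refine ⟨v, hv, m % 3, Finset.mem_range.2 (Nat.mod_lt _ (by norm_num)), k1, k2,
    s * lam ^ (m / 3) * n, h1, h2, h12, ?_, ?_⟩
  · exact mul_ne_zero (mul_ne_zero hs0 (pow_ne_zero _ prime_lam.ne_zero)) hn.ne_zero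
  · have hc' : c = u' * (u * c) := by rw [← mul_assoc, hu', one_mul]
    have hm : lam ^ m = lam ^ (m % 3) * (lam ^ (m / 3)) ^ 3 := by
      rw [← pow_mul, ← pow_add]; congr 1; omega
    rw [hc', he, hm, hvs]; ring

end Vale.Agent.P006.NC
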