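import Vale.Agent.P006.H206.Dvd

/-!
P006, block NC: definition of the non-cube quantity, contribution of small kernels.
-/

namespace Vale.Agent.P006.NC

open Finset

/-- the inner sum `∑_{a : j ∣ a} α_a χ_{a/j}(κ)`, written over `r = a/j` -/
noncomputable def inner (α : O → ℂ) (A : ℝ) (j κ : O) : ℂ :=
  Fs (fun r => α (j * r)) (A / N j) κ

/-- `κ` is a cube -/
def IsCube (κ : O) : Prop := ∃ m : O, κ = m ^ 3

/-- the non-cube quantity -/
noncomputable def NCQ (α : O → ℂ) (A H : ℝ) : ℝ :=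
  ∑ j ∈ PB A, ∑ κ ∈ NZ H, open Classical in
    if ¬ IsCube κ then gw j κ * ‖inner α A j κ‖ ^ 2 else 0

/-- a family of disjoint pieces -/
structure Fam {ι : Type*} (S : Finset ι) (α : ι → O → ℂ) : Prop where
  bd : ∀ a : O, ∑ s ∈ S, ‖α s a‖ ≤ 1

/-- the Siegel–Walfisz input for the small kernels -/
def SWhyp {ι : Type*} (S : Finset ι) (α : ι → O → ℂ) (A H Q0 J0 σ : ℝ) : Prop :=
  ∀ s ∈ S, ∀ j ∈ PB J0, ∀ u ∈ U3, ∀ l ∈ Finset.range 3, ∀ k1 k2 n : O, SqP k1 → SqP k2 →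
    IsCoprime k1 k2 → (N k1 : ℝ) * N k2 ≤ Q0 → n ≠ 0 →
    (N k1 : ℝ) * (N k2 : ℝ) ^ 2 * (N n : ℝ) ^ 3 ≤ H → ¬ IsCube (rep u l k1 k2 n) →
    ‖inner (α s) A j (rep u l k1 k2 n)‖ ≤ σ * A

section

variable {ι : Type*} {S : Finset ι} {α : ι → O → ℂ}

theorem Fam.single_le (h : Fam S α) {s : ι} (hs : s ∈ S) (a : O) : ‖α s a‖ ≤ 1 :=
  (Finset.single_le_sum (f := fun t => ‖α t a‖) (fun _ _ => norm_nonneg _) hs).trans (h.bd a)

theorem Fam.sum_inner_le (h : Fam S α) {A : ℝ} (hA : 0 ≤ A) (j κ : O) :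
    ∑ s ∈ S, ‖inner (α s) A j κ‖ ≤ 32 * (A / N j) := by
  have hR : 0 ≤ A / N j := by positivity
  calc ∑ s ∈ S, ‖inner (α s) A j κ‖
      ≤ ∑ s ∈ S, ∑ r ∈ PB (A / N j), ‖α s (j * r)‖ := by
        refine Finset.sum_le_sum fun s _ => ?_
        unfold inner Fs
        refine (norm_sum_le _ _).trans (Finset.sum_le_sum fun r _ => ?_)
        rw [norm_mul]
        have h1 := norm_ch_le r κ
        have h2 := norm_nonneg (α s (j * r))
        nlinarith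
    _ = ∑ r ∈ PB (A / N j), ∑ s ∈ S, ‖α s (j * r)‖ := Finset.sum_comm
    _ ≤ ∑ r ∈ PB (A / N j), (1 : ℝ) := Finset.sum_le_sum fun r _ => h.bd _
    _ = (PB (A / N j)).card := by simp
    _ ≤ 32 * (A / N j) := card_PB_le hR

theorem Fam.sum_En_le (h : Fam S α) {A : ℝ} (hA : 0 ≤ A) (j : O) :
    ∑ s ∈ S, En (fun r => α s (j * r)) (A / N j) ≤ 32 * (A / N j) := by
  have hR : 0 ≤ A / N j := by positivity
  unfold En
  rw [Finset.sum_comm]
  calc ∑ r ∈ PB (A / N j), ∑ s ∈ S, ‖α s (j * r)‖ ^ 2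
      ≤ ∑ r ∈ PB (A / N j), ∑ s ∈ S, ‖α s (j * r)‖ := by
        refine Finset.sum_le_sum fun r _ => Finset.sum_le_sum fun s hs => ?_
        have h1 := h.single_le hs (j * r)
        have h2 := norm_nonneg (α s (j * r))
        nlinarith
    _ ≤ ∑ r ∈ PB (A / N j), (1 : ℝ) := Finset.sum_le_sum fun r _ => h.bd _
    _ = (PB (A / N j)).card := by simp
    _ ≤ 32 * (A / N j) := card_PB_le hR

/-- bound for `∑_s |inner|²` at small kernels -/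
noncomputable def B1 (A J0 σ : ℝ) (j : O) : ℝ :=
  if (N j : ℝ) ≤ J0 then 32 * σ * A ^ 2 else 1024 * A ^ 2 * ((N j : ℝ) ^ 2)⁻¹

theorem B1_nonneg {A J0 σ : ℝ} (hσ : 0 ≤ σ) (j : O) : 0 ≤ B1 A J0 σ j := by
  unfold B1; split_ifs <;> positivity

theorem sum_inner_sq_le (h : Fam S α) {A H Q0 J0 σ : ℝ} (hA : 0 ≤ A) (hσ : 0 ≤ σ)
    (hSW : SWhyp S α A H Q0 J0 σ) {j : O} (hj : SqP j) {u : O} (hu : u ∈ U3) {l : ℕ}
    (hl : l ∈ Finset.range 3) {k1 k2 n : O} (hk1 : SqP k1) (hk2 : SqP k2) (hc : IsCoprime k1 k2)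
    (hQ : (N k1 : ℝ) * N k2 ≤ Q0) (hn : n ≠ 0)
    (hnH : (N k1 : ℝ) * (N k2 : ℝ) ^ 2 * (N n : ℝ) ^ 3 ≤ H)
    (hcube : ¬ IsCube (rep u l k1 k2 n)) :
    ∑ s ∈ S, ‖inner (α s) A j (rep u l k1 k2 n)‖ ^ 2 ≤ B1 A J0 σ j := by
  set κ := rep u l k1 k2 n with hκ
  have hNj : (1 : ℝ) ≤ N j := one_le_N hj.ne_zero
  have h1 := h.sum_inner_le hA j κ
  unfold B1
  split_ifs with hJ
  · calc ∑ s ∈ S, ‖inner (α s) A j κ‖ ^ 2
        ≤ ∑ s ∈ S, (σ * A) * ‖inner (α s) A j κ‖ := by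
          refine Finset.sum_le_sum fun s hs => ?_
          have h2 := hSW s hs j (by rw [mem_PB]; exact ⟨hJ, hj⟩) u hu l hl k1 k2 n hk1 hk2 hc hQ hn
            hnH hcube
          have h3 := norm_nonneg (inner (α s) A j κ)
          nlinarith
      _ = (σ * A) * ∑ s ∈ S, ‖inner (α s) A j κ‖ := by rw [Finset.mul_sum]
      _ ≤ (σ * A) * (32 * (A / N j)) := by gcongr
      _ ≤ (σ * A) * (32 * A) := by
          have : A / N j ≤ A := div_le_self hA hNj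
          gcongr
      _ = 32 * σ * A ^ 2 := by ring
  · calc ∑ s ∈ S, ‖inner (α s) A j κ‖ ^ 2
        ≤ (∑ s ∈ S, ‖inner (α s) A j κ‖) ^ 2 :=
          Finset.sum_sq_le_sq_sum_of_nonneg fun s _ => norm_nonneg _
      _ ≤ (32 * (A / N j)) ^ 2 :=
          pow_le_pow_left₀ (Finset.sum_nonneg fun _ _ => norm_nonneg _) h1 2
      _ = 1024 * A ^ 2 * ((N j : ℝ) ^ 2)⁻¹ := by
          rw [mul_pow, div_pow, div_eq_mul_inv]; ring

end

/-- number of divisors -/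
noncomputable def tauA (A : ℝ) (j : O) : ℝ := ((PB A).filter (fun g => g ∣ j)).card

theorem sum_gw_le {j : O} (hj : SqP j) {A : ℝ} (hA : (N j : ℝ) ≤ A) {X : ℝ} (hX : 0 ≤ X) :
    ∑ n ∈ NZ X, gw j n ≤ 32 * X * tauA A j := by
  classical
  calc ∑ n ∈ NZ X, gw j n ≤ ∑ n ∈ NZ X, ∑ g ∈ PB A with (g ∣ j ∧ g ∣ n), (N g : ℝ) :=
        Finset.sum_le_sum fun n _ => gw_le_sum hj hA n
    _ = ∑ g ∈ PB A with g ∣ j, ∑ n ∈ NZ X with g ∣ n, (N g : ℝ) := by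
        simp only [Finset.sum_filter]
        rw [Finset.sum_comm]
        refine Finset.sum_congr rfl fun g _ => ?_
        by_cases hg : g ∣ j
        · simp [hg]
        · simp [hg]
    _ ≤ ∑ g ∈ PB A with g ∣ j, 32 * X := by
        refine Finset.sum_le_sum fun g hg => ?_
        rw [Finset.mem_filter, mem_PB] at hg
        have hg0 := hg.1.2.ne_zero
        have hNg : 0 < (N g : ℝ) := by exact_mod_cast N_pos hg0
        refine (sum_NZ_dvd_le hg0 X (F := fun _ => (N g : ℝ)) (fun _ => hNg.le)).trans ?_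
        rw [Finset.sum_const, nsmul_eq_mul]
        have h1 := card_NZ_le (X := X / N g) (by positivity)
        calc ((NZ (X / N g)).card : ℝ) * N g ≤ (32 * (X / N g)) * N g := by gcongr
          _ = 32 * X := by field_simp
    _ = 32 * X * tauA A j := by
        rw [Finset.sum_const, nsmul_eq_mul, tauA]; ring

/-- double sums over `j` and its divisors -/
theorem sum_tau_le {A : ℝ} {F : O → ℝ} (hF : ∀ j, 0 ≤ F j) :
    ∑ j ∈ PB A, F j * tauA A j ≤ ∑ g ∈ PB A, ∑ i ∈ PB (A / N g), F (g * i) := by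
  classical
  calc ∑ j ∈ PB A, F j * tauA A j = ∑ j ∈ PB A, ∑ g ∈ PB A with g ∣ j, F j := by
        refine Finset.sum_congr rfl fun j _ => ?_
        rw [Finset.sum_const, nsmul_eq_mul, tauA]; ring
    _ = ∑ g ∈ PB A, ∑ j ∈ PB A with g ∣ j, F j := by
        simp only [Finset.sum_filter]
        rw [Finset.sum_comm]
    _ ≤ _ := by
        refine Finset.sum_le_sum fun g hg => ?_
        rw [mem_PB] at hg
        exact sum_PB_dvd_le hg.2.1 A hF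

theorem PB_mono {X Y : ℝ} (h : X ≤ Y) : PB X ⊆ PB Y := by
  intro k hk
  rw [mem_PB] at hk ⊢
  exact ⟨hk.1.trans h, hk.2⟩

theorem NZ_mono {X Y : ℝ} (h : X ≤ Y) : NZ X ⊆ NZ Y := by
  intro k hk
  rw [mem_NZ] at hk ⊢
  exact ⟨hk.1.trans h, hk.2⟩

/-- `∑_j B1(j) τ(j)` -/
theorem sum_B1_le : ∃ C : ℝ, 0 < C ∧ ∀ A J0 σ : ℝ, 1 ≤ A → 1 ≤ J0 → 0 ≤ σ →
    ∑ j ∈ PB A, B1 A J0 σ j * tauA A j ≤ C * A ^ 2 * (J0 ^ 2 * σ + J0 ^ (-(1 / 2 : ℝ))) := by
  have hs : (1 : ℝ) < 3 / 2 := by norm_num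
  have hq : (2 : ℝ) ^ (1 - (3 / 2 : ℝ)) < 1 :=
    Real.rpow_lt_one_of_one_lt_of_neg (by norm_num) (by norm_num)
  set C2 : ℝ := 64 / (1 - 2 ^ (1 - (3 / 2 : ℝ))) with hC2
  have hC20 : 0 < C2 := div_pos (by norm_num) (by linarith)
  refine ⟨32768 + 1024 * C2 ^ 2, by positivity, ?_⟩
  intro A J0 σ hA hJ0 hσ
  have hA0 : 0 < A := by linarith
  have hJ00 : 0 < J0 := by linarith
  refine (sum_tau_le (fun j => B1_nonneg hσ j)).trans ?_
  have hJp : 0 < J0 ^ (-(1 / 2 : ℝ)) := Real.rpow_pos_of_pos hJ00 _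
  have hpt : ∀ g ∈ PB A, ∀ i ∈ PB (A / N g), B1 A J0 σ (g * i) ≤
      (if (N g : ℝ) ≤ J0 ∧ (N i : ℝ) ≤ J0 then 32 * σ * A ^ 2 else 0) +
      1024 * A ^ 2 * J0 ^ (-(1 / 2 : ℝ)) * ((N g : ℝ) ^ (-(3 / 2 : ℝ)) * (N i : ℝ) ^ (-(3 / 2 : ℝ))) := by
    intro g hg i hi
    rw [mem_PB] at hg hi
    have hg1 := one_le_N hg.2.ne_zero
    have hi1 := one_le_N hi.2.ne_zero
    have hg0 : (0 : ℝ) < N g := by linarith
    have hi0 : (0 : ℝ) < N i := by linarith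
    have hrest : 0 ≤ 1024 * A ^ 2 * J0 ^ (-(1 / 2 : ℝ)) *
        ((N g : ℝ) ^ (-(3 / 2 : ℝ)) * (N i : ℝ) ^ (-(3 / 2 : ℝ))) := by positivity
    unfold B1
    rw [N_mul]
    push_cast
    split_ifs with h1 h2 h2
    · linarith
    · exfalso
      apply h2
      constructor <;> nlinarith
    · have h4 : J0 ≤ (N g : ℝ) * N i := (not_le.1 h1).le
      have h5 : (((N g : ℝ) * N i) ^ 2)⁻¹ ≤
          J0 ^ (-(1 / 2 : ℝ)) * ((N g : ℝ) ^ (-(3 / 2 : ℝ)) * (N i : ℝ) ^ (-(3 / 2 : ℝ))) := by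
        rw [← Real.mul_rpow hg0.le hi0.le]
        have hP : 0 < (N g : ℝ) * N i := by positivity
        calc (((N g : ℝ) * N i) ^ 2)⁻¹ = ((N g : ℝ) * N i) ^ (-(1 / 2 : ℝ)) *
              ((N g : ℝ) * N i) ^ (-(3 / 2 : ℝ)) := by
              rw [← Real.rpow_add hP, ← Real.rpow_natCast, ← Real.rpow_neg hP.le]; norm_num
          _ ≤ J0 ^ (-(1 / 2 : ℝ)) * ((N g : ℝ) * N i) ^ (-(3 / 2 : ℝ)) := by
              have := Real.rpow_le_rpow_of_nonpos hJ00 h4 (show -(1 / 2 : ℝ) ≤ 0 by norm_num)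
              gcongr
      have h6 := mul_le_mul_of_nonneg_left h5 (show 0 ≤ 1024 * A ^ 2 by positivity)
      have h7 : 0 ≤ 32 * σ * A ^ 2 := by positivity
      linarith
    · have h4 : J0 ≤ (N g : ℝ) * N i := (not_le.1 h1).le
      have h5 : (((N g : ℝ) * N i) ^ 2)⁻¹ ≤
          J0 ^ (-(1 / 2 : ℝ)) * ((N g : ℝ) ^ (-(3 / 2 : ℝ)) * (N i : ℝ) ^ (-(3 / 2 : ℝ))) := by
        rw [← Real.mul_rpow hg0.le hi0.le]
        have hP : 0 < (N g : ℝ) * N i := by positivity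
        calc (((N g : ℝ) * N i) ^ 2)⁻¹ = ((N g : ℝ) * N i) ^ (-(1 / 2 : ℝ)) *
              ((N g : ℝ) * N i) ^ (-(3 / 2 : ℝ)) := by
              rw [← Real.rpow_add hP, ← Real.rpow_natCast, ← Real.rpow_neg hP.le]; norm_num
          _ ≤ J0 ^ (-(1 / 2 : ℝ)) * ((N g : ℝ) * N i) ^ (-(3 / 2 : ℝ)) := by
              have := Real.rpow_le_rpow_of_nonpos hJ00 h4 (show -(1 / 2 : ℝ) ≤ 0 by norm_num)
              gcongr
      have h6 := mul_le_mul_of_nonneg_left h5 (show 0 ≤ 1024 * A ^ 2 by positivity)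
      linarith
  have hsub : ∀ g : O, g ∈ PB A → PB (A / N g) ⊆ PB A := by
    intro g hg
    rw [mem_PB] at hg
    exact PB_mono (div_le_self hA0.le (one_le_N hg.2.ne_zero))
  have hS1 : ∑ g ∈ PB A, ∑ i ∈ PB (A / N g),
      (if (N g : ℝ) ≤ J0 ∧ (N i : ℝ) ≤ J0 then 32 * σ * A ^ 2 else 0) ≤
      32768 * A ^ 2 * (J0 ^ 2 * σ) := by
    calc _ ≤ ∑ g ∈ PB A, ∑ i ∈ PB A,
          (if (N g : ℝ) ≤ J0 ∧ (N i : ℝ) ≤ J0 then 32 * σ * A ^ 2 else 0) := by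
          refine Finset.sum_le_sum fun g hg => ?_
          refine Finset.sum_le_sum_of_subset_of_nonneg (hsub g hg) fun _ _ _ => ?_
          split_ifs <;> positivity
      _ ≤ ∑ g ∈ PB J0, ∑ i ∈ PB J0, 32 * σ * A ^ 2 := by
          have hin : ∀ g : O, ∑ i ∈ PB A,
              (if (N g : ℝ) ≤ J0 ∧ (N i : ℝ) ≤ J0 then 32 * σ * A ^ 2 else 0) ≤
              if (N g : ℝ) ≤ J0 then ∑ i ∈ PB J0, 32 * σ * A ^ 2 else 0 := by
            intro g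
            by_cases hgJ : (N g : ℝ) ≤ J0
            · simp only [hgJ, true_and, if_true]
              rw [← Finset.sum_filter]
              refine Finset.sum_le_sum_of_subset_of_nonneg ?_ fun _ _ _ => by positivity
              intro i hi
              rw [Finset.mem_filter, mem_PB] at hi
              rw [mem_PB]
              exact ⟨hi.2, hi.1.2⟩
            · simp [hgJ]
          refine (Finset.sum_le_sum fun g _ => hin g).trans ?_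
          rw [← Finset.sum_filter]
          refine Finset.sum_le_sum_of_subset_of_nonneg ?_ fun _ _ _ =>
            Finset.sum_nonneg fun _ _ => by positivity
          intro i hi
          rw [Finset.mem_filter, mem_PB] at hi
          rw [mem_PB]
          exact ⟨hi.2, hi.1.2⟩
      _ = ((PB J0).card : ℝ) * ((PB J0).card * (32 * σ * A ^ 2)) := by
          simp only [Finset.sum_const, nsmul_eq_mul]
      _ ≤ (32 * J0) * ((32 * J0) * (32 * σ * A ^ 2)) := by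
          have := card_PB_le hJ00.le
          gcongr
      _ = 32768 * A ^ 2 * (J0 ^ 2 * σ) := by ring
  have hS2 : ∑ g ∈ PB A, ∑ i ∈ PB (A / N g),
      1024 * A ^ 2 * J0 ^ (-(1 / 2 : ℝ)) * ((N g : ℝ) ^ (-(3 / 2 : ℝ)) * (N i : ℝ) ^ (-(3 / 2 : ℝ))) ≤
      1024 * C2 ^ 2 * A ^ 2 * J0 ^ (-(1 / 2 : ℝ)) := by
    calc _ ≤ ∑ g ∈ PB A, ∑ i ∈ PB A,
          1024 * A ^ 2 * J0 ^ (-(1 / 2 : ℝ)) *
            ((N g : ℝ) ^ (-(3 / 2 : ℝ)) * (N i : ℝ) ^ (-(3 / 2 : ℝ))) := by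
          refine Finset.sum_le_sum fun g hg => ?_
          exact Finset.sum_le_sum_of_subset_of_nonneg (hsub g hg) fun _ _ _ => by positivity
      _ = 1024 * A ^ 2 * J0 ^ (-(1 / 2 : ℝ)) *
            ((∑ g ∈ PB A, (N g : ℝ) ^ (-(3 / 2 : ℝ))) * ∑ i ∈ PB A, (N i : ℝ) ^ (-(3 / 2 : ℝ))) := by
          rw [Finset.sum_mul_sum, Finset.mul_sum]
          refine Finset.sum_congr rfl fun g _ => ?_
          rw [Finset.mul_sum]
      _ ≤ 1024 * A ^ 2 * J0 ^ (-(1 / 2 : ℝ)) * (C2 * C2) := by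
          have h1 := sum_rpow_le hs A
          have h0 : 0 ≤ ∑ g ∈ PB A, (N g : ℝ) ^ (-(3 / 2 : ℝ)) :=
            Finset.sum_nonneg fun _ _ => by positivity
          gcongr
      _ = _ := by ring
  calc ∑ g ∈ PB A, ∑ i ∈ PB (A / N g), B1 A J0 σ (g * i)
      ≤ ∑ g ∈ PB A, ∑ i ∈ PB (A / N g),
        ((if (N g : ℝ) ≤ J0 ∧ (N i : ℝ) ≤ J0 then 32 * σ * A ^ 2 else 0) +
        1024 * A ^ 2 * J0 ^ (-(1 / 2 : ℝ)) *
          ((N g : ℝ) ^ (-(3 / 2 : ℝ)) * (N i : ℝ) ^ (-(3 / 2 : ℝ)))) :=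
        Finset.sum_le_sum fun g hg => Finset.sum_le_sum fun i hi => hpt g hg i hi
    _ ≤ 32768 * A ^ 2 * (J0 ^ 2 * σ) + 1024 * C2 ^ 2 * A ^ 2 * J0 ^ (-(1 / 2 : ℝ)) := by
        simp only [Finset.sum_add_distrib]
        linarith
    _ ≤ (32768 + 1024 * C2 ^ 2) * A ^ 2 * (J0 ^ 2 * σ + J0 ^ (-(1 / 2 : ℝ))) := by
        have e1 : 0 ≤ 32768 * A ^ 2 * J0 ^ (-(1 / 2 : ℝ)) := by positivity
        have e2 : 0 ≤ 1024 * C2 ^ 2 * A ^ 2 * (J0 ^ 2 * σ) := by positivity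
        calc _ ≤ 32768 * A ^ 2 * (J0 ^ 2 * σ) + 1024 * C2 ^ 2 * A ^ 2 * J0 ^ (-(1 / 2 : ℝ)) +
              (32768 * A ^ 2 * J0 ^ (-(1 / 2 : ℝ)) + 1024 * C2 ^ 2 * A ^ 2 * (J0 ^ 2 * σ)) := by
              linarith
          _ = _ := by ring

end Vale.Agent.P006.NC
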