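import Vale.Agent.P006.H206.Rep
import Mathlib.Analysis.SpecialFunctions.Pow.NNReal
import Mathlib.Analysis.SpecificLimits.Basic

/-!
P006, block NC: sums over representations, dyadic sums.
-/

namespace Vale.Agent.P006.NC

open Finset

/-- `u λ^l k₁ k₂² n³` -/
def rep (u : O) (l : ℕ) (k1 k2 n : O) : O := u * lam ^ l * (k1 * k2 ^ 2) * n ^ 3

theorem N_rep_ge {u : O} (hu : u ∈ U3) (l : ℕ) (k1 k2 n : O) :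
    (N k1 : ℝ) * (N k2 : ℝ) ^ 2 * (N n : ℝ) ^ 3 ≤ N (rep u l k1 k2 n) := by
  rw [rep]
  simp only [N_mul, N_pow, N_U3 hu, N_lam, one_mul]
  push_cast
  have h1 : (1 : ℝ) ≤ 3 ^ l := one_le_pow₀ (by norm_num)
  have h2 : (0 : ℝ) ≤ (N k1 : ℝ) * (N k2 : ℝ) ^ 2 * (N n : ℝ) ^ 3 := by positivity
  nlinarith

/-- a sum over nonzero elements is at most the sum over all representations -/
theorem sum_le_rep (f : O → ℝ) (hf : ∀ κ, 0 ≤ f κ) (H : ℝ) :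
    ∑ κ ∈ NZ H, f κ ≤ ∑ u ∈ U3, ∑ l ∈ range 3, ∑ k1 ∈ PB H, ∑ k2 ∈ PB H,
      open Classical in
      if IsCoprime k1 k2 then
        ∑ n ∈ NZ H with ((N k1 : ℝ) * (N k2 : ℝ) ^ 2 * (N n : ℝ) ^ 3 ≤ H), f (rep u l k1 k2 n)
      else 0 := by
  classical
  have hex : ∀ κ : O, ∃ t : O × ℕ × O × O × O, κ ≠ 0 → (t.1 ∈ U3 ∧ t.2.1 ∈ Finset.range 3 ∧
      SqP t.2.2.1 ∧ SqP t.2.2.2.1 ∧ IsCoprime t.2.2.1 t.2.2.2.1 ∧ t.2.2.2.2 ≠ 0 ∧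
      κ = rep t.1 t.2.1 t.2.2.1 t.2.2.2.1 t.2.2.2.2) := by
    intro κ
    by_cases hκ : κ = 0
    · exact ⟨(0, 0, 0, 0, 0), fun h => absurd hκ h⟩
    · obtain ⟨u, hu, l, hl, k1, k2, n, h1, h2, h3, h4, h5⟩ := exists_rep hκ
      exact ⟨(u, l, k1, k2, n), fun _ => ⟨hu, hl, h1, h2, h3, h4, h5⟩⟩
  choose τ hτ using hex
  set g : O × ℕ × O × O × O → ℝ := fun t =>
    if (IsCoprime t.2.2.1 t.2.2.2.1 ∧
      (N t.2.2.1 : ℝ) * (N t.2.2.2.1 : ℝ) ^ 2 * (N t.2.2.2.2 : ℝ) ^ 3 ≤ H) then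
      f (rep t.1 t.2.1 t.2.2.1 t.2.2.2.1 t.2.2.2.2) else 0 with hg
  set T : Finset (O × ℕ × O × O × O) := U3 ×ˢ (range 3) ×ˢ (PB H) ×ˢ (PB H) ×ˢ (NZ H) with hT
  have hg0 : ∀ t, 0 ≤ g t := by
    intro t; simp only [hg]; split_ifs
    · exact hf _
    · exact le_rfl
  have hle : ∀ κ ∈ NZ H, κ ≠ 0 ∧ (N (τ κ).2.2.1 : ℝ) * (N (τ κ).2.2.2.1 : ℝ) ^ 2 *
      (N (τ κ).2.2.2.2 : ℝ) ^ 3 ≤ H := by
    intro κ hκ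
    rw [mem_NZ] at hκ
    have h := hτ κ hκ.2
    refine ⟨hκ.2, ?_⟩
    have h2 := N_rep_ge h.1 (τ κ).2.1 (τ κ).2.2.1 (τ κ).2.2.2.1 (τ κ).2.2.2.2
    rw [← h.2.2.2.2.2.2] at h2
    exact h2.trans hκ.1
  have h1 : ∑ κ ∈ NZ H, f κ = ∑ κ ∈ NZ H, g (τ κ) := by
    refine Finset.sum_congr rfl fun κ hκ => ?_
    obtain ⟨h0, h2⟩ := hle κ hκ
    have h := hτ κ h0
    simp only [hg]
    rw [if_pos ⟨h.2.2.2.2.1, h2⟩, ← h.2.2.2.2.2.2]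
  have hinj : Set.InjOn τ (NZ H : Finset O) := by
    intro x hx y hy hxy
    have h1 := hτ x (hle x hx).1
    have h2 := hτ y (hle y hy).1
    rw [h1.2.2.2.2.2.2, h2.2.2.2.2.2.2, hxy]
  have h2 : ∑ κ ∈ NZ H, g (τ κ) = ∑ t ∈ (NZ H).image τ, g t := (Finset.sum_image hinj).symm
  have hsub : (NZ H).image τ ⊆ T := by
    intro t ht
    rw [Finset.mem_image] at ht
    obtain ⟨κ, hκ, rfl⟩ := ht
    obtain ⟨h0, h2⟩ := hle κ hκ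
    have h := hτ κ h0
    have n1 : (1 : ℝ) ≤ N (τ κ).2.2.1 := one_le_N h.2.2.1.ne_zero
    have n2 : (1 : ℝ) ≤ N (τ κ).2.2.2.1 := one_le_N h.2.2.2.1.ne_zero
    have n3 : (1 : ℝ) ≤ N (τ κ).2.2.2.2 := one_le_N h.2.2.2.2.2.1
    have p2 : (N (τ κ).2.2.2.1 : ℝ) ≤ (N (τ κ).2.2.2.1 : ℝ) ^ 2 := by nlinarith
    have p3 : (N (τ κ).2.2.2.2 : ℝ) ≤ (N (τ κ).2.2.2.2 : ℝ) ^ 3 :=
      le_self_pow₀ n3 (by norm_num)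
    have q2 : (1 : ℝ) ≤ (N (τ κ).2.2.2.1 : ℝ) ^ 2 := n2.trans p2
    have q3 : (1 : ℝ) ≤ (N (τ κ).2.2.2.2 : ℝ) ^ 3 := n3.trans p3
    have a1 : (N (τ κ).2.2.1 : ℝ) ≤ H := by
      calc (N (τ κ).2.2.1 : ℝ) = (N (τ κ).2.2.1 : ℝ) * 1 * 1 := by ring
        _ ≤ (N (τ κ).2.2.1 : ℝ) * (N (τ κ).2.2.2.1 : ℝ) ^ 2 * (N (τ κ).2.2.2.2 : ℝ) ^ 3 := by
          gcongr
        _ ≤ H := h2
    have a2 : (N (τ κ).2.2.2.1 : ℝ) ≤ H := by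
      calc (N (τ κ).2.2.2.1 : ℝ) ≤ 1 * (N (τ κ).2.2.2.1 : ℝ) ^ 2 * 1 := by linarith
        _ ≤ (N (τ κ).2.2.1 : ℝ) * (N (τ κ).2.2.2.1 : ℝ) ^ 2 * (N (τ κ).2.2.2.2 : ℝ) ^ 3 := by
          gcongr
        _ ≤ H := h2
    have a3 : (N (τ κ).2.2.2.2 : ℝ) ≤ H := by
      calc (N (τ κ).2.2.2.2 : ℝ) ≤ 1 * 1 * (N (τ κ).2.2.2.2 : ℝ) ^ 3 := by linarith
        _ ≤ (N (τ κ).2.2.1 : ℝ) * (N (τ κ).2.2.2.1 : ℝ) ^ 2 * (N (τ κ).2.2.2.2 : ℝ) ^ 3 := by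
          gcongr
        _ ≤ H := h2
    simp only [hT, Finset.mem_product, mem_PB, mem_NZ]
    exact ⟨h.1, h.2.1, ⟨a1, h.2.2.1⟩, ⟨a2, h.2.2.2.1⟩, ⟨a3, h.2.2.2.2.2.1⟩⟩
  have h3 : ∑ t ∈ (NZ H).image τ, g t ≤ ∑ t ∈ T, g t :=
    Finset.sum_le_sum_of_subset_of_nonneg hsub fun t _ _ => hg0 t
  rw [h1, h2]
  refine h3.trans (le_of_eq ?_)
  rw [hT, Finset.sum_product]
  refine Finset.sum_congr rfl fun u _ => ?_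
  rw [Finset.sum_product]
  refine Finset.sum_congr rfl fun l _ => ?_
  rw [Finset.sum_product]
  refine Finset.sum_congr rfl fun k1 _ => ?_
  rw [Finset.sum_product]
  refine Finset.sum_congr rfl fun k2 _ => ?_
  simp only [hg]
  by_cases hc : IsCoprime k1 k2
  · rw [if_pos hc, Finset.sum_filter]
    refine Finset.sum_congr rfl fun n _ => ?_
    simp [hc]
  · rw [if_neg hc]
    exact Finset.sum_eq_zero fun n _ => by simp [hc]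

end Vale.Agent.P006.NC
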