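import Vale.Agent.P006.H206.Inst
import Vale.Agent.P006.DN.NCint

/-!
P006, block NC: the tail bound (all `H`), and the bridge to `DN.NCQ`.
-/

namespace Vale.Agent.P006.NC

open Finset

/-- **Tail**: the full cubic large sieve for the non-cube quantity, all `A, H ≥ 1`. -/
theorem nc_tail {ε : ℝ} (hε : 0 < ε) : ∃ C : ℝ, 0 < C ∧ ∀ (ι : Type) (S : Finset ι)
    (α : ι → O → ℂ), Fam S α → ∀ A H : ℝ, 1 ≤ A → 1 ≤ H →
      ∑ s ∈ S, NCQ (α s) A H ≤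
        C * (A * H) ^ ε * (A * H + A ^ 2 * H ^ (1 / 3 : ℝ) + A ^ (5 / 3 : ℝ) * H ^ (2 / 3 : ℝ)) := by
  have hε3 : 0 < ε / 3 := by positivity
  obtain ⟨C0, hC0, hfull⟩ := full_main hbsq hε3
  set C2 : ℝ := (64 / (1 - 2 ^ (1 - (7 / 6 : ℝ)))) ^ 2 with hC2
  have hC20 : 0 ≤ C2 := by positivity
  refine ⟨32 * C0 * (128 ^ 2 * (1 + 1 / (ε / 3)) ^ 2 + 2 * C2), by positivity, ?_⟩
  intro ι S α hF A H hA hH
  have hA0 : 0 < A := by linarith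
  have hH0 : 0 < H := by linarith
  have hp := pairs_sum hC0 hε3 hfull hF hA hH (J1 := 1 / 2) (by norm_num)
  rw [← hC2] at hp
  have e0 : ∑ s ∈ S, NCQ (α s) A H ≤
      ∑ j ∈ PB A with (1 / 2 : ℝ) < (N j : ℝ), ∑ κ ∈ NZ H, gw j κ *
        ∑ s ∈ S, ‖inner (α s) A j κ‖ ^ 2 := by
    unfold NCQ
    rw [Finset.sum_comm]
    have hfil : (PB A).filter (fun j => (1 / 2 : ℝ) < (N j : ℝ)) = PB A := by
      refine Finset.filter_true_of_mem fun j hj => ?_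
      rw [mem_PB] at hj
      have := one_le_N hj.2.ne_zero
      linarith
    rw [hfil]
    refine Finset.sum_le_sum fun j _ => ?_
    rw [Finset.sum_comm]
    refine Finset.sum_le_sum fun κ _ => ?_
    rw [Finset.mul_sum]
    refine Finset.sum_le_sum fun s _ => ?_
    have := mul_nonneg (gw_nonneg j κ) (sq_nonneg ‖inner (α s) A j κ‖)
    split_ifs
    · exact this
    · exact le_rfl
  refine e0.trans (hp.trans ?_)
  have hlog := log_sq_le hA hε3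
  have h1 : (128 * (1 + Real.log A)) ^ 2 ≤ 128 ^ 2 * (1 + 1 / (ε / 3)) ^ 2 * (A * H) ^ (2 * (ε / 3)) := by
    have h2 : (A ^ (ε / 3)) ^ 2 = A ^ (2 * (ε / 3)) := by
      rw [← Real.rpow_natCast, ← Real.rpow_mul hA0.le]; congr 1; push_cast; ring
    have h3 : A ^ (2 * (ε / 3)) ≤ (A * H) ^ (2 * (ε / 3)) := by
      apply Real.rpow_le_rpow hA0.le _ (by positivity)
      nlinarith
    rw [mul_pow, mul_assoc]
    have h4 : (1 + Real.log A) ^ 2 ≤ (1 + 1 / (ε / 3)) ^ 2 * (A * H) ^ (2 * (ε / 3)) := by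
      refine hlog.trans ?_
      rw [h2]
      gcongr
    gcongr
  have hAH : 1 ≤ A * H := by nlinarith
  have h5 : 1 ≤ (A * H) ^ (2 * (ε / 3)) := Real.one_le_rpow hAH (by positivity)
  have h6 : (1 / 2 : ℝ) ^ (-(1 / 6 : ℝ)) ≤ 2 := by
    have : (1 / 2 : ℝ) ^ (-(1 / 6 : ℝ)) = 2 ^ (1 / 6 : ℝ) := by
      rw [one_div, Real.inv_rpow (by norm_num), Real.rpow_neg (by norm_num), inv_inv]
    rw [this]
    calc (2 : ℝ) ^ (1 / 6 : ℝ) ≤ 2 ^ (1 : ℝ) :=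
          Real.rpow_le_rpow_of_exponent_le (by norm_num) (by norm_num)
      _ = 2 := Real.rpow_one _
  have e3 : (A * H) ^ (ε / 3) * (A * H) ^ (2 * (ε / 3)) = (A * H) ^ ε := by
    rw [← Real.rpow_add (by positivity)]; congr 1; ring
  set X : ℝ := H * A with hX
  set Y : ℝ := H ^ (1 / 3 : ℝ) * A ^ 2 + H ^ (2 / 3 : ℝ) * A ^ (5 / 3 : ℝ) with hY
  have hX0 : 0 ≤ X := by positivity
  have hY0 : 0 ≤ Y := by positivity
  set P : ℝ := (A * H) ^ (2 * (ε / 3)) with hP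
  have hP0 : 0 ≤ P := by linarith
  set K : ℝ := 128 ^ 2 * (1 + 1 / (ε / 3)) ^ 2 with hK
  have hK0 : 0 ≤ K := by positivity
  have hQ0 : 0 ≤ (A * H) ^ (ε / 3) := by positivity
  calc 32 * C0 * (A * H) ^ (ε / 3) * (X * (128 * (1 + Real.log A)) ^ 2 +
        Y * ((1 / 2 : ℝ) ^ (-(1 / 6 : ℝ)) * C2))
      ≤ 32 * C0 * (A * H) ^ (ε / 3) * (X * (K * P) + Y * (2 * C2)) := by gcongr
    _ ≤ 32 * C0 * (A * H) ^ (ε / 3) * ((X + Y) * ((K + 2 * C2) * P)) := by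
        have h7 : X * (K * P) + Y * (2 * C2) ≤ (X + Y) * ((K + 2 * C2) * P) := by
          have a1 : 0 ≤ X * (2 * C2 * P) := by positivity
          have a2 : 0 ≤ Y * (K * P) := by positivity
          have a3 : Y * (2 * C2) ≤ Y * (2 * C2 * P) := by
            have : 2 * C2 ≤ 2 * C2 * P := by nlinarith
            gcongr
          nlinarith
        gcongr
    _ = 32 * C0 * (K + 2 * C2) * ((A * H) ^ (ε / 3) * P) * (X + Y) := by ring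
    _ = 32 * C0 * (K + 2 * C2) * (A * H) ^ ε * (X + Y) := by rw [hP, e3]
    _ = _ := by rw [hX, hY]; ring

/-! ### the bridge to `DN.NCQ` -/

theorem NCQ_eq_DN (α : O → ℂ) (A H : ℝ) : NCQ α A H = DN.NCQ α A H := by
  classical
  rw [NCQ_eq]
  unfold DN.NCQ
  refine Finset.sum_congr rfl fun j _ => ?_
  rw [Finset.sum_filter]
  refine Finset.sum_congr rfl fun κ hκ => ?_
  rw [HB.mem_Hn] at hκ
  have : DISP.NonCube κ ↔ ¬ ∃ e : O, κ = e ^ 3 := by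
    unfold DISP.NonCube
    exact ⟨fun h => h.2, fun h => ⟨hκ.2, h⟩⟩
  by_cases h : ∃ e : O, κ = e ^ 3
  · rw [if_neg (by simpa using h), if_neg (by rw [this]; simpa using h)]
  · rw [if_pos h, if_pos (this.2 h)]

/-- tail, `DN.NCQ` form -/
theorem nc_tail_DN {ε : ℝ} (hε : 0 < ε) : ∃ C : ℝ, 0 < C ∧ ∀ (ι : Type) (S : Finset ι)
    (α : ι → O → ℂ), (∀ a, ∑ s ∈ S, ‖α s a‖ ≤ 1) → ∀ A H : ℝ, 1 ≤ A → 1 ≤ H →
      ∑ s ∈ S, DN.NCQ (α s) A H ≤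
        C * (A * H) ^ ε * (A * H + A ^ 2 * H ^ (1 / 3 : ℝ) + A ^ (5 / 3 : ℝ) * H ^ (2 / 3 : ℝ)) := by
  obtain ⟨C, hC, h⟩ := nc_tail hε
  refine ⟨C, hC, fun ι S α hF A H hA hH => ?_⟩
  have := h ι S α ⟨hF⟩ A H hA hH
  simpa only [NCQ_eq_DN] using this

/-- interior, `DN.NCQ` form -/
theorem nc_int_DN {δ : ℝ} (hδ : 0 < δ) : ∃ C η : ℝ, 0 < C ∧ 0 < η ∧ ∀ (ι : Type) (S : Finset ι)
      (α : ι → O → ℂ), (∀ s ∈ S, ∀ a, α s a ≠ 0 → Primary a ∧ Squarefree a) →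
      (∀ a, ∑ s ∈ S, ‖α s a‖ ≤ 1) →
      ∀ A H Q0 J0 σ : ℝ, 1 ≤ A → 1 ≤ H → H ≤ A ^ (1 - δ) → 1 ≤ Q0 → 1 ≤ J0 → 0 ≤ σ →
      (∀ s ∈ S, ∀ j ∈ Vale.Agent.P006.SPB J0, ∀ k0 n : O, n ≠ 0 → (N n : ℝ) ≤ H →
        k0 ≠ 0 → (¬ ∃ e : O, k0 = e ^ 3) → (N k0 : ℝ) ≤ 9 * Q0 ^ 2 →
        ‖∑ a ∈ (Vale.Agent.P006.SPB A).filter (fun a => j ∣ a),
          α s a * toC (sym (k0 * n ^ 3) (a / j))‖ ≤ σ * A) →
      ∑ s ∈ S, DN.NCQ (α s) A H ≤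
        C * A ^ 2 * H ^ (1 / 3 : ℝ) *
        (Q0 ^ 3 * (J0 ^ 2 * σ + J0 ^ (-(1 / 2 : ℝ))) +
          (1 + Real.log A) ^ 3 * Q0 ^ (-(1 / 3 : ℝ)) + A ^ (-η)) := by
  obtain ⟨C, η, hC, hη, h⟩ := nc_int hδ
  refine ⟨C, η, hC, hη, ?_⟩
  intro ι S α hα hF A H Q0 J0 σ hA hH hHA hQ0 hJ0 hσ hSW
  have h1 := h ι S α ⟨hF⟩ A H Q0 J0 σ hA hH hHA hQ0 hJ0 hσ (SWhyp.of_dvd hα hSW)
  simpa only [NCQ_eq_DN] using h1

end Vale.Agent.P006.NC
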