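import Vale.Agent.P006.H206.OneMain

/-!
P006, block NC: the total over all representations with kernel norm `> Q0`.
-/

namespace Vale.Agent.P006.NC

open Finset

/-- number of dyadic blocks -/
noncomputable def Dn (H : ℝ) : ℕ := Nat.log 2 ⌊H⌋₊ + 1

theorem Dn_le {H : ℝ} (hH : 1 ≤ H) : (Dn H : ℝ) ≤ 2 * (1 + Real.log H) := by
  have hf : ⌊H⌋₊ ≠ 0 := by
    have : 1 ≤ ⌊H⌋₊ := Nat.le_floor (by simpa using hH)
    omega
  have h1 : (2 : ℝ) ^ (Nat.log 2 ⌊H⌋₊) ≤ H := by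
    have h2 : 2 ^ (Nat.log 2 ⌊H⌋₊) ≤ ⌊H⌋₊ := Nat.pow_log_le_self 2 hf
    have h3 : ((2 ^ (Nat.log 2 ⌊H⌋₊) : ℕ) : ℝ) ≤ ⌊H⌋₊ := by exact_mod_cast h2
    push_cast at h3
    exact h3.trans (Nat.floor_le (by linarith))
  have h4 : (Nat.log 2 ⌊H⌋₊ : ℝ) * Real.log 2 ≤ Real.log H := by
    have := Real.log_le_log (by positivity) h1
    rwa [Real.log_pow] at this
  have h5 : (1 / 2 : ℝ) ≤ Real.log 2 := by
    have := Real.one_sub_inv_le_log_of_pos (show (0 : ℝ) < 2 by norm_num)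
    norm_num at this ⊢; linarith
  have h6 : 0 ≤ (Nat.log 2 ⌊H⌋₊ : ℝ) := by positivity
  unfold Dn
  push_cast
  nlinarith

theorem sum_PB_le_dyadic {f : O → ℝ} (hf : ∀ k, 0 ≤ f k) (H : ℝ) :
    ∑ k ∈ PB H, f k ≤ ∑ a ∈ range (Dn H), ∑ k ∈ DB a, f k := by
  classical
  have hmaps : ∀ k ∈ PB H, Nat.log 2 (N k) ∈ range (Dn H) := by
    intro k hk
    rw [mem_PB] at hk
    rw [Finset.mem_range, Dn, Nat.lt_succ_iff]
    apply Nat.log_mono_right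
    exact Nat.le_floor hk.1
  rw [← Finset.sum_fiberwise_of_maps_to hmaps]
  refine Finset.sum_le_sum fun a _ => ?_
  refine Finset.sum_le_sum_of_subset_of_nonneg ?_ fun k _ _ => hf k
  intro k hk
  rw [Finset.mem_filter, mem_PB] at hk
  have h0 : N k ≠ 0 := (N_pos hk.1.2.ne_zero).ne'
  rw [mem_DB]
  have h1 : N k < 2 ^ (a + 1) := by
    rw [← hk.2]; exact Nat.lt_pow_succ_log_self (by norm_num) _
  have h2 : 2 ^ a ≤ N k := by
    rw [← hk.2]; exact Nat.pow_log_le_self 2 h0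
  refine ⟨⟨?_, hk.1.2⟩, by exact_mod_cast h2⟩
  have h3 : ((N k : ℕ) : ℝ) ≤ ((2 ^ (a + 1) : ℕ) : ℝ) := by exact_mod_cast h1.le
  push_cast at h3
  rw [pow_succ] at h3
  linarith

/-- the sum over all representations (fixed `u`, `l`) with kernel norm `> Q0` -/
noncomputable def bigT (γ : O → ℂ) (R H Q0 : ℝ) (u : O) (l : ℕ) : ℝ :=
  ∑ k1 ∈ PB H, ∑ k2 ∈ PB H,
    open Classical in if IsCoprime k1 k2 ∧ Q0 < (N k1 : ℝ) * N k2 then
      ∑ n ∈ NZ H with ((N k1 : ℝ) * (N k2 : ℝ) ^ 2 * (N n : ℝ) ^ 3 ≤ H),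
        ‖Fs γ R (rep u l k1 k2 n)‖ ^ 2 else 0

theorem bigT_le (γ : O → ℂ) (R H Q0 : ℝ) (u : O) (l : ℕ) :
    bigT γ R H Q0 u l ≤ ∑ a ∈ range (Dn H), ∑ b ∈ range (Dn H), blkT γ R H Q0 u l a b := by
  classical
  unfold bigT
  set f : O → O → ℝ := fun k1 k2 => if IsCoprime k1 k2 ∧ Q0 < (N k1 : ℝ) * N k2 then
      ∑ n ∈ NZ H with ((N k1 : ℝ) * (N k2 : ℝ) ^ 2 * (N n : ℝ) ^ 3 ≤ H),
        ‖Fs γ R (rep u l k1 k2 n)‖ ^ 2 else 0 with hf
  have hf0 : ∀ k1 k2, 0 ≤ f k1 k2 := by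
    intro k1 k2; simp only [hf]; split_ifs
    · exact Finset.sum_nonneg fun _ _ => by positivity
    · exact le_rfl
  calc ∑ k1 ∈ PB H, ∑ k2 ∈ PB H, f k1 k2
      ≤ ∑ a ∈ range (Dn H), ∑ k1 ∈ DB a, ∑ k2 ∈ PB H, f k1 k2 :=
        sum_PB_le_dyadic (fun k1 => Finset.sum_nonneg fun k2 _ => hf0 k1 k2) H
    _ ≤ ∑ a ∈ range (Dn H), ∑ k1 ∈ DB a, ∑ b ∈ range (Dn H), ∑ k2 ∈ DB b, f k1 k2 := by
        refine Finset.sum_le_sum fun a _ => Finset.sum_le_sum fun k1 _ => ?_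
        exact sum_PB_le_dyadic (fun k2 => hf0 k1 k2) H
    _ = ∑ a ∈ range (Dn H), ∑ b ∈ range (Dn H), ∑ k1 ∈ DB a, ∑ k2 ∈ DB b, f k1 k2 := by
        refine Finset.sum_congr rfl fun a _ => ?_
        rw [Finset.sum_comm]

/-- **Large kernels.** Total over all representations with kernel norm `> Q0`, for a finite
family, `H ≤ R^{1+δ}`, with the exceptional (centre) ranges as a hypothesis. -/
theorem one_main {δ : ℝ} (hδ : 0 < δ) (hδ1 : δ ≤ 1 / 9) (hHB : HBsq) {C' : ℝ} (hC' : 0 < C')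
    (hCLS : CLSc C') : ∃ C : ℝ, 0 < C ∧ ∀ (ι : Type) (S : Finset ι) (γ : ι → O → ℂ)
      (R H Q0 M : ℝ), 1 ≤ R → 1 ≤ H → H ≤ R ^ (1 + δ) → 0 < Q0 → 0 ≤ M →
      LVhyp S γ R H (R ^ δ) M →
      ∑ u ∈ U3, ∑ l ∈ Finset.range 3, ∑ s ∈ S, bigT (γ s) R H Q0 u l ≤
        C * (1 + Real.log H) ^ 2 * H ^ (1 / 3 : ℝ) *
          (R * (∑ s ∈ S, En (γ s) R) * (Q0 ^ (-(1 / 3 : ℝ)) + R ^ (-(δ / 6))) + M) := by
  obtain ⟨C0, hC0, hHBc⟩ := hHB (δ / 18) (by positivity)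
  refine ⟨36 * (30000 * (C0 + C') + 32), by positivity, ?_⟩
  intro ι S γ R H Q0 M hR hH hHR hQ0 hM hLV
  have hR0 : 0 < R := by linarith
  have hH0 : 0 < H := by linarith
  set w : ℝ := R ^ (1 / 3 : ℝ) with hwdef
  set z : ℝ := H ^ (1 / 3 : ℝ) with hzdef
  set q : ℝ := R ^ (δ / 3) with hqdef
  set p : ℝ := R ^ (δ / 6) with hpdef
  have hw : 1 ≤ w := one_le_cbrt hR
  have hz : 1 ≤ z := one_le_cbrt hH
  have hq : 1 ≤ q := Real.one_le_rpow hR (by positivity)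
  have hp1 : 1 ≤ p := Real.one_le_rpow hR (by positivity)
  have hw3 : R = w ^ 3 := (cbrt_pow hR0.le).symm
  have hz3 : H = z ^ 3 := (cbrt_pow hH0.le).symm
  have hq9 : q ^ 9 ≤ w := by
    rw [hqdef, hwdef, ← Real.rpow_natCast, ← Real.rpow_mul hR0.le]
    apply Real.rpow_le_rpow_of_exponent_le hR
    push_cast; linarith
  have hq3 : q ^ 3 = R ^ δ := by
    rw [hqdef, ← Real.rpow_natCast, ← Real.rpow_mul hR0.le]
    congr 1; push_cast; ring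
  have hzw : z ≤ w * q := by
    rw [hzdef, hwdef, hqdef, ← Real.rpow_add hR0]
    calc H ^ (1 / 3 : ℝ) ≤ (R ^ (1 + δ)) ^ (1 / 3 : ℝ) :=
          Real.rpow_le_rpow hH0.le hHR (by norm_num)
      _ = R ^ (1 / 3 + δ / 3) := by
          rw [← Real.rpow_mul hR0.le]; congr 1; ring
  have hp : ∀ t : ℝ, 1 ≤ t → t ≤ w ^ 9 → t ^ (δ / 18) ≤ p := by
    intro t ht1 ht
    have h9 : w ^ 9 = R ^ (3 : ℝ) := by
      rw [hwdef, ← Real.rpow_natCast, ← Real.rpow_mul hR0.le]; norm_num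
    calc t ^ (δ / 18) ≤ (w ^ 9) ^ (δ / 18) := Real.rpow_le_rpow (by linarith) ht (by positivity)
      _ = R ^ (3 * (δ / 18)) := by rw [h9, ← Real.rpow_mul hR0.le]
      _ = p := by rw [hpdef]; congr 1; ring
  have hpq : p ^ 2 ≤ q := by
    rw [hpdef, hqdef, ← Real.rpow_natCast, ← Real.rpow_mul hR0.le]
    apply le_of_eq; congr 1; push_cast; ring
  have hpinv : 1 / p = R ^ (-(δ / 6)) := by
    rw [hpdef, Real.rpow_neg hR0.le, one_div]
  rw [← hq3] at hLV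
  set E : ℝ := ∑ s ∈ S, En (γ s) R with hE
  have hE0 : 0 ≤ E := Finset.sum_nonneg fun s _ => En_nonneg _ _
  have hg : 0 < Q0 ^ (-(1 / 3 : ℝ)) := Real.rpow_pos_of_pos hQ0 _
  set B : ℝ := 30000 * (C0 + C') * (z * w ^ 3 * E) * (Q0 ^ (-(1 / 3 : ℝ)) + 1 / p) +
        32 * M * z with hB
  have hp0 : 0 < p := by linarith
  have hz0 : 0 < z := by linarith
  have hw0 : 0 < w := by linarith
  have hB0 : 0 ≤ B := by positivity
  have hblk : ∀ u ∈ U3, ∀ l ∈ Finset.range 3, ∀ a b : ℕ,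
      ∑ s ∈ S, blkT (γ s) R H Q0 u l a b ≤ B := fun u hu l hl a b =>
    one_block hC0 (by positivity) (by linarith) hHBc hC' hCLS hw hz hq hw3 hz3 hq9 hzw hp1 hp hpq
      hQ0 hM hLV hu hl a b
  have hul : ∀ u ∈ U3, ∀ l ∈ Finset.range 3, ∑ s ∈ S, bigT (γ s) R H Q0 u l ≤ (Dn H : ℝ) ^ 2 * B := by
    intro u hu l hl
    calc ∑ s ∈ S, bigT (γ s) R H Q0 u l
        ≤ ∑ s ∈ S, ∑ a ∈ range (Dn H), ∑ b ∈ range (Dn H), blkT (γ s) R H Q0 u l a b :=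
          Finset.sum_le_sum fun s _ => bigT_le _ _ _ _ _ _
      _ = ∑ a ∈ range (Dn H), ∑ b ∈ range (Dn H), ∑ s ∈ S, blkT (γ s) R H Q0 u l a b := by
          rw [Finset.sum_comm]
          refine Finset.sum_congr rfl fun a _ => ?_
          rw [Finset.sum_comm]
      _ ≤ ∑ a ∈ range (Dn H), ∑ b ∈ range (Dn H), B :=
          Finset.sum_le_sum fun a _ => Finset.sum_le_sum fun b _ => hblk u hu l hl a b
      _ = (Dn H : ℝ) ^ 2 * B := by
          simp only [Finset.sum_const, Finset.card_range, nsmul_eq_mul]; ring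
  have hD := Dn_le hH
  have hL : 0 ≤ Real.log H := Real.log_nonneg hH
  have hD2 : (Dn H : ℝ) ^ 2 ≤ 4 * (1 + Real.log H) ^ 2 := by
    have h0 : (0 : ℝ) ≤ Dn H := by positivity
    calc (Dn H : ℝ) ^ 2 ≤ (2 * (1 + Real.log H)) ^ 2 := pow_le_pow_left₀ h0 hD 2
      _ = 4 * (1 + Real.log H) ^ 2 := by ring
  calc ∑ u ∈ U3, ∑ l ∈ Finset.range 3, ∑ s ∈ S, bigT (γ s) R H Q0 u l
      ≤ ∑ u ∈ U3, ∑ l ∈ Finset.range 3, (Dn H : ℝ) ^ 2 * B :=
        Finset.sum_le_sum fun u hu => Finset.sum_le_sum fun l hl => hul u hu l hl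
    _ = U3.card * (3 * ((Dn H : ℝ) ^ 2 * B)) := by
        simp only [Finset.sum_const, Finset.card_range, nsmul_eq_mul]
        push_cast; ring
    _ ≤ 3 * (3 * ((4 * (1 + Real.log H) ^ 2) * B)) := by
        have : (U3.card : ℝ) ≤ 3 := by exact_mod_cast card_U3_le
        gcongr
    _ = 36 * (1 + Real.log H) ^ 2 * B := by ring
    _ ≤ 36 * (1 + Real.log H) ^ 2 *
          ((30000 * (C0 + C') + 32) *
            (z * (R * E * (Q0 ^ (-(1 / 3 : ℝ)) + R ^ (-(δ / 6))) + M))) := by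
        refine mul_le_mul_of_nonneg_left ?_ (by positivity)
        rw [hB, hpinv, ← hw3]
        set g : ℝ := Q0 ^ (-(1 / 3 : ℝ)) + R ^ (-(δ / 6)) with hgdef
        have hg0 : 0 ≤ g := by positivity
        have h1 : 0 ≤ 32 * (z * (R * E * g)) := by positivity
        have h2 : 0 ≤ 30000 * (C0 + C') * (z * M) := by positivity
        calc 30000 * (C0 + C') * (z * R * E) * g + 32 * M * z
            ≤ 30000 * (C0 + C') * (z * R * E) * g + 32 * M * z + (32 * (z * (R * E * g)) +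
              30000 * (C0 + C') * (z * M)) := by linarith
          _ = _ := by ring
    _ = _ := by ring

end Vale.Agent.P006.NC
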